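import Mathlib.NumberTheory.Cyclotomic.CyclotomicCharacter
import Mathlib.NumberTheory.Padics.RingHoms
import Mathlib.RingTheory.RootsOfUnity.Complex
import Mathlib.RingTheory.RootsOfUnity.AlgebraicallyClosed
import Mathlib.Analysis.Complex.Polynomial.Basic

/-!
# The finite adeles of the rationals, congruences, the cyclotomic character
-/

open Filter Topology

noncomputable section

namespace Vale.Agent.P022K.TP

/-- the prime numbers -/
abbrev Pr : Type := {p : ℕ // p.Prime}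

instance fp (r : Pr) : Fact r.1.Prime := ⟨r.2⟩

/-- the product of the fields `ℚ_r` -/
abbrev Qh : Type := ∀ r : Pr, ℚ_[r.1]

theorem nat_le (r : Pr) (n : ℕ) : ‖(n : ℚ_[r.1])‖ ≤ 1 := by
  simpa using Padic.norm_int_le_one (p := r.1) (n : ℤ)

/-- the finite adeles as a subalgebra -/
def AfS : Subalgebra ℚ Qh where
  carrier := {x | ∃ d : ℕ, 0 < d ∧ ∀ r, ‖(d : ℚ_[r.1]) * x r‖ ≤ 1}
  mul_mem' := fun {x y} ⟨d, hd, hx⟩ ⟨e, he, hy⟩ => ⟨d * e, Nat.mul_pos hd he, fun r => by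
    rw [Pi.mul_apply, Nat.cast_mul, mul_mul_mul_comm, norm_mul]
    exact mul_le_one₀ (hx r) (norm_nonneg _) (hy r)⟩
  add_mem' := fun {x y} ⟨d, hd, hx⟩ ⟨e, he, hy⟩ => ⟨d * e, Nat.mul_pos hd he, fun r => by
    rw [Pi.add_apply, Nat.cast_mul, show (d : ℚ_[r.1]) * e * (x r + y r) =
      e * (d * x r) + d * (e * y r) by ring]
    refine (Padic.nonarchimedean _ _).trans (max_le ?_ ?_) <;> rw [norm_mul]
    exacts [mul_le_one₀ (nat_le r e) (norm_nonneg _) (hx r),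
      mul_le_one₀ (nat_le r d) (norm_nonneg _) (hy r)]⟩
  algebraMap_mem' q := ⟨q.den, q.den_pos, fun r => by
    have : ((q.den : ℚ_[r.1]) * algebraMap ℚ Qh q r) = (q.num : ℤ) := by
      change (q.den : ℚ_[r.1]) * (q : ℚ_[r.1]) = _
      exact_mod_cast Rat.den_mul_eq_num q
    rw [this]
    exact Padic.norm_int_le_one _⟩

/-- the finite adeles -/
def Af : Type := AfS

instance : CommRing Af := inferInstanceAs (CommRing AfS)
instance : Algebra ℚ Af := inferInstanceAs (Algebra ℚ AfS)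

/-- the component at `r` -/
def pr (r : Pr) : Af →ₐ[ℚ] ℚ_[r.1] := (Pi.evalAlgHom ℚ _ r).comp AfS.val

theorem pr_apply (r : Pr) (x : Af) : pr r x = x.1 r := rfl

theorem ext_pr {x y : Af} (h : ∀ r, pr r x = pr r y) : x = y := Subtype.ext (funext h)

/-- an adele from its components -/
def mkA (x : Qh) (d : ℕ) (hd : 0 < d) (h : ∀ r, ‖(d : ℚ_[r.1]) * x r‖ ≤ 1) : Af := ⟨x, d, hd, h⟩

theorem pr_mkA (x : Qh) (d : ℕ) (hd : 0 < d) (h : ∀ r, ‖(d : ℚ_[r.1]) * x r‖ ≤ 1) (r : Pr) :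
    pr r (mkA x d hd h) = x r := rfl

/-- rational numbers as adeles -/
abbrev cA : ℚ →+* Af := algebraMap ℚ Af

theorem pr_cA (r : Pr) (q : ℚ) : pr r (cA q) = q := (pr r).commutes q

/-- `n Zhat` -/
def Zn (n : ℕ) : AddSubgroup Af where
  carrier := {x | ∀ r, ‖pr r x‖ ≤ ‖(n : ℚ_[r.1])‖}
  zero_mem' r := by simp
  add_mem' := fun {x y} hx hy r => by
    rw [map_add]; exact (Padic.nonarchimedean _ _).trans (max_le (hx r) (hy r))
  neg_mem' := fun {x} hx r => by rw [map_neg, norm_neg]; exact hx r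

theorem mem_Zn {n : ℕ} {x : Af} : x ∈ Zn n ↔ ∀ r, ‖pr r x‖ ≤ ‖(n : ℚ_[r.1])‖ := Iff.rfl

theorem mem_Z1 {x : Af} : x ∈ Zn 1 ↔ ∀ r, ‖pr r x‖ ≤ 1 := by simp [mem_Zn]

theorem Zn_mul {m n : ℕ} {x y : Af} (hx : x ∈ Zn m) (hy : y ∈ Zn n) : x * y ∈ Zn (m * n) :=
  fun r => by
    rw [map_mul, Nat.cast_mul, norm_mul, norm_mul]
    exact mul_le_mul (hx r) (hy r) (norm_nonneg _) (norm_nonneg _)

theorem Zn_mul1 {n : ℕ} {x y : Af} (hx : x ∈ Zn 1) (hy : y ∈ Zn n) : x * y ∈ Zn n := by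
  simpa using Zn_mul hx hy

theorem Zn_anti {m n : ℕ} (h : m ∣ n) : Zn n ≤ Zn m := fun x hx r => by
  obtain ⟨c, rfl⟩ := h
  refine (hx r).trans ?_
  rw [Nat.cast_mul, norm_mul]
  exact mul_le_of_le_one_right (norm_nonneg _) (nat_le r c)

theorem nat_mem (n : ℕ) : (n : Af) ∈ Zn n := fun r => by rw [map_natCast]

theorem int_mem (z : ℤ) : (z : Af) ∈ Zn 1 := mem_Z1.2 fun r => by
  rw [map_intCast]; exact Padic.norm_int_le_one _

theorem one_mem1 : (1 : Af) ∈ Zn 1 := by simpa using int_mem 1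

/-- `Zhat` -/
def Zh : Subring Af where
  toAddSubgroup := Zn 1
  one_mem' := one_mem1
  mul_mem' := Zn_mul1

theorem mem_Zh {x : Af} : x ∈ Zh ↔ x ∈ Zn 1 := Iff.rfl

theorem mul_mem_iff {d n : ℕ} (hd : 0 < d) {x : Af} : (d : Af) * x ∈ Zn (d * n) ↔ x ∈ Zn n :=
  forall_congr' fun r => by
    rw [map_mul, map_natCast, Nat.cast_mul, norm_mul, norm_mul]
    exact mul_le_mul_iff_right₀ (norm_pos_iff.2 (Nat.cast_ne_zero.2 hd.ne'))

theorem exists_den (x : Af) : ∃ d : ℕ, 0 < d ∧ (d : Af) * x ∈ Zn 1 := by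
  obtain ⟨d, hd, h⟩ := x.2
  exact ⟨d, hd, mem_Z1.2 fun r => by rw [map_mul, map_natCast]; exact h r⟩

theorem exists_den_fin {I : Type} [Finite I] (x : I → Af) :
    ∃ d : ℕ, 0 < d ∧ ∀ i, (d : Af) * x i ∈ Zn 1 := by
  have := Fintype.ofFinite I
  choose d hd h using fun i => exists_den (x i)
  refine ⟨∏ i, d i, Finset.prod_pos fun i _ => hd i, fun i => ?_⟩
  obtain ⟨c, hc⟩ := Finset.dvd_prod_of_mem d (Finset.mem_univ i)
  rw [hc, mul_comm (d i), Nat.cast_mul, mul_assoc]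
  exact Zn_mul1 (by simpa using int_mem c) (h i)

/-- multiplication by a fixed adele is continuous -/
theorem mul_den {d n : ℕ} (hd : 0 < d) {x y : Af} (hx : (d : Af) * x ∈ Zn 1)
    (hy : y ∈ Zn (d * n)) : x * y ∈ Zn n := by
  rw [← mul_mem_iff hd, ← mul_assoc]
  exact Zn_mul1 hx hy

theorem exists_eq_mul {n : ℕ} (hn : 0 < n) {x : Af} (hx : x ∈ Zn n) :
    ∃ y ∈ Zn 1, x = n * y := by
  have e : (n : Af) * (cA (n : ℚ)⁻¹ * x) = x := by
    rw [← mul_assoc, ← map_natCast cA, ← map_mul, mul_inv_cancel₀ (Nat.cast_ne_zero.2 hn.ne'),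
      map_one, one_mul]
  exact ⟨_, (mul_mem_iff hn).1 (by rwa [e, mul_one]), e.symm⟩

theorem rat_int1 {q : ℚ} (h : cA q ∈ Zn 1) : ∃ z : ℤ, q = z := by
  refine ⟨q.num, ((Rat.den_eq_one_iff q).1 ?_).symm⟩
  by_contra hq
  obtain ⟨r, hr, hd⟩ := Nat.exists_prime_and_dvd hq
  have : Fact r.Prime := ⟨hr⟩
  have h1 : ‖(q : ℚ_[r])‖ ≤ 1 := (pr_cA ⟨r, hr⟩ q) ▸ mem_Z1.1 h ⟨r, hr⟩
  have h2 : ((q.den : ℤ) : ℚ_[r]) * (q : ℚ_[r]) = (q.num : ℤ) := by
    exact_mod_cast Rat.den_mul_eq_num q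
  have h3 : ‖((q.num : ℤ) : ℚ_[r])‖ < 1 := by
    rw [← h2, norm_mul]
    exact mul_lt_one_of_nonneg_of_lt_one_left (norm_nonneg _)
      (Padic.norm_intCast_lt_one_iff.2 (Int.natCast_dvd_natCast.2 hd)) h1
  have h4 := Int.natCast_dvd.1 (Padic.norm_intCast_lt_one_iff.1 h3)
  exact hr.one_lt.ne' (Nat.eq_one_of_dvd_coprimes q.reduced h4 hd)

theorem rat_mem {n : ℕ} (hn : 0 < n) {q : ℚ} : cA q ∈ Zn n ↔ ∃ z : ℤ, q = n * z := by
  have h0 : (n : ℚ) ≠ 0 := Nat.cast_ne_zero.2 hn.ne'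
  constructor
  · intro h
    have e : cA q = n * cA ((n : ℚ)⁻¹ * q) := by
      rw [← map_natCast cA, ← map_mul, mul_inv_cancel_left₀ h0]
    obtain ⟨z, hz⟩ := rat_int1 ((mul_mem_iff hn (n := 1)).1 (by rwa [← e, mul_one]))
    exact ⟨z, by rw [← hz, mul_inv_cancel_left₀ h0]⟩
  · rintro ⟨z, rfl⟩
    rw [map_mul, map_natCast, map_intCast]
    rw [mul_comm]
    exact Zn_mul1 (int_mem z) (nat_mem n)

theorem int_mem_iff {n : ℕ} (hn : 0 < n) {z : ℤ} : (z : Af) ∈ Zn n ↔ (n : ℤ) ∣ z := by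
  rw [← map_intCast cA, rat_mem hn]
  exact exists_congr fun c => by exact_mod_cast Iff.rfl

theorem sep {x : Af} (h : ∀ n, 0 < n → x ∈ Zn n) : x = 0 := ext_pr fun r => by
  rw [map_zero, ← norm_le_zero_iff]
  have h1 : Tendsto (fun k : ℕ => ‖(r.1 : ℚ_[r.1])‖ ^ k) atTop (𝓝 0) :=
    tendsto_pow_atTop_nhds_zero_of_lt_one (norm_nonneg _) Padic.norm_p_lt_one
  refine ge_of_tendsto' h1 fun k => ?_
  simpa using h (r.1 ^ k) (pow_pos r.2.pos k) r

theorem dens1 {x : Af} (hx : x ∈ Zn 1) {n : ℕ} (hn : 0 < n) : ∃ z : ℤ, x - z ∈ Zn n := by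
  induction n using Nat.recOnPosPrimePosCoprime with
  | prime_pow p k hp hk =>
    have : Fact p.Prime := ⟨hp⟩
    let y : ℤ_[p] := ⟨pr ⟨p, hp⟩ x, mem_Z1.1 hx ⟨p, hp⟩⟩
    refine ⟨y.appr k, fun r => ?_⟩
    by_cases h : r.1 = p
    · obtain rfl : r = ⟨p, hp⟩ := Subtype.ext h
      have h1 := (PadicInt.norm_le_pow_iff_mem_span_pow _ k).2 (y.appr_spec k)
      rw [map_sub, map_intCast, Nat.cast_pow, norm_pow, Padic.norm_p, inv_pow, ← zpow_natCast,
        ← zpow_neg]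
      exact_mod_cast h1
    · have h1 : ‖((p ^ k : ℕ) : ℚ_[r.1])‖ = 1 := by
        rw [Padic.norm_natCast_eq_one_iff]
        exact Nat.Coprime.pow_right _ ((Nat.coprime_primes r.2 hp).2 h)
      rw [h1]
      exact mem_Z1.1 (sub_mem hx (int_mem _)) r
  | zero => exact absurd hn (lt_irrefl 0)
  | one => exact ⟨0, by simpa using hx⟩
  | coprime a b ha hb hab iha ihb =>
    obtain ⟨s, hs⟩ := iha (by omega)
    obtain ⟨t, ht⟩ := ihb (by omega)
    obtain ⟨u, v, h⟩ := Nat.isCoprime_iff_coprime.2 hab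
    refine ⟨u * a * t + v * b * s, ?_⟩
    have e : x - ((u * a * t + v * b * s : ℤ) : Af) = u * (a * (x - t)) + v * (b * (x - s)) := by
      have h' : (u : Af) * a + v * b = 1 := by exact_mod_cast congrArg (Int.cast : ℤ → Af) h
      push_cast
      linear_combination (-x) * h'
    rw [e]
    exact add_mem (Zn_mul1 (int_mem u) (Zn_mul (nat_mem a) ht))
      (Zn_mul1 (int_mem v) (mul_comm b a ▸ Zn_mul (nat_mem b) hs))

/-- the rationals are dense -/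
theorem dens (x : Af) {n : ℕ} (hn : 0 < n) : ∃ q : ℚ, x - cA q ∈ Zn n := by
  obtain ⟨d, hd, h⟩ := exists_den x
  obtain ⟨z, hz⟩ := dens1 h (Nat.mul_pos hd hn)
  refine ⟨z / d, (mul_mem_iff hd).1 ?_⟩
  rwa [mul_sub, ← map_natCast cA, ← map_mul, mul_div_cancel₀ _ (Nat.cast_ne_zero.2 hd.ne'),
    map_intCast, map_natCast]

/-- completeness -/
theorem lim (x : ℕ → Af) (h : ∀ m n, 0 < m → 0 < n → m ∣ n → x n - x m ∈ Zn m) :
    ∃ y : Af, ∀ n, 0 < n → y - x n ∈ Zn n := by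
  have h1 : ∀ r : Pr, ∃ y, Tendsto (fun k => pr r (x (r.1 ^ k))) atTop (𝓝 y) := fun r => by
    refine cauchySeq_tendsto_of_complete (cauchySeq_of_le_geometric ‖(r.1 : ℚ_[r.1])‖ 1
      Padic.norm_p_lt_one fun k => ?_)
    rw [dist_comm, dist_eq_norm, ← map_sub, one_mul, ← norm_pow, ← Nat.cast_pow]
    exact h _ _ (pow_pos r.2.pos _) (pow_pos r.2.pos _) (pow_dvd_pow _ k.le_succ) r
  choose y hy using h1
  have h2 : ∀ n, 0 < n → ∀ r, ‖y r - pr r (x n)‖ ≤ ‖(n : ℚ_[r.1])‖ := fun n hn r => by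
    obtain ⟨k, m, hm, rfl⟩ := Nat.exists_eq_pow_mul_and_not_dvd hn.ne' r.1 r.2.ne_one
    have hk := pow_pos r.2.pos k
    have e : ‖((r.1 ^ k * m : ℕ) : ℚ_[r.1])‖ = ‖((r.1 ^ k : ℕ) : ℚ_[r.1])‖ := by
      rw [Nat.cast_mul, norm_mul, Padic.norm_natCast_eq_one_iff.2
        ((Nat.Prime.coprime_iff_not_dvd r.2).2 hm), mul_one]
    refine le_of_tendsto ((hy r).sub_const _).norm (eventually_atTop.2 ⟨k, fun j hj => ?_⟩)
    rw [e, ← map_sub]
    have := sub_mem (h _ _ hk (pow_pos r.2.pos j) (pow_dvd_pow _ hj))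
      (h _ _ hk hn (dvd_mul_right _ _))
    rw [sub_sub_sub_cancel_right] at this
    exact this r
  obtain ⟨d, hd, h3⟩ := exists_den (x 1)
  refine ⟨⟨y, d, hd, fun r => ?_⟩, fun n hn r => h2 n hn r⟩
  rw [show (d : ℚ_[r.1]) * y r = d * (y r - pr r (x 1)) + pr r (d * x 1) by
    rw [map_mul, map_natCast]; ring]
  refine (Padic.nonarchimedean _ _).trans (max_le ?_ (mem_Z1.1 h3 r))
  rw [norm_mul]
  exact mul_le_one₀ (nat_le r d) (norm_nonneg _) (by simpa using h2 1 one_pos r)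

/-- an integral family of components is an adele -/
def mkZ (x : ∀ r : Pr, ℤ_[r.1]) : Af := ⟨fun r => x r, 1, one_pos, fun r => by
  simpa using (x r).2⟩

theorem pr_mkZ (x : ∀ r : Pr, ℤ_[r.1]) (r : Pr) : pr r (mkZ x) = x r := rfl

theorem mkZ_mem (x : ∀ r : Pr, ℤ_[r.1]) : mkZ x ∈ Zn 1 := mem_Z1.2 fun r => (x r).2

variable (L : Type) [Field L]

/-- the cyclotomic character -/
def chi : (L ≃+* L) →* Af where
  toFun s := mkZ fun r => cyclotomicCharacter L r.1 s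
  map_one' := ext_pr fun r => by simp [pr_mkZ]
  map_mul' s t := ext_pr fun r => by simp [pr_mkZ]

variable {L}

theorem pr_chi (s : L ≃+* L) (r : Pr) :
    pr r (chi L s) = ((cyclotomicCharacter L r.1 s : ℤ_[r.1]ˣ) : ℤ_[r.1]) := rfl

theorem chi_mem (s : L ≃+* L) : chi L s ∈ Zn 1 := mkZ_mem _

theorem chi_mul_inv (s : L ≃+* L) : chi L s * chi L s⁻¹ = 1 := by
  rw [← map_mul, mul_inv_cancel, map_one]

theorem chi_spec [IsAlgClosed L] [CharZero L] (s : L ≃+* L) {n : ℕ} (hn : 0 < n) {t : L}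
    (ht : t ^ n = 1) {z : ℤ} (hz : chi L s - z ∈ Zn n) : s t = t ^ z := by
  induction n using Nat.recOnPosPrimePosCoprime generalizing t with
  | prime_pow p k hp hk =>
    have : Fact p.Prime := ⟨hp⟩
    have h0 : t ≠ 0 := by rintro rfl; rw [zero_pow hn.ne'] at ht; exact zero_ne_one ht
    rw [cyclotomicCharacter.spec p s t ht, ← zpow_natCast]
    have h1 : ‖(((cyclotomicCharacter L p s : ℤ_[p]ˣ) : ℤ_[p]) : ℚ_[p]) - z‖ ≤
        ‖((p ^ k : ℕ) : ℚ_[p])‖ := by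
      have := hz ⟨p, hp⟩
      rw [map_sub, map_intCast] at this
      exact this
    rw [Nat.cast_pow, norm_pow, Padic.norm_p, inv_pow, ← zpow_natCast, ← zpow_neg] at h1
    have h2 : ‖((cyclotomicCharacter L p s : ℤ_[p]ˣ) : ℤ_[p]) - z‖ ≤ (p : ℝ) ^ (-(k : ℤ)) := by
      exact_mod_cast h1
    rw [PadicInt.norm_le_pow_iff_mem_span_pow, ← PadicInt.ker_toZModPow, RingHom.mem_ker,
      map_sub, sub_eq_zero, map_intCast] at h2
    rw [h2]
    obtain ⟨c, hc⟩ := (ZMod.intCast_eq_intCast_iff_dvd_sub (((z : ZMod (p ^ k))).val : ℤ) z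
      (p ^ k)).1 (by simp)
    conv_rhs => rw [sub_eq_iff_eq_add.1 hc, zpow_add₀ h0, zpow_mul, zpow_natCast, ht, one_zpow,
      one_mul]
  | zero => exact absurd hn (lt_irrefl 0)
  | one => rw [pow_one] at ht; simp [ht]
  | coprime a b ha hb hab iha ihb =>
    have h0 : t ≠ 0 := by rintro rfl; rw [zero_pow hn.ne'] at ht; exact zero_ne_one ht
    obtain ⟨u, v, h⟩ := Nat.isCoprime_iff_coprime.2 hab
    have e : t = (t ^ a) ^ u * (t ^ b) ^ v := by
      rw [← zpow_natCast, ← zpow_natCast, ← zpow_mul, ← zpow_mul, ← zpow_add₀ h0, mul_comm _ u,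
        mul_comm _ v, h, zpow_one]
    have h1 := ihb (by omega) (t := t ^ a) (by rw [← pow_mul, ht]) (Zn_anti (dvd_mul_left b a) hz)
    have h2 := iha (by omega) (t := t ^ b) (by rw [← pow_mul, mul_comm, ht])
      (Zn_anti (dvd_mul_right a b) hz)
    conv_lhs => rw [e, map_mul, map_zpow₀, map_zpow₀, h1, h2]
    conv_rhs => rw [e, mul_zpow]
    simp only [← zpow_mul, mul_comm]

/-- an adele that acts on the roots of unity like `s` -/
theorem chi_uniq [IsAlgClosed L] [CharZero L] (s : L ≃+* L) {c : Af} (hc : c ∈ Zn 1)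
    (h : ∀ n, 0 < n → ∀ t : L, t ^ n = 1 → ∀ z : ℤ, c - z ∈ Zn n → s t = t ^ z) :
    c = chi L s := by
  refine sub_eq_zero.1 (sep fun n hn => ?_)
  obtain ⟨z, hz⟩ := dens1 hc hn
  obtain ⟨z', hz'⟩ := dens1 (chi_mem s) hn
  have : NeZero n := ⟨hn.ne'⟩
  obtain ⟨t, ht⟩ := HasEnoughRootsOfUnity.exists_primitiveRoot L n
  have h1 := (h n hn t ht.pow_eq_one z hz).symm.trans (chi_spec s hn ht.pow_eq_one hz')
  have h0 : t ≠ 0 := ht.ne_zero hn.ne'
  have h2 : (n : ℤ) ∣ z - z' := (ht.zpow_eq_one_iff_dvd _).1 (by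
    rw [zpow_sub₀ h0, h1, div_self (zpow_ne_zero _ h0)])
  have := add_mem (sub_mem hz hz') ((int_mem_iff hn).2 h2)
  rwa [show c - z - (chi L s - z') + ((z - z' : ℤ) : Af) = c - chi L s by push_cast; ring] at this

/-- compatibility with embeddings -/
theorem chi_comp {L' : Type} [Field L'] [IsAlgClosed L] [CharZero L] [IsAlgClosed L'] [CharZero L']
    (j : L →+* L') {s : L ≃+* L} {s' : L' ≃+* L'} (h : ∀ x, s' (j x) = j (s x)) :
    chi L' s' = chi L s :=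
  chi_uniq s (chi_mem s') fun n hn t ht z hz => j.injective <| by
    rw [← h, chi_spec s' hn (by rw [← map_pow, ht, map_one]) hz, map_zpow₀]

end Vale.Agent.P022K.TP
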