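import Vale.Agent.P022K.TP.Bas
import Mathlib.Analysis.Calculus.FDeriv.Star

/-!
# Rows HOM (rational transport) and CC (complex conjugation)
-/

open Matrix Complex

noncomputable section

namespace Vale.Agent.P022K.TP

open P010MR P010M71 P010MT8

variable {g g1 : ℕ}

namespace Hh

theorem ps_mul (f : Matrix (Ix g) (Ix g1) ℂ) (x y : V g1) :
    ps (f *ᵥ x) (f *ᵥ y) = x ⬝ᵥ (fᵀ * J (Fin g) ℂ * f) *ᵥ y := by
  rw [ps, ← vecMul_transpose, ← dotProduct_mulVec, mulVec_mulVec, mulVec_mulVec]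

theorem cm_form (f : Matrix (Ix g) (Ix g1) ℚ) :
    (cm f)ᵀ * J (Fin g) ℂ * cm f = cm (fᵀ * J (Fin g) ℚ * f) := by
  rw [cm_mul, cm_mul, cm_J]; rfl

theorem ps_sum {κ : Type} [Fintype κ] {f : κ → Matrix (Ix g) (Ix g1) ℚ} {c : ℚ}
    (h : ∑ i, (f i)ᵀ * J (Fin g) ℚ * f i = c • J (Fin g1) ℚ) (x y : V g1) :
    ∑ i, ps (cm (f i) *ᵥ x) (cm (f i) *ᵥ y) = c * ps x y := by
  have e : ∑ i, cm ((f i)ᵀ * J (Fin g) ℚ * f i) = (c : ℂ) • J (Fin g1) ℂ := by
    rw [← cm_J]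
    ext a b
    have := congrFun (congrFun h a) b
    simp only [Matrix.sum_apply, cm, map_apply, Matrix.smul_apply, smul_eq_mul] at this ⊢
    exact_mod_cast this
  simp only [ps_mul, cm_form]
  rw [← dotProduct_sum, ← sum_mulVec, e, smul_mulVec, dotProduct_smul, smul_eq_mul, ps]

/-- a rational matrix maps a deep lattice into a given lattice -/
theorem exists_vz (f : Matrix (Ix g) (Ix g1) ℚ) :
    ∃ d, 0 < d ∧ ∀ n, 0 < n → ∀ z, Vz (d * n) z → Vz n (f *ᵥ z) := by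
  obtain ⟨d, hd, h⟩ := exists_cont (am f)
  exact ⟨d, hd, fun n hn z hz => (vn_av hn).1 (by
    rw [← am_mulVec]; exact h n _ ((vn_av (Nat.mul_pos hd hn)).2 hz))⟩

theorem vz_anti {a b : ℕ} {z : Ix g → ℚ} (h : Vz b z) (hd : a ∣ b) : Vz a z := by
  obtain ⟨c, rfl⟩ := hd
  exact h.mono

theorem diff_cm (f : Matrix (Ix g) (Ix g1) ℂ) : Differentiable ℂ fun v : V g1 => f *ᵥ v :=
  f.mulVecLin.toContinuousLinearMap.differentiable

/-- products of pulled back theta functions -/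
theorem prod_mem {κ : Type} [Fintype κ] {τ : κ → Mc g} {t : Mc g1}
    {f : κ → Matrix (Ix g) (Ix g1) ℚ} {c : ℚ} {N N' : ℕ} (hN : (N' : ℚ) = N * c)
    (h : ∑ i, (f i)ᵀ * J (Fin g) ℚ * f i = c • J (Fin g1) ℚ) (hm : ∀ i, Hm t (τ i) (f i))
    {s : κ → V g → ℂ} (hs : ∀ i, s i ∈ WU (τ i) N) :
    (fun v => ∏ i, s i (cm (f i) *ᵥ v)) ∈ WU t N' := by
  classical
  choose n hn hs using hs
  choose d hd hz using fun i => exists_vz (f i)
  have hN' : (N' : ℂ) = N * c := by exact_mod_cast hN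
  have key : ∀ x y : V g1, (N' : ℂ) * ps x y =
      ∑ i, N * ps (cm (f i) *ᵥ x) (cm (f i) *ᵥ y) := fun x y => by
    rw [← Finset.mul_sum, ps_sum h, hN', mul_assoc]
  refine ⟨∏ i, d i * n i, Finset.prod_pos fun i _ => Nat.mul_pos (hd i) (hn i),
    mem_WS.2 ⟨⟨fun x => (HasFDerivAt.finsetProd fun j _ =>
      (((hs j).1.comp (diff_cm (cm (f j)))) x).hasFDerivAt).differentiableAt, fun x v => ?_⟩,
      fun z hz' => (tr_eq_iff _).2 fun v => ?_⟩⟩
  · rw [key, ← Finset.sum_neg_distrib, ee_sum, ← Finset.prod_mul_distrib]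
    refine Finset.prod_congr rfl fun j _ => ?_
    obtain ⟨y, hy⟩ := hm j x
    rw [mulVec_add, show cm (f j) *ᵥ (per t *ᵥ x) = per (τ j) *ᵥ y from hy, (hs j).2.2]
  · rw [key, ee_sum, ← Finset.prod_mul_distrib]
    refine Finset.prod_congr rfl fun j _ => ?_
    rw [mulVec_add, cm_cq]
    exact (tr_eq_iff _).1 ((mem_WS.1 (hs j)).2 _ (hz j _ (hn j) _
      (vz_anti hz' (Finset.dvd_prod_of_mem (fun i => d i * n i) (Finset.mem_univ j))))) _

/-- conjugation of such products -/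
theorem prod_cn {κ : Type} [Fintype κ] {σ : ℂ ≃+* ℂ} {u : κ → Mi g Af} {u1 : Mi g1 Af}
    {f f' : κ → Matrix (Ix g) (Ix g1) ℚ} (hu : ∀ i, u i * am (f i) = am (f' i) * u1)
    {s s' : κ → V g → ℂ} (hc : ∀ i, Cn σ (u i) (s i) (s' i)) :
    Cn σ u1 (fun v => ∏ i, s i (cm (f i) *ᵥ v)) (fun v => ∏ i, s' i (cm (f' i) *ᵥ v)) := by
  intro v
  choose n hn h using fun i => hc i (f i *ᵥ v)
  choose d hd hz using fun i => exists_cont (am (f' i))
  refine ⟨∏ i, d i * n i, Finset.prod_pos fun i _ => Nat.mul_pos (hd i) (hn i), fun w hw => ?_⟩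
  simp only [map_prod, cm_cq]
  refine Finset.prod_congr rfl fun j _ => h j _ ?_
  have := hz j _ _ (hw.anti (Finset.dvd_prod_of_mem (fun i => d i * n i) (Finset.mem_univ j)))
  rwa [mulVec_sub, mulVec_mulVec, ← hu, ← mulVec_mulVec, am_mulVec, am_mulVec] at this

theorem am_sum {κ m m' : Type} [Fintype κ] (f : κ → Matrix m m' ℚ) :
    am (∑ i, f i) = ∑ i, am (f i) := by
  ext a b
  simp [am, Matrix.sum_apply]

/-- the form identity is transported -/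
theorem form_tr {κ : Type} [Fintype κ] {σ : ℂ ≃+* ℂ} {u : κ → Mi g Af} {u1 : Mi g1 Af}
    {f f' : κ → Matrix (Ix g) (Ix g1) ℚ} {c : ℚ} (hs : ∀ i, Sim σ (u i)) (h1 : Sim σ u1)
    (h : ∑ i, (f i)ᵀ * J (Fin g) ℚ * f i = c • J (Fin g1) ℚ)
    (hu : ∀ i, u i * am (f i) = am (f' i) * u1) :
    ∑ i, (f' i)ᵀ * J (Fin g) ℚ * f' i = c • J (Fin g1) ℚ := by
  have e : ∀ i, am (f' i) = u i * am (f i) * ui σ u1 := fun i => by
    rw [hu, Matrix.mul_assoc, h1.mul_ui, Matrix.mul_one]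
  have e1 : ∀ i, am ((f' i)ᵀ * J (Fin g) ℚ * f' i) =
      chi ℂ σ • ((ui σ u1)ᵀ * am ((f i)ᵀ * J (Fin g) ℚ * f i) * ui σ u1) := fun i => by
    have := hs i
    rw [Sim] at this
    simp only [am_mul, am_tr, am_J, e i, transpose_mul]
    calc _ = (ui σ u1)ᵀ * ((am (f i))ᵀ * ((u i)ᵀ * J (Fin g) Af * u i) * am (f i)) * ui σ u1 := by
          simp only [Matrix.mul_assoc]
      _ = _ := by rw [this]; simp only [Matrix.mul_smul, Matrix.smul_mul]
  refine am_inj ?_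
  have h2 := h1.inv h1.mul_ui
  rw [Sim] at h2
  rw [am_sum, Finset.sum_congr rfl fun i _ => e1 i, ← Finset.smul_sum, ← Matrix.sum_mul,
    ← Matrix.mul_sum, ← am_sum, h, am_smul, am_J, Matrix.mul_smul, Matrix.smul_mul, h2,
    smul_comm, smul_smul (chi ℂ σ), chi_mul_inv, one_smul]

theorem chi_cc : chi ℂ cc = -1 := by
  refine (chi_uniq cc (neg_mem one_mem1) fun n hn t ht z hz => ?_).symm
  have h0 : t ≠ 0 := by rintro rfl; rw [zero_pow hn.ne'] at ht; exact zero_ne_one ht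
  obtain ⟨c, hc⟩ := (int_mem_iff hn (z := -1 - z)).1 (by push_cast; exact hz)
  have h1 : ‖t‖ = 1 := by
    have := congrArg norm ht
    rw [norm_pow, norm_one] at this
    exact (pow_eq_one_iff_of_nonneg (norm_nonneg _) hn.ne').1 this
  rw [show z = -1 + n * (-c) by linear_combination -hc, zpow_add₀ h0, _root_.zpow_mul,
    _root_.zpow_natCast, ht, _root_.one_zpow, mul_one, _root_.zpow_neg_one, inv_eq_conj h1]
  rfl

theorem star_ee (x : ℂ) : star (ee x) = ee (-star x) := by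
  rw [ee, ee, star_def, ← exp_conj]
  congr 1
  simp [conj_ofNat]

theorem star_ps (x y : V g) : star (ps x y) = ps (star x) (star y) := by
  simp [ps_eq]

theorem star_cq (v : Ix g → ℚ) : star (cq v) = cq v := by
  funext i; simp [cq]

end Hh

open Hh

/-- **HOM** -/
theorem hom (g g1 : ℕ) : HOM g g1 := by
  intro σ κ _ τ τ' u t t' u1 f f' c hR ht ht' h1 hm hm' hc h hu
  have hN : ((c.num.toNat : ℕ) : ℚ) = c.den * c := by
    rw [Rat.den_mul_eq_num, ← Int.cast_natCast, Int.toNat_of_nonneg (Rat.num_pos.2 hc).le]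
  choose s hs h0 using fun i => exists_ne_zero (hR i).h c.den_pos
  choose s' hs' hcn using fun i => (hR i).sec _ c.den_pos _ (hs i)
  refine one g1 σ t t' u1 ht ht' h1 _ (by have := Rat.num_pos.2 hc; omega) _
    (prod_mem hN h hm hs) _
    (prod_mem hN (form_tr (fun i => (hR i).sim) h1 h hu) hm' hs') (fun e => ?_) (prod_cn hu hcn)
  have := congrFun e 0
  simp only [mulVec_zero, Pi.zero_apply] at this
  exact Finset.prod_ne_zero_iff.2 (fun i _ => h0 i) this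

/-- **CC** -/
theorem cc_row (g : ℕ) : CC g := by
  intro τ hτ τ' hτ' w hw hm
  obtain ⟨s, hs0, h0⟩ := exists_ne_zero hτ' one_pos
  obtain ⟨n, hn, hs⟩ := id hs0
  obtain ⟨d, hd, hz⟩ := exists_vz w
  have key : ∀ x y : V g, ps (cm w *ᵥ x) (cm w *ᵥ y) = -ps x y := fun x y => by
    rw [ps_mul, cm_form, hw, show cm (-J (Fin g) ℚ) = -J (Fin g) ℂ by
      rw [← cm_J]; ext; simp [cm], neg_mulVec, dotProduct_neg, ps]
  have hp := (mem_WS.1 hs).2
  refine one g cc τ τ' (am w) hτ hτ' ?_ 1 one_pos (fun v => star (s (cm w *ᵥ star v)))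
    ⟨d * n, Nat.mul_pos hd hn, mem_WS.2 ⟨⟨fun x => ?_, fun x v => ?_⟩,
      fun z hz' => (tr_eq_iff _).2 fun v => ?_⟩⟩ s hs0 (fun e => ?_) fun v => ?_
  · rw [Sim, chi_cc, ← am_J, ← am_tr, ← am_mul, ← am_mul, hw, am_neg, neg_one_smul]
  · have := ((hs.1.comp (diff_cm (cm w))) (star x)).star_star
    rwa [star_star] at this
  · obtain ⟨y, hy⟩ := hm x
    beta_reduce
    rw [star_add, mulVec_add, hy, hs.2.2, ← hy, key, star_mul', star_ee]
    simp [star_ps]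
  · rw [star_add, mulVec_add, star_cq, cm_cq, (tr_eq_iff _).1 (hp _ (hz n hn z hz')),
      ← cm_cq, key, star_mul', star_ee]
    simp [star_ps, star_cq]
  · have := congrFun e 0
    simp only [star_zero, mulVec_zero, Pi.zero_apply, star_eq_zero] at this
    exact h0 this
  · obtain ⟨m, hm, h⟩ := WU.val hs0 (am w *ᵥ av v)
    refine ⟨m, hm, fun w' hw' => ?_⟩
    beta_reduce
    rw [h (w *ᵥ v) w' (by rw [am_mulVec, sub_self]; exact vn_zero m) hw', star_cq, cm_cq]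
    exact star_star _

/-! ### Special cases -/

variable {σ : ℂ ≃+* ℂ} {τ τ' : Mc g} {t t' : Mc g1} {u : Mi g Af} {u1 : Mi g1 Af}

/-- transport along one pair of similitudes -/
theorem Rel.hom1 (h : Rel σ τ τ' u) (ht : t ∈ Hg g1) (ht' : t' ∈ Hg g1) (h1 : Sim σ u1)
    {f f' : Matrix (Ix g) (Ix g1) ℚ} {c : ℚ} (hm : Hm t τ f) (hm' : Hm t' τ' f') (hc : 0 < c)
    (hf : fᵀ * J (Fin g) ℚ * f = c • J (Fin g1) ℚ) (e : u * am f = am f' * u1) : Rel σ t t' u1 :=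
  hom g g1 σ Unit (fun _ => τ) (fun _ => τ') (fun _ => u) t t' u1 (fun _ => f) (fun _ => f') c
    (fun _ => h) ht ht' h1 (fun _ => hm) (fun _ => hm') hc (by simpa using hf) fun _ => e

theorem hm_one (τ : Mc g) : Hm τ τ 1 := fun x => ⟨x, by
  rw [show (1 : Mi g ℚ).map (↑) = cm 1 from rfl, cm_one, one_mulVec]⟩

theorem Hm.mul {g2 : ℕ} {s : Mc g2} {f : Matrix (Ix g) (Ix g1) ℚ} {f' : Matrix (Ix g1) (Ix g2) ℚ}
    (h : Hm t τ f) (h' : Hm s t f') : Hm s τ (f * f') := fun x => by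
  obtain ⟨y, hy⟩ := h' x
  obtain ⟨z, hz⟩ := h y
  exact ⟨z, by
    rw [show (f * f').map (↑) = cm (f * f') from rfl, cm_mul, ← mulVec_mulVec, ← hz, ← hy]; rfl⟩

theorem Hm.add {f f' : Matrix (Ix g) (Ix g1) ℚ} (h : Hm t τ f) (h' : Hm t τ f') :
    Hm t τ (f + f') := fun x => by
  obtain ⟨y, hy⟩ := h x
  obtain ⟨z, hz⟩ := h' x
  refine ⟨y + z, ?_⟩
  rw [mulVec_add, ← hy, ← hz, ← add_mulVec]
  congr 1
  ext; simp

theorem Hm.smul {f : Matrix (Ix g) (Ix g1) ℚ} (h : Hm t τ f) (c : ℚ) : Hm t τ (c • f) :=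
  fun x => by
    obtain ⟨y, hy⟩ := h x
    refine ⟨(c : ℂ) • y, ?_⟩
    rw [mulVec_smul, ← hy, ← smul_mulVec]
    congr 1
    ext; simp

theorem Hm.neg {f : Matrix (Ix g) (Ix g1) ℚ} (h : Hm t τ f) : Hm t τ (-f) := by
  simpa using h.smul (-1)

theorem Hm.sub {f f' : Matrix (Ix g) (Ix g1) ℚ} (h : Hm t τ f) (h' : Hm t τ f') :
    Hm t τ (f - f') := by
  rw [sub_eq_add_neg]; exact h.add h'.neg

theorem hm_iff {f : Matrix (Ix g) (Ix g1) ℚ} :
    Hm t τ f ↔ ∃ a : Matrix (Fin g) (Fin g1) ℂ, cm f * per t = per τ * a := by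
  refine ⟨fun h => ?_, fun ⟨a, h⟩ x => ⟨a *ᵥ x, ?_⟩⟩
  · choose y hy using fun j => h (Pi.single j 1)
    refine ⟨Matrix.of fun i j => y j i, Matrix.ext fun i j => ?_⟩
    have := congrFun (hy j) i
    rw [mulVec_mulVec, mulVec_single_one] at this
    exact this
  · rw [mulVec_mulVec, mulVec_mulVec, ← h]; rfl

theorem per_inj {x y : Fin g → ℂ} (h : per τ *ᵥ x = per τ *ᵥ y) : x = y := by
  funext i
  simpa [per] using congrFun h (.inr i)

/-- the inverse of an isogeny -/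
theorem Hm.inv {f f' : Mi g ℚ} (h : Hm τ τ' f) (e : f' * f = 1) : Hm τ' τ f' := by
  obtain ⟨a, ha⟩ := hm_iff.1 h
  have h1 : cm f' * per τ' * a = per τ := by
    rw [Matrix.mul_assoc, ← ha, ← Matrix.mul_assoc, ← cm_mul, e, cm_one, Matrix.one_mul]
  have h2 : (cm f' * per τ').toRows₂ * a = 1 := by
    have := congrArg Matrix.toRows₂ h1
    rw [per, per, toRows₂_fromRows] at this
    rw [← this]
    rfl
  refine hm_iff.2 ⟨(cm f' * per τ').toRows₂, ?_⟩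
  rw [← h1, Matrix.mul_assoc _ a, mul_eq_one_comm.1 h2, Matrix.mul_one]

theorem hm_act (δ : Sp g ℚ) (hτ : τ ∈ Hg g) : Hm τ (act (qr δ.1) τ) δ.1 :=
  hm_iff.2 ⟨_, by rw [← mul_per (qr_mem δ) hτ, cx_qr]; rfl⟩

theorem act_of_hm (δ : Sp g ℚ) (hτ : τ ∈ Hg g) (h : Hm τ τ' δ.1) : act (qr δ.1) τ = τ' := by
  obtain ⟨a, ha⟩ := hm_iff.1 h
  have h1 : cx (qr δ.1) * per τ = per τ' * a := by rw [cx_qr]; exact ha
  refine (act_eq ?_ h1).2
  have := isUnit_cj (qr_mem δ) hτ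
  rwa [cj, h1, per, fromRows_mul, toRows₂_fromRows, Matrix.one_mul] at this

theorem sp_form (δ : Sp g ℚ) : δ.1ᵀ * J (Fin g) ℚ * δ.1 = (1 : ℚ) • J (Fin g) ℚ := by
  rw [one_smul]; exact SymplecticGroup.mem_iff'.1 δ.2

/-- translation of the target -/
theorem Rel.left (h : Rel σ τ τ' u) (δ : Sp g ℚ) : Rel σ τ (act (qr δ.1) τ') (am δ.1 * u) :=
  h.hom1 h.h (act_mem (qr_mem δ) h.h') (by simpa using (sim_sp δ).mul h.sim) (hm_one τ)
    ((hm_act δ h.h').inv (inv_mul_sp δ)) one_pos (by simp)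
    (by rw [am_one, mul_one, ← mul_assoc, ← am_mul, inv_mul_sp, am_one, one_mul])

/-- a rational symplectic matrix relates a point to its translate -/
theorem rel_sp (hτ : τ ∈ Hg g) (δ : Sp g ℚ) : Rel 1 τ (act (qr δ.1) τ) (am δ.1) := by
  simpa using (rel_one hτ).left δ

/-- translation of the source -/
theorem Rel.right (h : Rel σ τ τ' u) {τ0 : Mc g} (h0 : τ0 ∈ Hg g) (δ : Sp g ℚ)
    (e : act (qr δ.1) τ0 = τ) : Rel σ τ0 τ' (u * am δ.1) := by
  have := h.mul (e ▸ rel_sp h0 δ)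
  rwa [mul_one] at this

end Vale.Agent.P022K.TP
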