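import Vale.Agent.P022K.TP.Sa1
import Vale.Agent.P022K.TP.Defs

/-!
# Strong approximation for the centraliser of a quaternion algebra in the symplectic group
-/

open NumberField Matrix Algebra
open scoped Quaternion

namespace Vale.Agent.P022K.TP

open F0.Fuj P010MR P010MT8

variable {M : Type} [Field M] [NumberField M] {a b : M} {g : ℕ}

namespace Sa

theorem lin_bd (ha : a ∈ OF M) (hb : b ∈ OF M) {I : Type} [Finite I]
    (T : I → ℍ[M,a,b] →ₗ[ℚ] ℚ) : ∃ d, 0 < d ∧ ∀ n, 0 < n → ∀ x : ℍ[M,a,b],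
      (∀ w : Pv M, In (w.valuation M) (w.valuation M (d * n : ℕ)) x) → ∀ i, cA (T i x) ∈ Zn n := by
  obtain ⟨e⟩ := exists_basis ha hb
  obtain ⟨d, d0, h⟩ := exists_den_fin fun p : I × _ => cA (T p.1 (e p.2))
  refine ⟨d, d0, fun n n0 x hx i => ?_⟩
  have k0 := (Nat.mul_pos d0 n0).ne'
  have h1 : ((d * n : ℕ) : M)⁻¹ • x ∈ ord (OF M) ha hb := (mem_O ha hb).2 fun w => by
    have := (hx w).smul (map_inv₀ (w.valuation M) ((d * n : ℕ) : M)).le
    rwa [inv_mul_cancel₀ (nat_pos w k0).ne'] at this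
  obtain ⟨c, hc⟩ : ∃ c : _ → ℤ, ((d * n : ℕ) : M)⁻¹ • x = ∑ k, c k • (e k : ℍ[M,a,b]) :=
    ⟨e.repr ⟨_, h1⟩, by simpa using congrArg Subtype.val (e.sum_repr ⟨_, h1⟩).symm⟩
  rw [inv_smul_eq_iff₀ (Nat.cast_ne_zero.2 k0), Nat.cast_smul_eq_nsmul] at hc
  rw [hc, map_nsmul, map_sum, map_nsmul, map_sum, Finset.smul_sum]
  refine sum_mem fun k _ => ?_
  rw [map_zsmul, map_zsmul, nsmul_eq_mul, zsmul_eq_mul, Nat.cast_mul,
    show ∀ y : Af, (d : Af) * n * (c k * y) = c k * (d * y * n) from fun y => by ring]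
  exact Zn_mul1 (int_mem _) (Zn_mul1 (h (i, k)) (nat_mem n))

omit [NumberField M] in
theorem in_sum {w : Valuation M P011.Arith.Z0} {γ : P011.Arith.Z0} {I : Type} (s : Finset I)
    (f : I → ℍ[M,a,b]) (h : ∀ i, In w γ (f i)) : In w γ (∑ i ∈ s, f i) :=
  Finset.sum_induction f _ (fun _ _ => In.add) in_zero fun i _ => h i

theorem int_le (w : Pv M) {n : ℕ} (hn : 0 < n) {q : ℚ} (h : cA q ∈ Zn n) :
    w.valuation M (algebraMap ℚ M q) ≤ w.valuation M n := by
  obtain ⟨z, rfl⟩ := (rat_mem hn).1 h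
  rw [map_mul, map_mul, map_natCast, map_intCast]
  exact mul_le_of_le_one_right' (intCast_mem (w.valuation M).integer z)

theorem lin_bd' (E : ℍ[M,a,b] ≃ₗ[ℚ] (Ix g → ℚ)) : ∃ d, 0 < d ∧ ∀ n, 0 < n → ∀ x : ℍ[M,a,b],
    Vn (d * n) (av (E x)) → ∀ w : Pv M, In (w.valuation M) (w.valuation M n) x := by
  obtain ⟨d, d0, h⟩ := den (Set.finite_range fun i => E.symm (Pi.single i 1))
  refine ⟨d, Nat.pos_of_ne_zero d0, fun n n0 x hx w => ?_⟩
  have e : x = ∑ i, algebraMap ℚ M (E x i) • E.symm (Pi.single i 1) := E.injective <| by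
    simp only [algebraMap_smul, map_sum, map_smul, E.apply_symm_apply]
    exact pi_eq_sum_univ' _
  rw [e]
  refine in_sum _ _ fun i => ((h _ ⟨i, rfl⟩ w).smul
    (int_le w (Nat.mul_pos (Nat.pos_of_ne_zero d0) n0) (hx i))).mono (le_of_eq ?_)
  rw [Nat.cast_mul, map_mul, mul_comm, inv_mul_cancel_left₀ (nat_pos w d0).ne']

open Classical in
theorem tr_bd {m : M} {n : ℕ} (hn : 0 < n)
    (h : ∀ j, cA (trace ℚ M (m * (integralBasis M).traceDual j)) ∈ Zn n) (w : Pv M) :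
    w.valuation M m ≤ w.valuation M n := by
  rw [← (integralBasis M).sum_repr m]
  refine Valuation.map_sum_le _ fun j _ => ?_
  have e := (integralBasis M).traceDual.traceDual_repr_apply m j
  rw [Module.Basis.traceDual_traceDual, traceForm_apply] at e
  rw [e, Algebra.smul_def, map_mul, integralBasis_apply]
  exact mul_le_of_le_of_le_one (int_le w hn (h j)) (w.valuation_le_one _)

theorem pA_close {d n : ℕ} (hd : 0 < d) {x y x' y' : Ix g → Af} (hx : Vn 1 ((d : Af) • x))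
    (hy : Vn 1 ((d : Af) • y)) (h : Vn (d * n) (x - x')) (h' : Vn (d * n) (y - y')) :
    pA x y - pA x' y' ∈ Zn n := by
  refine (mul_mem_iff hd).1 ?_
  have e : (d : Af) * (pA x y - pA x' y') = pA ((d : Af) • x) (y - y') +
      pA (x - x') ((d : Af) • y) - d * pA (x - x') (y - y') := by
    simp only [pA, mulVec_sub, mulVec_smul, dotProduct_sub, sub_dotProduct, smul_dotProduct,
      dotProduct_smul, smul_eq_mul]
    ring
  rw [e]
  exact sub_mem (add_mem (one_mul (d * n) ▸ pA_mem hx h') (mul_one (d * n) ▸ pA_mem h hy))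
    (Zn_mul (nat_mem d) (Zn_anti (Dvd.dvd.mul_right (dvd_mul_left _ _) _) (pA_mem h h')))

/-- rescaling of the generators -/
noncomputable def scl (a b : M) {s : M} (hs : s ≠ 0) : ℍ[M,s * (s * a),s * (s * b)] ≃ₗ[ℚ] ℍ[M,a,b] where
  toFun x := ⟨x.re, s * x.imI, s * x.imJ, s * s * x.imK⟩
  invFun x := ⟨x.re, x.imI / s, x.imJ / s, x.imK / (s * s)⟩
  map_add' x y := by ext <;> simp [mul_add]
  map_smul' q x := by ext <;> simp
  left_inv x := by ext <;> simp [hs]
  right_inv x := by ext <;> simp <;> field_simp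

theorem scl_apply {s : M} (hs : s ≠ 0) (x) :
    scl a b hs x = ⟨x.re, s * x.imI, s * x.imJ, s * s * x.imK⟩ := rfl

theorem scl_mul {s : M} (hs : s ≠ 0) (x y) : scl a b hs (x * y) = scl a b hs x * scl a b hs y := by
  ext <;> simp [scl_apply] <;> ring

theorem scl_star {s : M} (hs : s ≠ 0) (x) : scl a b hs (star x) = star (scl a b hs x) := by
  ext <;> simp [scl_apply]

theorem scl_nrd {s : M} (hs : s ≠ 0) (x) : nrd (scl a b hs x) = nrd x := by
  simp only [scl_apply, nrd]; ring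

end Sa

open Sa

variable (E : ℍ[M,a,b] ≃ₗ[ℚ] (Ix g → ℚ)) (r l : ℍ[M,a,b] → Mi g ℚ)

/-- a matrix that commutes with the right multiplications is a limit of left multiplications -/
theorem cent (hr : ∀ z x, r z *ᵥ E x = E (x * z)) {h : Mi g Af}
    (hh : ∀ z, h * am (r z) = am (r z) * h) {I : Type} [Finite I] (x : I → ℍ[M,a,b]) {n : ℕ}
    (hn : 0 < n) : ∃ y, ∀ i, Vn n (h *ᵥ av (E (x i)) - av (E (y * x i))) := by
  obtain ⟨d, d0, hd⟩ := exists_cont (Matrix.of fun (p : I × Ix g) k => am (r (x p.1)) p.2 k)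
  obtain ⟨u, hu⟩ := exists_vn (h *ᵥ av (E 1)) (Nat.mul_pos d0 hn)
  refine ⟨E.symm u, fun i j => ?_⟩
  rw [← hr, E.apply_symm_apply, ← one_mul (x i), ← hr, one_mul, ← am_mulVec, ← am_mulVec,
    mulVec_mulVec, hh, ← mulVec_mulVec, ← mulVec_sub]
  exact hd n _ hu (i, j)

theorem l_apply (hl : ∀ z x, l z *ᵥ E x = E (z * x)) (z : ℍ[M,a,b]) (i j : Ix g) :
    l z i j = E (z * E.symm (Pi.single j 1)) i := by
  rw [← hl, E.apply_symm_apply, mulVec_single_one]
  rfl

theorem sa0 (ha : a ∈ OF M) (hb : b ∈ OF M) (hD : ∀ q : ℍ[M,a,b], q ≠ 0 → nrd q ≠ 0)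
    (hR : ∀ φ : M →+* ℝ, 0 < φ a ∨ 0 < φ b) (hr : ∀ z x, r z *ᵥ E x = E (x * z))
    (hl : ∀ z x, l z *ᵥ E x = E (z * x)) {c : M} {δ : ℍ[M,a,b]} (hc : c ≠ 0) (hδ : δ ≠ 0)
    (hp : ∀ x y, pq (E x) (E y) = trace ℚ M (c * (δ * star x * y).re)) {h : Mi g Af}
    (hs : Sim 1 h) (hh : ∀ z, h * am (r z) = am (r z) * h) {n : ℕ} (hn : 0 < n) :
    ∃ β, nrd β = 1 ∧ Mn n (am (l β) * h - 1) := by
  classical
  obtain ⟨k, k0, hk⟩ := lin_bd ha hb fun p : Ix g × Ix g => (LinearMap.proj p.1).comp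
    (E.toLinearMap.comp (LinearMap.mulRight ℚ (E.symm (Pi.single p.2 1))))
  replace hk : ∀ n, 0 < n → ∀ x : ℍ[M,a,b], (∀ w : Pv M, In (w.valuation M)
      (w.valuation M (k * n : ℕ)) x) → Mn n (am (l x)) := fun n n0 x hx i j => by
    rw [am, map_apply, l_apply E l hl]
    exact hk n n0 x hx (i, j)
  obtain ⟨k', k0', hk'⟩ := lin_bd' E
  let x : Ix g ⊕ Option _ → ℍ[M,a,b] := Sum.elim (fun j => E.symm (Pi.single j 1))
    fun o => o.elim 1 fun j => (c⁻¹ * (integralBasis M).traceDual j) • iv δ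
  obtain ⟨d, d0, hd⟩ := exists_den_fin fun p : _ × Ix g => (h *ᵥ av (E (x p.1))) p.2
  have d1 := Nat.mul_pos k0' d0
  have n1 := Nat.mul_pos (Nat.mul_pos k0 d1) hn
  have n2 := Nat.mul_pos k0 n1
  have n3 := Nat.mul_pos four_pos (Nat.mul_pos n2 d1)
  obtain ⟨y, hy⟩ := cent E r hr hh x (Nat.mul_pos d0 n3)
  have h1 : ∀ w : Pv M, In (w.valuation M) (w.valuation M (k' * d : ℕ))⁻¹ y := fun w => by
    have e0 : ((k' * d : ℕ) : M) ≠ 0 := Nat.cast_ne_zero.2 d1.ne'
    have := (hk' 1 one_pos (((k' * d : ℕ) : M) • y) (fun i => by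
      have h2 := sub_mem (hd (.inr none, i))
        (Zn_mul1 (by simpa using int_mem d) (Zn_anti (one_dvd _) (hy (.inr none) i)))
      rw [Pi.sub_apply, ← mul_sub, sub_sub_cancel] at h2
      rw [Nat.cast_smul_eq_nsmul, map_nsmul, ← Nat.cast_smul_eq_nsmul ℚ, av_smul, map_natCast,
        Pi.smul_apply, smul_eq_mul, Nat.cast_mul, mul_assoc]
      simpa [x] using Zn_mul (nat_mem k') h2) w).smul
      (map_inv₀ (w.valuation M) ((k' * d : ℕ) : M)).le
    rwa [inv_smul_smul₀ e0, Nat.cast_one, map_one, mul_one] at this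
  obtain ⟨β, hβ, h2⟩ := sa_glob ha hb hD hR d1.ne' n2.ne' h1 (tr_bd n3 fun j => by
    have := pA_close d0 (fun i => by exact hd (.inr none, i))
      (fun i => by exact hd (.inr (some j), i)) (hy (.inr none)) (hy (.inr (some j)))
    rw [hs.pA, map_one, one_mul, pA_av, pA_av, ← map_sub, hp, hp, ← map_sub] at this
    have e : ∀ z : ℍ[M,a,b], c * (δ * star (z * x (.inr none)) * (z * x (.inr (some j)))).re =
        nrd z * (integralBasis M).traceDual j := fun z => by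
      simp only [x, Sum.elim_inr, Option.elim, mul_one]
      rw [mul_assoc δ, ← mul_assoc (star z), star_mul_eq, ← Algebra.smul_def, mul_smul_comm,
        mul_smul_comm, mul_iv (hD δ hδ)]
      simp
      field_simp
    have e1 := e 1
    rw [one_mul, one_mul, nrd_one] at e1
    rw [e, e1] at this
    rw [← neg_mem_iff, ← map_neg, ← map_neg, sub_mul, neg_sub]
    exact this)
  have l1 : ∀ z z', l (z - z') = l z - l z' := fun z z' => by
    ext i j
    simp only [Matrix.sub_apply, l_apply E l hl, sub_mul, map_sub, Pi.sub_apply]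
  have l2 : l (star β) * l β = 1 := by
    refine ext_iff_mulVec.2 fun v => ?_
    rw [← E.apply_symm_apply v, ← mulVec_mulVec, hl, hl, ← mul_assoc, star_mul_eq, hβ, map_one,
      one_mul, one_mulVec]
  have h3 : Mn (k * (k' * d) * n) (h - am (l β)) := by
    have h4 : Mn (k * (k' * d) * n) (h - am (l y)) := fun i j => by
      have := Zn_anti (m := k * (k' * d) * n) ⟨d * 4 * k * (k' * d), by ring⟩ (hy (.inl j) i)
      rw [← hl, ← am_mulVec, ← sub_mulVec] at this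
      simp only [x, Sum.elim_inl, E.apply_symm_apply] at this
      rwa [show av (Pi.single j 1) = Pi.single j 1 from funext fun i => by
        simp [av, Pi.single_apply, apply_ite cA], mulVec_single_one] at this
    have := h4.sub (hk _ n1 _ h2)
    rwa [l1, am_sub, sub_sub_sub_cancel_right] at this
  have h5 : Mn 1 (am (l (((k * (k' * d) : ℕ) : M) • star β))) := hk 1 one_pos _ fun w => by
    have := ((sub_add_cancel β y ▸ ((h2 w).mono ((Sa.nat_le _ _).trans ((one_le_inv₀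
      (nat_pos w d1.ne')).2 (Sa.nat_le _ _)))).add (h1 w)).star).smul
      (le_refl (w.valuation M (k * (k' * d) : ℕ)))
    rwa [Nat.cast_mul k, map_mul, mul_inv_cancel_right₀ (nat_pos w d1.ne').ne', ← Nat.cast_mul,
      ← mul_one k, mul_assoc k 1, one_mul] at this
  refine ⟨star β, by rwa [nrd_star], fun i j => ?_⟩
  rw [← am_one, ← l2, am_mul, ← Matrix.mul_sub, mul_apply]
  refine sum_mem fun t _ => mul_den (Nat.mul_pos k0 d1) ?_ (h3 t j)
  have := h5 i t
  rw [am, map_apply, l_apply E l hl, smul_mul_assoc, Nat.cast_smul_eq_nsmul, map_nsmul,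
    Pi.smul_apply, map_nsmul, nsmul_eq_mul, ← l_apply E l hl] at this
  exact this

/-- strong approximation -/
theorem sa (hD : ∀ q : ℍ[M,a,b], q ≠ 0 → nrd q ≠ 0)
    (hR : ∀ φ : M →+* ℝ, 0 < φ a ∨ 0 < φ b) (hr : ∀ z x, r z *ᵥ E x = E (x * z))
    (hl : ∀ z x, l z *ᵥ E x = E (z * x)) {c : M} {δ : ℍ[M,a,b]} (hc : c ≠ 0) (hδ : δ ≠ 0)
    (hp : ∀ x y, pq (E x) (E y) = trace ℚ M (c * (δ * star x * y).re)) {h : Mi g Af}
    (hs : Sim 1 h) (hh : ∀ z, h * am (r z) = am (r z) * h) {n : ℕ} (hn : 0 < n) :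
    ∃ β, nrd β = 1 ∧ Mn n (am (l β) * h - 1) := by
  obtain ⟨s, s0, h1⟩ := exists_den_finite ((Set.finite_singleton b).insert a)
  have s1 : (s : M) ≠ 0 := Nat.cast_ne_zero.2 s0
  have k : ∀ (φ : M →+* ℝ) (t : M), 0 < φ t → 0 < φ (s * (s * t)) := fun φ t ht => by
    rw [map_mul, map_mul, map_natCast]
    positivity
  obtain ⟨β, h2, h3⟩ := sa0 ((scl a b s1).trans E) (fun z => r (scl a b s1 z))
    (fun z => l (scl a b s1 z)) (mul_mem (natCast_mem _ s) (h1 a (by simp)))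
    (mul_mem (natCast_mem _ s) (h1 b (by simp)))
    (fun q hq => by rw [← scl_nrd s1]; exact hD _ ((scl a b s1).map_ne_zero_iff.2 hq))
    (fun φ => (hR φ).imp (k φ a) (k φ b)) (fun z x => by simp [hr, scl_mul])
    (fun z x => by simp [hl, scl_mul]) hc ((scl a b s1).symm.map_ne_zero_iff.2 hδ) (fun x y => by
      rw [LinearEquiv.trans_apply, LinearEquiv.trans_apply, hp, ← scl_star,
        ← (scl a b s1).apply_symm_apply δ, ← scl_mul, ← scl_mul, LinearEquiv.symm_apply_apply]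
      rfl) hs (fun z => hh _) hn
  exact ⟨_, (scl_nrd s1 β).trans h2, h3⟩

end Vale.Agent.P022K.TP
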