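import Vale.Agent.P022K.TP.Trans
import Vale.Agent.P022K.TP.Sa
import Vale.Agent.P022K.PM.MdSt
import Mathlib.NumberTheory.Padics.Hensel

/-!
# Subgroups of `EE` act on the tower; twisted Moret-Bailly for marked points
-/

open NumberField Matrix Quaternion Polynomial

noncomputable section

namespace Vale.Agent.P022K.PM

open Vale.Agent.P022 Vale.Agent.P010MR Vale.Agent.P010MT8
open Vale.Agent.P022K.TP

variable {D : QD} {η : GQ →* ℤˣ}

/-- strong approximation for the datum -/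
theorem sad (D : QD) : SAD D := fun _ hs hh _ hn => by
  obtain ⟨b, h1, h2⟩ := sa D.e D.rm D.lm (fun q hq => D.nrd_eq q ▸ D.nrd_ne_zero hq)
    (fun φ => .inr (D.pos φ)) D.rm_ap D.lm_ap two_ne_zero D.delta_ne D.sym' hs hh hn
  exact ⟨b, (D.nrd_eq b).trans h1, h2⟩

/-- **TRANS** -/
theorem trans {j : Qb →+* ℂ} (e : EE D η) {s : ℂ ≃+* ℂ}
    (hs : ∀ a, s (j a) = j (sg e a)) {τ : Mc D.g} (hτ : τ ∈ D.Loc) {n : ℕ} (hn : 0 < n) :
    ∃ τ' ∈ D.Loc, ∃ e' : EE D η, sg e' = sg e ∧ Mn n (uu e' - uu e) ∧ Rel s τ τ' (uu e') :=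
  trans_of (sad D) e hs hτ hn

namespace Gq

theorem sqrt_near {p : ℕ} [Fact p.Prime] (c a : ℤ_[p]) (h : ‖a ^ 2 - c‖ < ‖2 * a‖ ^ 2) :
    ∃ x : ℤ_[p], x ^ 2 = c ∧ ‖x - a‖ < ‖2 * a‖ := by
  have e : derivative (X ^ 2 - C c : ℤ_[p][X]) = C 2 * X := by
    rw [derivative_sub, derivative_C, sub_zero, derivative_X_sq]
  obtain ⟨z, h1, h2, -⟩ := hensels_lemma (F := (X ^ 2 - C c : ℤ_[p][X])) (a := a)
    (by simpa [e] using h)
  exact ⟨z, sub_eq_zero.1 (by simpa using h1), by simpa [e] using h2⟩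

theorem sq_add_sq {p : ℕ} [Fact p.Prime] (h2 : ‖(2 : ℤ_[p])‖ = 1) (c : ℤ_[p]) (hc : ‖c‖ = 1) :
    ∃ x y : ℤ_[p], x ^ 2 + y ^ 2 = c := by
  obtain ⟨a, b, h⟩ := ZMod.sq_add_sq p (PadicInt.toZMod c)
  have k : ∀ z : ℤ_[p], PadicInt.toZMod z = 0 ↔ ‖z‖ < 1 := fun z => by
    rw [← RingHom.mem_ker, PadicInt.ker_toZMod, IsLocalRing.mem_maximalIdeal,
      PadicInt.mem_nonunits]
  wlog ha : a ≠ 0 generalizing a b
  · refine this b a (by rw [add_comm, h]) fun hb => ?_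
    rw [not_not.1 ha, hb] at h
    exact ((k c).1 (by rw [← h]; simp)).ne hc
  obtain ⟨a, rfl⟩ := ZMod.ringHom_surjective PadicInt.toZMod a
  obtain ⟨b, rfl⟩ := ZMod.ringHom_surjective PadicInt.toZMod b
  have h1 : ‖a‖ = 1 := le_antisymm a.norm_le_one (not_lt.1 fun h => ha ((k a).2 h))
  obtain ⟨x, hx, -⟩ := sqrt_near (c - b ^ 2) a (by
    rw [norm_mul, h2, h1, one_mul, one_pow, ← k]
    simp [← h])
  exact ⟨x, b, by rw [hx, sub_add_cancel]⟩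

theorem loc {p : ℕ} [Fact p.Prime] (n : ℕ) (c : ℤ_[p]) (hc : ‖c‖ = 1)
    (h : ‖c - 1‖ ≤ ‖(8 * n : ℤ_[p])‖) :
    ∃ x y : ℤ_[p], x ^ 2 + y ^ 2 = c ∧ ‖x - 1‖ ≤ ‖(n : ℤ_[p])‖ ∧ ‖y‖ ≤ ‖(n : ℤ_[p])‖ := by
  have h0 : 0 < ‖(2 : ℤ_[p])‖ := norm_pos_iff.2 two_ne_zero
  have h8 : ‖(8 * n : ℤ_[p])‖ = ‖(2 : ℤ_[p])‖ ^ 2 * ‖(2 * n : ℤ_[p])‖ := by
    rw [← norm_pow, ← norm_mul]; congr 1; ring
  rcases (2 * n : ℤ_[p]).norm_le_one.eq_or_lt with h1 | h1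
  · rw [norm_mul] at h1
    have h2 := (2 : ℤ_[p]).norm_le_one
    have h3 := (n : ℤ_[p]).norm_le_one
    have h4 : ‖(n : ℤ_[p])‖ = 1 := by nlinarith [norm_nonneg (n : ℤ_[p])]
    obtain ⟨x, y, e⟩ := sq_add_sq (by rwa [h4, mul_one] at h1) c hc
    exact ⟨x, y, e, h4 ▸ (x - 1).norm_le_one, h4 ▸ y.norm_le_one⟩
  · obtain ⟨x, e, hx⟩ := sqrt_near c 1 (by
      rw [one_pow, norm_sub_rev, mul_one]
      exact h.trans_lt (h8 ▸ mul_lt_of_lt_one_right (pow_pos h0 2) h1))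
    rw [mul_one] at hx
    have h2 : ‖x + 1‖ = ‖(2 : ℤ_[p])‖ := by
      rw [show x + 1 = (x - 1) + 2 by ring, PadicInt.norm_add_eq_max_of_ne hx.ne, max_eq_right hx.le]
    refine ⟨x, 0, by simp [e], ?_, by simp⟩
    have h3 : ‖x - 1‖ * ‖(2 : ℤ_[p])‖ ≤ ‖(n : ℤ_[p])‖ * ‖(2 : ℤ_[p])‖ := by
      rw [← h2, ← norm_mul, show (x - 1) * (x + 1) = c - 1 by rw [← e]; ring, h2, ← norm_mul]
      refine h.trans ?_
      rw [show (8 * n : ℤ_[p]) = 4 * (n * 2) by ring, norm_mul]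
      exact mul_le_of_le_one_left (norm_nonneg _) (4 : ℤ_[p]).norm_le_one
    exact le_of_mul_le_mul_right h3 h0

/-- a unit that is close to one is a norm of an element that is close to one -/
theorem adelic {c c' : Af} (hc' : c' ∈ Zn 1) (e : c * c' = 1) {n : ℕ} (h : c - 1 ∈ Zn (8 * n)) :
    ∃ x y : Af, x ^ 2 + y ^ 2 = c ∧ x - 1 ∈ Zn n ∧ y ∈ Zn n := by
  have hc : c ∈ Zn 1 := by simpa using add_mem (Zn_anti (one_dvd _) h) one_mem1
  have H : ∀ r : Pr, ∃ x y : ℤ_[r.1], x ^ 2 + y ^ 2 = ⟨pr r c, mem_Z1.1 hc r⟩ ∧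
      ‖x - 1‖ ≤ ‖(n : ℤ_[r.1])‖ ∧ ‖y‖ ≤ ‖(n : ℤ_[r.1])‖ := fun r => by
    refine loc n _ ?_ ?_
    · have h1 := congrArg (fun x => ‖pr r x‖) e
      simp only [map_mul, norm_mul, map_one, norm_one] at h1
      have h2 := mem_Z1.1 hc r
      have h3 := mem_Z1.1 hc' r
      change ‖pr r c‖ = 1
      nlinarith [norm_nonneg (pr r c), norm_nonneg (pr r c')]
    · have h1 := h r
      rw [map_sub, map_one] at h1
      exact_mod_cast h1
  choose x y h1 h2 h3 using H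
  refine ⟨mkZ x, mkZ y, ext_pr fun r => ?_, fun r => ?_, fun r => ?_⟩
  · rw [map_add, map_pow, map_pow, pr_mkZ, pr_mkZ]
    exact_mod_cast congrArg (fun z : ℤ_[r.1] => (z : ℚ_[r.1])) (h1 r)
  · rw [map_sub, map_one, pr_mkZ]
    exact_mod_cast h2 r
  · rw [pr_mkZ]
    exact_mod_cast h3 r

end Gq

/-- the cyclotomic character is continuous -/
theorem cyc_open {n : ℕ} (hn : 0 < n) :
    ∃ N : Subgroup GQ, IsOpen (N : Set GQ) ∧ ∀ σ ∈ N, cyc σ - 1 ∈ Zn n := by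
  have : NeZero n := ⟨hn.ne'⟩
  obtain ⟨t, ht⟩ := HasEnoughRootsOfUnity.exists_primitiveRoot Qb n
  refine ⟨MulAction.stabilizer GQ t, stabilizer_isOpen_of_isIntegral t, fun σ h => ?_⟩
  obtain ⟨z, hz⟩ := dens1 (chi_mem σ.toRingEquiv) hn
  have h1 := chi_spec σ.toRingEquiv hn ht.pow_eq_one hz
  have h2 : (n : ℤ) ∣ z - 1 := (ht.zpow_eq_one_iff_dvd _).1 (by
    rw [zpow_sub_one₀ (ht.ne_zero hn.ne'), ← h1, show σ.toRingEquiv t = t from h,
      mul_inv_cancel₀ (ht.ne_zero hn.ne')])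
  have := add_mem hz ((int_mem_iff hn).2 h2)
  rwa [Int.cast_sub, sub_add_sub_cancel, Int.cast_one] at this

theorem at_i (D : QD) (x y : Af) : D.At (x ^ 2 + y ^ 2) 1 (x • 1 + y • am (D.lm D.bi)) := by
  have h1 : (am (D.lm D.bi))ᵀ * J (Fin D.g) Af = -(J (Fin D.g) Af * am (D.lm D.bi)) := by
    rw [← am_J, ← am_tr, ← am_mul, ← am_mul, D.lm_adj, ← am_neg, ← mul_neg, ← D.lm_neg]
    congr 3
    ext <;> simp [QD.bi]
  have h2 : am (D.lm D.bi) * am (D.lm D.bi) = -1 := by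
    rw [← am_mul, ← D.lm_mul, ← am_one, ← am_neg, ← D.lm_one, ← D.lm_neg]
    congr 2
    ext <;> simp [QD.bi]
  refine QD.At.of_comm ?_ fun b => ?_
  · simp only [transpose_add, transpose_smul, transpose_one, add_mul, mul_add, smul_mul_assoc,
      mul_smul_comm, one_mul, mul_one, h1, neg_mul, mul_assoc, h2, mul_neg, neg_neg]
    module
  · rw [QD.al_one, add_mul, mul_add, smul_mul_assoc, smul_mul_assoc, mul_smul_comm, mul_smul_comm,
      one_mul, mul_one, ← am_mul, ← am_mul, D.lm_rm]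

/-- elements of the group above a neighbourhood of the identity -/
theorem opn_EE (D : QD) (hη : IsOpen (η.ker : Set GQ)) {n : ℕ} (hn : 0 < n) :
    ∃ N : Subgroup GQ, IsOpen (N : Set GQ) ∧ ∀ σ ∈ N, ∃ e : EE D η, sg e = σ ∧ Cn n e := by
  obtain ⟨d, hd, H⟩ := exists_cont_r (m := Ix D.g) (am (D.lm D.bi))
  obtain ⟨N, h1, h2⟩ := cyc_open (n := 8 * (d * n)) (by positivity)
  refine ⟨N ⊓ η.ker, h1.inter hη, fun σ hσ => ?_⟩
  obtain ⟨x, y, h3, h4, h5⟩ := Gq.adelic (c' := cyc σ⁻¹) (chi_mem _) (cyc_mul_inv σ) (h2 σ hσ.1)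
  obtain ⟨e, h6, h7⟩ := exists_EE (η := η) σ (u := x • 1 + y • am (D.lm D.bi))
    (by rw [← h3, show η σ = 1 from hσ.2]; exact at_i D x y)
  refine ⟨e, h6, ?_⟩
  have h8 := ((Mn.smul h4 (mn_one (m := Ix D.g))).anti (a := n)
    (by rw [mul_one]; exact dvd_mul_left _ _)).add
    (H n (y • 1) (by simpa using Mn.smul h5 (mn_one (m := Ix D.g))))
  rw [Cn, h7]
  convert h8 using 1
  rw [smul_mul_assoc, one_mul, sub_smul, one_smul]
  abel

theorem Cn.anti {a b : ℕ} {e : EE D η} (h : Cn b e) (hd : a ∣ b) : Cn a e := Mn.anti h hd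

theorem Cn.int {n : ℕ} {e : EE D η} (h : Cn n e) : Int e := Uq.mn_of_sub h

theorem uu_mul_inv (e : EE D η) : uu e * uu e⁻¹ = 1 := by rw [← map_mul, mul_inv_cancel, map_one]

theorem cn_div {n : ℕ} {e e' : EE D η} (h : Mn n (uu e' - uu e)) (hi : Int e⁻¹) :
    Cn n (e' * e⁻¹) := by
  have := h.mul hi
  rwa [mul_one, sub_mul, uu_mul_inv, ← map_mul] at this

theorem Int.one : Int (1 : EE D η) := by rw [Int, map_one]; exact mn_one

theorem Int.mul {e e' : EE D η} (h : Int e) (h' : Int e') : Int (e * e') := by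
  rw [Int, map_mul]; exact Mn.mul (a := 1) (b := 1) h h'

theorem Int.inv {e : EE D η} (h : Int e) : Int e⁻¹ := by
  have h1 : (cyc (sg e)⁻¹ • (-J (Fin D.g) Af * (uu e)ᵀ * J (Fin D.g) Af)) * uu e = 1 := by
    rw [smul_mul_assoc, mul_assoc (-J _ _), mul_assoc (-J _ _), (at_uu e).sim, mul_smul_comm,
      smul_smul, mul_comm (cyc _), cyc_mul_inv, one_smul, neg_mul, J_squared, neg_neg]
  rw [Int, ← one_mul (uu e⁻¹), ← h1, mul_assoc, uu_mul_inv, mul_one]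
  exact Mn.smul (a := 1) (b := 1) (chi_mem _)
    (Mn.mul (a := 1) (b := 1) (Mn.mul (a := 1) (b := 1) mn_J.neg (Mn.tr h)) mn_J)

theorem Cn.one (n : ℕ) : Cn n (1 : EE D η) := fun i j => by
  rw [map_one, sub_self]; exact zero_mem _

theorem Cn.mul {n : ℕ} {e e' : EE D η} (h : Cn n e) (h' : Cn n e') : Cn n (e * e') := by
  have := Mn.mul h h'.int
  rw [mul_one, sub_mul, one_mul] at this
  have h2 := this.add h'
  rwa [sub_add_sub_cancel, ← map_mul] at h2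

theorem Cn.inv {n : ℕ} {e : EE D η} (h : Cn n e) : Cn n e⁻¹ := by
  have := (Mn.mul h h.int.inv).neg
  rwa [mul_one, sub_mul, uu_mul_inv, one_mul, neg_sub] at this

theorem Cn.conj {n : ℕ} {e k : EE D η} (h : Cn n e) (hk : Int k) : Cn n (k * e * k⁻¹) := by
  have := (Mn.mul hk h).mul hk.inv
  rwa [one_mul, mul_one, mul_sub, sub_mul, mul_one, uu_mul_inv, ← map_mul, ← map_mul] at this

/-- conjugation by an element that is congruent to one -/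
theorem Cn.conj_sub {n : ℕ} {e k : EE D η} (hk : Cn n k) (h : Int e) :
    Mn n (uu (k * e * k⁻¹) - uu e) := by
  have h1 := Mn.mul hk (h.mul hk.int.inv)
  have h2 := Mn.mul h hk.inv
  rw [mul_one] at h1
  rw [one_mul] at h2
  convert h1.add h2 using 1
  simp only [map_mul]
  noncomm_ring

/-- an admissible subgroup -/
structure Adm (G : Subgroup (EE D η)) (m : ℕ) : Prop where
  pos : 0 < m
  eta : IsOpen (η.ker : Set GQ)
  sur : ∀ σ, ∃ e ∈ G, sg e = σ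
  int : ∀ e ∈ G, Int e
  big : ∃ N : Subgroup GQ, IsOpen (N : Set GQ) ∧ ∀ e, sg e ∈ N → Cn m e → e ∈ G

variable {G : Subgroup (EE D η)} {m : ℕ}

theorem Adm.mem (h : Adm G m) {e : EE D η} (h1 : sg e = 1) (h2 : Cn m e) : e ∈ G :=
  h.big.elim fun N hN => hN.2 e (h1 ▸ N.one_mem) h2

/-- **GRP** -/
theorem Adm.gt (h : Adm G m) (j : Qb →+* ℂ) :
    Gt D.rm j m (sg.comp G.subtype) (uu.comp G.subtype) where
  pos := h.pos
  sur σ := let ⟨e, h1, h2⟩ := h.sur σ; ⟨⟨e, h1⟩, h2⟩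
  int e := h.int e e.2
  inj e h1 h2 := Subtype.ext (ext_EE (h1.trans (map_one _).symm) (h2.trans (map_one _).symm))
  opn n hn := by
    obtain ⟨N, h1, h2⟩ := h.big
    obtain ⟨N', h3, h4⟩ := opn_EE D h.eta (Nat.mul_pos hn h.pos)
    refine ⟨N ⊓ N', h1.inter h3, fun σ hσ => ?_⟩
    obtain ⟨e, rfl, h5⟩ := h4 σ hσ.2
    exact ⟨⟨e, h2 e hσ.1 (h5.anti (dvd_mul_left _ _))⟩, rfl, h5.anti (dvd_mul_right _ _)⟩
  gam δ h1 h2 := by
    obtain ⟨e, h3, h4⟩ := exists_EE (η := η) 1 (u := am δ.1) (by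
      rw [map_one, map_one]
      exact QD.at_one (sim_sp δ) fun b => by rw [← am_mul, ← am_mul, h2])
    exact ⟨⟨e, h.mem h3 (by rwa [Cn, h4])⟩, h3, h4⟩
  trans e s hs τ hτ n hn := by
    obtain ⟨τ', h1, e', h2, h3, h4⟩ := trans e.1 hs hτ (Nat.mul_pos hn h.pos)
    have h5 := h.mem (e := e' * e.1⁻¹) (by rw [map_mul, map_inv, h2, mul_inv_cancel])
      (cn_div (h3.anti (dvd_mul_left _ _)) (h.int _ e.2).inv)
    exact ⟨τ', h1, ⟨e', by simpa using G.mul_mem h5 e.2⟩, h2, h3.anti (dvd_mul_right _ _), h4⟩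

/-- the marking can be moved close to the identity -/
theorem MP.near (x : MP D η) (j : Qb →+* ℂ) {n : ℕ} (hn : 0 < n) : ∃ y : MP D η, Cn n y.k ∧
    ∀ e, x.Fx j e → y.Fx j e := by
  have h1 := at_uu x.k
  rw [x.one, map_one, map_one] at h1
  obtain ⟨b, hb, h2⟩ := sad D (uu x.k) (by simpa [Sim] using h1.sim)
    (fun z => by rw [h1.comm, QD.al_one]) n hn
  obtain ⟨c, h3, h4⟩ := exists_EE (η := η) 1 (u := am (D.lm b))
    (by rw [map_one, map_one]; exact QD.at_lm hb)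
  have hR := rel_sp x.loc.1 (D.sp b hb)
  refine ⟨⟨_, c * x.k, QD.loc_sp x.loc hb, hR.algp x.alg, by rw [map_mul, h3, x.one, mul_one]⟩,
    by rwa [Cn, map_mul, h4], fun e he s hs => ?_⟩
  have h5 := hR.mul ((he s hs).mul (hR.inv (u' := uu c⁻¹) (h4 ▸ uu_mul_inv c)))
  rw [inv_one, mul_one, one_mul] at h5
  have e1 : am (D.sp b hb).1 * (uu (x.k * e * x.k⁻¹) * uu c⁻¹) =
      uu (c * x.k * e * (c * x.k)⁻¹) := by
    rw [show am (D.sp b hb).1 = uu c from h4.symm, ← map_mul, ← map_mul]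
    congr 1
    group
  rw [e1] at h5
  exact h5

/-- **twisted Moret-Bailly for marked points** -/
theorem twm (hT : TWT) (h : Adm G m) (j : Qb →+* ℂ) {ι : Type} [Finite ι] [Nonempty ι]
    {p : ι → ℕ} (hp : Function.Injective p) {v : ι → AbsoluteValue Qb ℝ}
    (hv : ∀ i, IsPl (p i) (v i)) {Γ : ι → Subgroup GQ} (hΓ : ∀ i, Dec (v i) (Γ i))
    (s : ∀ i, Γ i →* EE D η) (hs : ∀ i, Sec (s i)) (hG : ∀ i d, s i d ∈ G) (x : ι → MP D η)
    (hx : ∀ i d, (x i).Fx j (s i d)) {U : Subgroup GQ} (hU : IsOpen (U : Set GQ)) {n : ℕ}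
    (hn : 0 < n) :
    ∃ (H : Subgroup GQ) (ρ : H →* EE D η) (y : MP D η), H.Normal ∧ IsOpen (H : Set GQ) ∧
      Glue.Dsj H U ∧ Sec ρ ∧ (∀ a, ρ a ∈ G) ∧ y.k = 1 ∧ (∀ a, y.Fx j (ρ a)) ∧
      ∀ (i : ι) (σ : GQ), ∃ e ∈ G, sg e * σ⁻¹ ∈ stab (v i) ∧ (Γ i = stab (v i) → sg e = σ) ∧
        ∀ d : Γ i, ∃ a : H, sg e * a * (sg e)⁻¹ = d ∧
          Mn n (uu (e * ρ a * e⁻¹) - uu (s i d)) := by
  choose y hy hf using fun i => (x i).near j (Nat.mul_pos hn h.pos)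
  have hk : ∀ i, (y i).k ∈ G := fun i => h.mem (y i).one ((hy i).anti (dvd_mul_left _ _))
  let s' : ∀ i, Γ i →* G := fun i =>
    ((MulAut.conj (y i).k).toMonoidHom.comp (s i)).codRestrict G fun d =>
      G.mul_mem (G.mul_mem (hk i) (hG i d)) (G.inv_mem (hk i))
  have e1 : ∀ i d, (s' i d).1 = (y i).k * s i d * (y i).k⁻¹ := fun _ _ => rfl
  have e2 : ∀ i d, sg (s' i d).1 = d := fun i d => by
    rw [e1, map_mul, map_mul, map_inv, (y i).one, (hs i).sg, one_mul, inv_one, mul_one]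
  obtain ⟨H, ρ, τ, h1, h2, h3, h4, h5, h6, h7, h8⟩ := hT D.g D.B G D.rm j m _ _ (h.gt j) ι p hp
    v hv Γ hΓ s' (fun i => ⟨e2 i, fun k hk => ((hs i).cts k hk).imp fun N hN =>
      ⟨hN.1, fun d hd => (hN.2 d hd).conj (hy i).int⟩⟩) (fun i => (y i).τ)
    (fun i => ⟨(y i).loc, (y i).alg, fun d t ht =>
      hf i _ (hx i d) t (by rw [(hs i).sg]; exact ht)⟩) U hU n hn
  refine ⟨H, G.subtype.comp ρ, ⟨τ, 1, h5, h6, map_one _⟩, h1, h2, h3, ⟨h4.sec, h4.cts⟩,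
    fun a => (ρ a).2, rfl, fun a t ht => ?_, fun i σ => ?_⟩
  · simp only [one_mul, inv_one, mul_one]
    exact h7 a t (by rw [← h4.sec a]; exact ht)
  · obtain ⟨e, h9, h10, h11⟩ := h8 i σ
    refine ⟨e.1, e.2, h9, h10, fun d => (h11 d).imp fun a ha => ⟨ha.1, ?_⟩⟩
    have h12 : Mn n (uu (e.1 * (ρ a).1 * e.1⁻¹) - uu ((y i).k * s i d * (y i).k⁻¹)) := ha.2
    have := h12.add (((hy i).anti (dvd_mul_right _ _)).conj_sub (h.int _ (hG i d)))
    rwa [sub_add_sub_cancel] at this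

end Vale.Agent.P022K.PM
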