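import Vale.Agent.P022K.TP.Cx

/-!
# Existence of points with complex multiplication of a given type (helper99)
-/

open Matrix Polynomial

noncomputable section

namespace Vale.Agent.P022K.TP

open P010MR P010M71 P010MT8

variable {g : ℕ} {L : Type} [Field L] [NumberField L] (l : L →+* Mi g ℚ)

namespace Cme

/-- the real matrices -/
def lr : L →+* Mi g ℝ := (Rat.castHom ℝ).mapMatrix.comp l
/-- the complex matrices -/
def lc : L →+* Mi g ℂ := (Rat.castHom ℂ).mapMatrix.comp l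

omit [NumberField L] in
theorem cx_lr (z : L) : cx (lr l z) = lc l z := cx_qr (l z)

theorem lc_aeval (z : L) (p : ℚ[X]) :
    aeval (lc l z) (p.map (algebraMap ℚ ℂ)) = lc l (aeval z p) :=
  (aeval_map_algebraMap ℂ _ p).trans (aeval_algHom_apply (lc l).toRatAlgHom z p)

theorem cx_aeval (A : Mi g ℝ) (p : ℝ[X]) :
    cx (aeval A p) = aeval (cx A) (p.map (algebraMap ℝ ℂ)) :=
  ((aeval_map_algebraMap ℂ _ p).trans
    (aeval_algHom_apply (AlgHom.mapMatrix Complex.ofRealAm) A p)).symm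

/-- simultaneous eigenvectors -/
theorem exists_eig (W : Submodule ℂ (V g)) (hW : ∀ z, ∀ v ∈ W, lc l z *ᵥ v ∈ W) {v : V g}
    (hv : v ∈ W) (h0 : v ≠ 0) :
    ∃ (ψ : L →+* ℂ) (w : V g), w ∈ W ∧ w ≠ 0 ∧ ∀ z, lc l z *ᵥ w = ψ z • w := by
  let pb := Field.powerBasisOfFiniteOfSeparable ℚ L
  have : Nontrivial W := ⟨⟨v, hv⟩, 0, fun e => h0 (congrArg Subtype.val e)⟩
  obtain ⟨c, hc⟩ := Module.End.exists_eigenvalue ((lc l pb.gen).mulVecLin.restrict (hW _))
  obtain ⟨w, hw⟩ := hc.exists_hasEigenvector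
  have h1 : w.1 ≠ 0 := fun e => hw.2 (Subtype.ext e)
  have h2 : lc l pb.gen *ᵥ w.1 = c • w.1 := congrArg Subtype.val hw.apply_eq_smul
  have h3 : ∀ p : ℚ[X], lc l (aeval pb.gen p) *ᵥ w.1 = aeval c p • w.1 := fun p => by
    rw [← lc_aeval, aeval_eig h2, eval_map_algebraMap]
  have h4 : aeval c (minpoly ℚ pb.gen) = 0 := by
    have := h3 (minpoly ℚ pb.gen)
    rw [minpoly.aeval, map_zero, zero_mulVec] at this
    exact (smul_eq_zero.1 this.symm).resolve_right h1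
  refine ⟨pb.lift c h4, w, w.2, h1, fun z => ?_⟩
  obtain ⟨p, rfl⟩ := pb.exists_eq_aeval' z
  rw [h3, RingHom.coe_coe, pb.lift_aeval]

theorem aeval_zero {m : L} (hr : ∀ ψ : L →+* ℂ, (ψ m).im = 0) {G : ℝ[X]} (h0 : G ≠ 0)
    (hG : ∀ ψ : L →+* ℂ, G.eval (ψ m).re = 0) : aeval (lr l m) G = 0 := by
  have hi : IsIntegral ℚ m := Algebra.IsIntegral.isIntegral m
  obtain ⟨Q, hQ⟩ := (IsAlgClosed.splits ((minpoly ℚ m).map (algebraMap ℚ ℂ))).dvd_of_roots_le_roots
    ((minpoly.monic hi).map _).ne_zero (g := G.map (algebraMap ℝ ℂ))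
    ((Multiset.le_iff_subset (nodup_roots (Separable.map (Algebra.IsSeparable.isSeparable ℚ m)))).2
      fun y hy => by
        obtain ⟨ψ, rfl⟩ := IntermediateField.exists_algHom_of_splits_of_aeval (F := ℚ) (E := L)
          (K := ℂ) (fun s => ⟨Algebra.IsIntegral.isIntegral s, IsAlgClosed.splits _⟩) (x := m)
          (y := y) (by rw [← eval_map_algebraMap]; exact isRoot_of_mem_roots hy)
        rw [mem_roots (map_ne_zero h0), IsRoot, show ψ m = algebraMap ℝ ℂ (ψ m).re from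
          Complex.ext rfl (by simpa using hr ψ), eval_map, eval₂_at_apply]
        exact (congrArg _ (hG ψ)).trans (map_zero _))
  refine cx_inj ?_
  rw [cx_aeval, hQ, map_mul, cx_lr, lc_aeval, minpoly.aeval, map_zero, zero_mul, cx_zero]

theorem tr_aeval {A B : Mi g ℝ} (h : Aᵀ * B = B * A) (p : ℝ[X]) :
    (aeval A p)ᵀ * B = B * aeval A p := by
  induction p using Polynomial.induction_on with
  | C c => simp [Algebra.algebraMap_eq_smul_one]
  | add p q hp hq => rw [map_add, transpose_add, add_mul, mul_add, hp, hq]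
  | monomial k c ih =>
    rw [pow_succ, ← mul_assoc, map_mul, aeval_X, transpose_mul, mul_assoc, ih, ← mul_assoc, h,
      mul_assoc, aeval_comm (rfl : A * A = A * A)]

theorem posDef {S : Mi g ℚ} (h1 : Sᵀ = S) (h2 : IsUnit S)
    (h : ∀ v : Ix g → ℚ, v ≠ 0 → 0 < v ⬝ᵥ S *ᵥ v) : (qr S).PosDef := by
  refine (PosSemidef.posDef_iff_isUnit (.of_dotProduct_mulVec_nonneg (congrArg qr h1)
    fun x => ?_)).2 (h2.map (Rat.castHom ℝ).mapMatrix)
  refine (DenseRange.piMap fun _ : Ix g => Rat.denseRange_cast (𝕜 := ℝ)).induction_on x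
    (isClosed_le continuous_const (by simp only [dotProduct, mulVec]; fun_prop)) fun v => ?_
  have : 0 ≤ v ⬝ᵥ S *ᵥ v := by
    by_cases e : v = 0
    · simp [e]
    · exact (h v e).le
  refine le_of_le_of_eq (Rat.cast_nonneg.2 this) ?_
  simp only [dotProduct, mulVec, Rat.cast_sum, Rat.cast_mul]
  rfl

end Cme

open Cme in
/-- existence of a point of the type attached to the polarisation -/
theorem exists_ty (m I : L) (hI : I ^ 2 = -1)
    (hm : (l m)ᵀ * J (Fin g) ℚ = J (Fin g) ℚ * l m)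
    (hI' : (l I)ᵀ * J (Fin g) ℚ = -(J (Fin g) ℚ * l I)) (hr : ∀ ψ : L →+* ℂ, (ψ m).im = 0)
    (hp : ∀ v : Ix g → ℚ, v ≠ 0 → 0 < pq v (l (m * I) *ᵥ v)) :
    ∃ τ, Ty τ l {ψ | 0 < (ψ (m * I)).im} := by
  classical
  wlog h0 : m ≠ 0 generalizing m
  · have h1 : ∀ v : Ix g → ℚ, v = 0 := fun v => by
      by_contra h
      simpa [not_not.1 h0, pq] using hp v h
    have h2 : IsEmpty (Fin g) := ⟨fun i => by simpa using congrFun (h1 1) (.inl i)⟩
    obtain ⟨τ, h⟩ := this 1 (Subsingleton.elim _ _) (by simp) (fun v h => absurd (h1 v) h) one_ne_zero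
    exact ⟨τ, h.mem, h.hm, fun _ _ _ _ y hy => absurd (Subsingleton.elim _ _) hy⟩
  have hI0 : I ≠ 0 := fun e => by simp [e] at hI
  let s : Finset ℝ := Finset.univ.image fun ψ : L →+* ℂ => (ψ m).re
  let P : ℝ[X] := Lagrange.interpolate s id fun r => (√|r|)⁻¹
  have h1 : ∀ ψ : L →+* ℂ, (ψ m).re ≠ 0 := fun ψ e =>
    (map_ne_zero ψ).2 h0 (Complex.ext e (hr ψ))
  have h2 : ∀ ψ : L →+* ℂ, P.eval (ψ m).re ^ 2 = |(ψ m).re|⁻¹ := fun ψ => by
    rw [show P.eval (ψ m).re = _ from Lagrange.eval_interpolate_at_node _ (Set.injOn_id _)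
      (Finset.mem_image_of_mem _ (Finset.mem_univ ψ)), inv_pow, Real.sq_sqrt (abs_nonneg _)]
  set R := aeval (lr l m) P with hR
  have h3 : lr l m ^ 2 * (R ^ 2) ^ 2 = 1 := by
    have := aeval_zero l hr (G := X ^ 2 * (P ^ 2) ^ 2 - 1)
      (fun e => by simpa using congrArg (eval 0) e) fun ψ => by
        simp only [eval_sub, eval_mul, eval_pow, eval_X, eval_one, h2, inv_pow, sq_abs]
        rw [mul_inv_cancel₀ (pow_ne_zero _ (h1 ψ)), sub_self]
    simpa [sub_eq_zero] using this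
  have h4 : ∀ z, Commute (lr l z) R := fun z => aeval_comm ((Commute.all z m).map (lr l)).eq P
  have hJ : qr (J (Fin g) ℚ) = J (Fin g) ℝ := map_J _ (Rat.castHom ℝ)
  have hq : ∀ a b : Mi g ℚ, qr (a * b) = qr a * qr b := fun a b =>
    Matrix.map_mul (f := Rat.castHom ℝ)
  have h5 : Rᵀ * J (Fin g) ℝ = J (Fin g) ℝ * R := tr_aeval (by
    have := congrArg qr hm
    rwa [hq, hq, hJ] at this) P
  have h6 := (posDef (S := J (Fin g) ℚ * l (m * I)) (by
    rw [transpose_mul, J_transpose, map_mul, transpose_mul, mul_neg, mul_assoc, hm, ← mul_assoc,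
      hI', neg_mul, neg_neg, mul_assoc, ← map_mul, ← map_mul, mul_comm])
    (((isUnit_iff_isUnit_det _).2 (isUnit_det_J _ _)).mul
      ((mul_ne_zero h0 hI0).isUnit.map l)) fun v hv => by
      simpa only [pq, mulVec_mulVec] using hp v hv).conjTranspose_mul_mul_same (B := R)
    (mulVec_injective_of_isUnit (IsUnit.of_mul_eq_one_right (lr l m ^ 2 * R ^ 3) (by
      rw [← h3, mul_assoc, ← pow_succ, ← pow_mul])))
  obtain ⟨τ, hτ, hK⟩ := exists_jm (K := lr l (m * I) * R ^ 2) (by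
    rw [← sq, ((h4 _).pow_right 2).mul_pow, ← map_pow, mul_pow, hI, mul_neg_one, map_neg, map_pow,
      neg_mul, h3]) (by
    rwa [conjTranspose_eq_transpose_of_trivial, hq, hJ, ← mul_assoc, h5, mul_assoc, mul_assoc,
      ← mul_assoc R, show R * qr (l (m * I)) = _ from (h4 _).eq.symm, mul_assoc, ← sq] at h6)
  have h7 : ∀ z, Commute (lr l z) (Jm τ) := fun z =>
    hK.symm ▸ ((Commute.all z _).map (lr l)).mul_right ((h4 z).pow_right 2)
  refine ⟨τ, hτ, fun z => (hm_iff_jm hτ hτ).2 (h7 z), fun z a ha c y hy e => ?_⟩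
  obtain ⟨v, hv, e1, e2⟩ := ha.lift hτ hy e
  obtain ⟨ψ, w, ⟨e3, e4⟩, hw, h8⟩ := Cme.exists_eig l
    (LinearMap.eqLocus (cx (Jm τ)).mulVecLin (Complex.I • .id) ⊓
      LinearMap.eqLocus (lc l z).mulVecLin (c • .id)) (fun x u ⟨h, h'⟩ => ⟨by
      change cx (Jm τ) *ᵥ lc l x *ᵥ u = Complex.I • lc l x *ᵥ u
      rw [mulVec_mulVec, ← cx_lr, ← cx_mul, ← (h7 x).eq, cx_mul, ← mulVec_mulVec,
        show cx (Jm τ) *ᵥ u = Complex.I • u from h, mulVec_smul], by
      change lc l z *ᵥ lc l x *ᵥ u = c • lc l x *ᵥ u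
      rw [mulVec_mulVec, ← map_mul, mul_comm, map_mul, ← mulVec_mulVec,
        show lc l z *ᵥ u = c • u from h', mulVec_smul]⟩) (v := v) ⟨e1, e2⟩ hv
  refine ⟨ψ, ?_, smul_left_injective ℂ hw (e4.symm.trans (h8 z))⟩
  have h9 : cx (Jm τ) *ᵥ w = (ψ (m * I) * (|(ψ m).re|⁻¹ : ℝ)) • w := by
    rw [hK, cx_mul, hR, ← map_pow, cx_aeval, cx_lr, cx_lr, ← mulVec_mulVec, aeval_eig (h8 m),
      mulVec_smul, h8, smul_smul, mul_comm, ← h2, ← eval_pow,
      show ψ m = algebraMap ℝ ℂ (ψ m).re from Complex.ext rfl (by simpa using hr ψ), eval_map,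
      eval₂_at_apply]
    rfl
  have h10 := congrArg Complex.im (smul_left_injective ℂ hw (h9.symm.trans e3))
  simp only [Complex.mul_im, Complex.ofReal_re, Complex.ofReal_im, mul_zero, zero_add,
    Complex.I_im] at h10
  exact (mul_pos_iff_of_pos_right (inv_pos.2 (abs_pos.2 (h1 ψ)))).1 (h10 ▸ one_pos)

end Vale.Agent.P022K.TP
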