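import Vale.Agent.P022K.TP.Cmf
import Vale.Agent.P022K.TP.Cme

/-!
# Points with complex multiplication: the type of one element, complex conjugation, deep levels
-/

open Matrix Complex Polynomial

noncomputable section

namespace Vale.Agent.P022K.TP

open P010MR P010M71 P010MT8

variable {g : ℕ} {τ : Mc g} {L : Type} [Field L] [NumberField L] {l : L →+* Mi g ℚ}
  {Φ : Set (L →+* ℂ)}

open Classical in
/-- one purely imaginary multiplication determines the type -/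
theorem ty_of_pos (hτ : τ ∈ Hg g) {θ : L} (hm : Hm τ τ (l θ))
    (h : ∀ a, La τ τ (l θ) a → ∀ (c : ℂ) (y : Fin g → ℂ), y ≠ 0 →
      a *ᵥ y = c • y → 0 < c.im) : Ty τ l {ψ | 0 < (ψ θ).im} := by
  obtain ⟨a, ha⟩ := exists_la hm
  have h1 : ∀ (s : Finset (L →+* ℂ)) (c : (L →+* ℂ) → ℂ) (v : V g), (∀ i ∈ s, ¬ 0 < (c i).im) →
      aeval (cm (l θ)) (∏ i ∈ s, (X - C (c i))) *ᵥ v = 0 → zc τ v = 0 := fun s c v hs e => by
    by_contra h0
    obtain ⟨i, hi, Q, h1, h2⟩ := exists_eig a s c h0 (by rw [← ha.aeval, e]; exact (zl τ).map_zero)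
    exact hs i hi (h a ha _ _ h1 h2)
  have h2 : ∀ v, zc τ v = 0 ↔ aeval (cm (l θ))
      (∏ ψ ∈ Finset.univ.filter fun ψ : L →+* ℂ => ¬ 0 < (ψ θ).im, (X - C (ψ θ))) *ᵥ v = 0 :=
    fun v => ⟨fun hv => eq_zero_of_zc hτ (by rw [ha.aeval, hv, mulVec_zero])
      (h1 (Finset.univ.filter fun ψ : L →+* ℂ => 0 < (ψ θ).im) (fun ψ => star (ψ θ)) _
        (fun ψ hψ => by simpa using (Finset.mem_filter.1 hψ).2.le) (by
          refine (star_aeval _ _ (fun ψ : L →+* ℂ => ψ θ) _).symm.trans ?_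
          rw [mulVec_mulVec, ← map_mul, Finset.prod_filter_mul_prod_filter_not, kill, zero_mulVec,
            star_zero])), h1 _ _ v fun _ hi => (Finset.mem_filter.1 hi).2⟩
  have h3 : ∀ z, Hm τ τ (l z) := fun z => hm_iff_zc.2 fun v hv => (h2 _).2 (by
    rw [mulVec_mulVec, ← aeval_comm (A := cm (l θ)) (by rw [← cm_mul, co_l z θ, cm_mul]),
      ← mulVec_mulVec, (h2 _).1 hv, mulVec_zero])
  have h7 : ∀ z, cm (l z) * cx (Jm τ) = cx (Jm τ) * cm (l z) := fun z => by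
    have := congrArg cx ((hm_iff_jm hτ hτ).1 (h3 z))
    rwa [cx_mul, cx_mul, cx_qr] at this
  refine ⟨hτ, h3, fun z b hb c y hy e => ?_⟩
  obtain ⟨v, hv, e1, e2⟩ := hb.lift hτ hy e
  obtain ⟨ψ, w, ⟨e3, e4⟩, hw, h8⟩ := Cme.exists_eig l
    (LinearMap.eqLocus (cx (Jm τ)).mulVecLin (Complex.I • .id) ⊓
      LinearMap.eqLocus (Cme.lc l z).mulVecLin (c • .id)) (fun x u ⟨h, h'⟩ => ⟨by
      change cx (Jm τ) *ᵥ cm (l x) *ᵥ u = Complex.I • cm (l x) *ᵥ u
      rw [mulVec_mulVec, ← h7, ← mulVec_mulVec,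
        show cx (Jm τ) *ᵥ u = Complex.I • u from h, mulVec_smul], by
      change Cme.lc l z *ᵥ Cme.lc l x *ᵥ u = c • Cme.lc l x *ᵥ u
      rw [mulVec_mulVec, ← map_mul, mul_comm, map_mul, ← mulVec_mulVec,
        show Cme.lc l z *ᵥ u = c • u from h', mulVec_smul]⟩) (v := v) ⟨e1, e2⟩ hv
  refine ⟨ψ, h a ha _ (zc τ w) (fun h0 => hw ?_) ?_,
    smul_left_injective ℂ hw (e4.symm.trans (h8 z))⟩
  · have h9 : -I • w = I • w := (jm_per hτ h0).symm.trans e3
    have h10 : (2 * I) • w = 0 := by linear_combination (norm := module) -h9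
    exact (smul_eq_zero.1 h10).resolve_left (by simp)
  · rw [← ha, ← zc_smul]
    exact congrArg (zc τ) (h8 θ)

/-- a matrix of multiplier `-1` which conjugates the multiplications makes the point real -/
theorem Ty.real (h : Ty τ l Φ) (hΦ : ∀ ψ ∈ Φ, (starRingEnd ℂ).comp ψ ∉ Φ) {cj : L → L}
    (hc : ∀ (ψ : L →+* ℂ) z, ψ (cj z) = starRingEnd ℂ (ψ z)) {w : Mi g ℚ}
    (hw : wᵀ * J (Fin g) ℚ * w = -J (Fin g) ℚ) (hα : ∀ z, w * l z = l (cj z) * w) :
    Rel cc τ τ (am w) := by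
  classical
  obtain ⟨θ, hθ⟩ := exists_sep L
  refine cc_row g τ h.mem τ h.mem w hw fun x => zc_eq_zero.1 ?_
  have h2 := congrArg star ((h.ker hΦ hθ _).1 (zc_per τ x))
  rw [star_aeval, star_zero] at h2
  have hθ' : Function.Injective fun ψ : L →+* ℂ => ψ (cj θ) := fun ψ ψ' e =>
    hθ ((starRingEnd ℂ).injective (by simpa only [hc] using e))
  refine (h.ker hΦ hθ' _).2 ?_
  rw [mulVec_mulVec, ← aeval_comm (A := cm (l θ)) (by rw [← cm_mul, hα, cm_mul]), ← mulVec_mulVec]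
  simp only [hc]
  exact (congrArg (cm w *ᵥ ·) h2).trans (mulVec_zero _)

theorem exists_dm (u : Mi g Af) :
    ∃ d, 0 < d ∧ ∀ n (x : Mi g Af), Mn (d * n) x → Mn n (x * u) ∧ Mn n (u * x) := by
  obtain ⟨d, hd, h⟩ := exists_cont u
  obtain ⟨d', hd', h'⟩ := exists_cont uᵀ
  refine ⟨d * d', by positivity, fun n x hx => ⟨fun i k => ?_, fun i k => ?_⟩⟩
  · have := h' n (x i) (fun j => hx.anti ⟨d, by ring⟩ i j) k
    rwa [mulVec_transpose] at this
  · exact h n (xᵀ k) (fun j => hx.anti ⟨d', by ring⟩ j k) i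

theorem skew_deep (hτ : τ ∈ Hg g) {X : Mi g ℚ} (hX : Xᵀ * J (Fin g) ℚ = -(J (Fin g) ℚ * X))
    (hm : Hm τ τ X) : ∃ d, 0 < d ∧ ∀ σ u, Rel σ τ τ u → Mn d (u - 1) → u * am X = am X * u := by
  obtain ⟨y, hy, hd⟩ := En.exists_reg X
  set A := y • (1 : Mi g ℚ) - X with hA
  have h1 := mul_nonsing_inv A hd
  have h2 := nonsing_inv_mul A hd
  have h3 : (y • (1 : Mi g ℚ) + X)ᵀ * J (Fin g) ℚ * (y • 1 + X) = Aᵀ * J (Fin g) ℚ * A := by
    simp only [hA, transpose_add, transpose_sub, transpose_smul, transpose_one, add_mul, sub_mul,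
      hX, smul_mul_assoc, one_mul, mul_add, mul_sub, mul_smul_comm, mul_one, neg_mul, smul_neg,
      smul_add, smul_sub]
    abel
  let C : Sp g ℚ := ⟨(y • 1 + X) * A⁻¹, SymplecticGroup.mem_iff'.2 (by
    rw [transpose_mul, mul_assoc, mul_assoc, ← mul_assoc (J _ _), ← mul_assoc (_ + _)ᵀ,
      ← mul_assoc (_ + _)ᵀ, h3, mul_assoc, h1, mul_one, ← mul_assoc, ← transpose_mul, h1,
      transpose_one, one_mul])⟩
  have h4 : act (qr C.1) τ = τ := act_of_hm C hτ
    ((((hm_one τ).smul y).add hm).mul ((((hm_one τ).smul y).sub hm).inv h2))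
  have h7 : (C.1 + 1) * A = (2 * y) • 1 := by
    rw [add_mul, one_mul, mul_assoc, h2, mul_one, hA, add_add_sub_cancel, mul_smul, two_smul]
  obtain ⟨d, hd0, H⟩ := exists_dm (am C.1)
  obtain ⟨d', hd0', H'⟩ := exists_dm (am (C⁻¹).1)
  refine ⟨d * (d' * 3), by positivity, fun σ u h hu => ?_⟩
  obtain ⟨δ, h5, h6⟩ := unq (neat g) σ τ τ τ u _ h (h.right hτ C h4)
  have h8 : δ * C⁻¹ = 1 := neat g τ hτ _ (by
    rw [Uq.act_mul_sp hτ, ← h4, Uq.act_inv_sp hτ, h4, ← h5]) 3 le_rfl (by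
      have h9 := (H' 3 _ (mul_one (d' * 3) ▸
        ((H _ _ hu).1.sub (H _ _ hu).2).mul ((Uq.mn_of_sub hu).ui (σ := σ)))).1
      rwa [sub_mul u, mul_sub _ u, one_mul, mul_one, sub_sub_sub_cancel_right, h6, sub_mul,
        mul_assoc, mul_assoc (am C.1), h.sim.mul_ui, mul_one, mul_one, sub_mul, Uq.am_mul_inv,
        ← Uq.am_mul_sp] at h9)
  rw [mul_inv_eq_one.1 h8] at h6
  have h9 : Commute u (am (C.1 + 1)) := by
    rw [am_add, am_one]; exact Commute.add_right h6 (Commute.one_right u)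
  have h10 : am A = cA (2 * y) • am ((2 * y)⁻¹ • A) := by
    rw [← am_smul, smul_smul, mul_inv_cancel₀ (mul_ne_zero two_ne_zero hy), one_smul]
  have h11 : am (C.1 + 1) * am ((2 * y)⁻¹ • A) = 1 := by
    rw [← am_mul, mul_smul_comm, h7, smul_smul, inv_mul_cancel₀ (mul_ne_zero two_ne_zero hy),
      one_smul, am_one]
  have h12 : Commute u (am A) := h10 ▸ Commute.smul_right (by
    rw [Commute, SemiconjBy, ← one_mul (u * _), ← mul_eq_one_comm.1 h11, mul_assoc,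
      ← mul_assoc _ u, ← h9.eq, mul_assoc u, h11, mul_one]) _
  rw [show X = y • 1 - A by rw [hA, sub_sub_cancel], am_sub, am_smul, am_one]
  exact (((Commute.one_right u).smul_right _).sub_right h12).eq

/-- matrices close to one which fix the point lie in the torus -/
theorem Ty.deep [Nonempty (Ix g)] (h : Ty τ l Φ) (hΦ : ∀ ψ ∈ Φ, (starRingEnd ℂ).comp ψ ∉ Φ)
    {i : L} (hi : i ^ 2 = -1) (hI : (l i)ᵀ * J (Fin g) ℚ = -(J (Fin g) ℚ * l i)) :
    ∃ d, 0 < d ∧ ∀ σ u, Rel σ τ τ u → Mn d (u - 1) →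
      u ∈ Submodule.span Af (Set.range fun z => am (l z)) := by
  have h1 : ∀ f, Co l f →
      ∃ d, 0 < d ∧ ∀ σ u, Rel σ τ τ u → Mn d (u - 1) → u * am f = am f * u := fun f hf => by
    have h2 := h.hom h hΦ hf
    have h3 := En.hm_ad h.mem h.mem h2
    have h4 : J (Fin g) ℚ * (En.ad f * l i) = J (Fin g) ℚ * (l i * En.ad f) := by
      rw [← mul_assoc, En.J_ad, mul_assoc, ← neg_neg (J _ _ * l i), ← hI, mul_neg, ← mul_assoc,
        ← transpose_mul, ← hf, transpose_mul, mul_assoc, ← En.J_ad, ← mul_assoc, hI, neg_mul,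
        neg_neg, mul_assoc]
    obtain ⟨a, ha, H⟩ := skew_deep h.mem hI (h.hm i)
    obtain ⟨b, hb, H'⟩ := skew_deep h.mem (X := f - En.ad f) (by
      rw [transpose_sub, sub_mul, En.ad_J, ← En.J_ad, mul_sub, neg_sub]) (h2.sub h3)
    obtain ⟨c, hc, H''⟩ := skew_deep h.mem (X := l i * (f + En.ad f)) (by
      rw [transpose_mul, mul_assoc, hI, mul_neg, ← mul_assoc, transpose_add, add_mul, En.ad_J,
        ← En.J_ad, add_mul, mul_assoc, h4, mul_assoc, hf, mul_add, mul_add, add_comm])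
      ((h.hm i).mul (h2.add h3))
    refine ⟨a * b * c, by positivity, fun σ u hR hu => ?_⟩
    have e : f = (1 / 2 : ℚ) • (f - En.ad f - l i * (l i * (f + En.ad f))) := by
      rw [← mul_assoc, ← map_mul, ← sq, hi, map_neg, map_one, neg_one_mul]
      module
    rw [e, am_smul, am_sub, am_mul (l i)]
    exact ((Commute.sub_right (H' σ u hR (hu.anti ⟨a * c, by ring⟩))
      (Commute.mul_right (H σ u hR (hu.anti ⟨b * c, by ring⟩))
        (H'' σ u hR (hu.anti ⟨a * b, by ring⟩)))).smul_right _).eq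
  let E : Submodule ℚ (Mi g ℚ) :=
    { carrier := {f | Co l f}
      add_mem' := fun {a b} ha hb z => by rw [add_mul, mul_add, ha, hb]
      zero_mem' := fun z => by simp
      smul_mem' := fun c a ha z => by rw [smul_mul_assoc, mul_smul_comm, ha] }
  obtain ⟨s, hs⟩ := IsNoetherian.noetherian E
  choose d hd H using fun f : s => h1 f (hs.le (Submodule.subset_span f.2))
  refine ⟨∏ f, d f, Finset.prod_pos fun f _ => hd f, fun σ u hR hu => ?_⟩
  obtain ⟨z, hz⟩ := cent_l l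
  obtain ⟨a, rfl⟩ := hz Af cA u fun f hf => by
    change u * am f = am f * u
    have h2 : f ∈ Submodule.span ℚ (s : Set (Mi g ℚ)) := hs.ge hf
    clear hf
    induction h2 using Submodule.span_induction with
    | mem x hx => exact H ⟨x, hx⟩ σ u hR (hu.anti (Finset.dvd_prod_of_mem _ (Finset.mem_univ _)))
    | zero => rw [show am (0 : Mi g ℚ) = 0 from Matrix.map_zero _ (map_zero _), mul_zero, zero_mul]
    | add x y _ _ hx hy => rw [am_add, mul_add, add_mul, hx, hy]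
    | smul c x _ hx => rw [am_smul, mul_smul_comm, smul_mul_assoc, hx]
  exact sum_mem fun k _ => Submodule.smul_mem _ _ (Submodule.subset_span ⟨_, rfl⟩)

end Vale.Agent.P022K.TP
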