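import Vale.Agent.P022K.TP.Sa0
import Vale.Agent.P022K.TP.Defs
import Mathlib.NumberTheory.Padics.Hensel

/-!
# Adelic norms from `L = F(i)`: units are norms, the Hasse norm theorem for matrices
-/

open NumberField Matrix Filter Polynomial

namespace Vale.Agent.P022K.TP

open P010MR P011.Arith

namespace Has

section padic

variable {p : ℕ} [hp : Fact p.Prime]

theorem hens {N c : ℤ_[p]} (hc : ‖c‖ = 1) (h : ‖N - c‖ < ‖(2 : ℤ_[p])‖ ^ 2) :
    ∃ s, s ^ 2 * N = c := by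
  have h1 : ‖N‖ = 1 := by
    rw [← sub_add_cancel N c, PadicInt.norm_add_eq_max_of_ne, hc, max_eq_right (PadicInt.norm_le_one _)]
    rw [hc]
    exact (h.trans_le (pow_le_one₀ (norm_nonneg _) (PadicInt.norm_le_one _))).ne
  obtain ⟨s, hs, -⟩ := hensels_lemma (p := p) (F := (X ^ 2 * C N - C c : ℤ_[p][X])) (a := 1)
    (by simpa [h1, one_add_one_eq_two] using h)
  exact ⟨s, mul_comm N _ ▸ by simpa [sub_eq_zero] using hs⟩

theorem int_rep {k : ℤ} (hk : k % 8 = 7) {z : ℤ} (hz : ¬ (p : ℤ) ∣ z) : ∃ x y u v : ℤ,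
    (x = 0 ∧ y = 0 ∨ u = 0 ∧ v = 0) ∧
      (p : ℤ) ^ (if p = 2 then 3 else 1) ∣ x ^ 2 + y ^ 2 + k * (u ^ 2 + v ^ 2) - z := by
  split_ifs with h
  · subst h
    have : z % 8 = 1 ∨ z % 8 = 3 ∨ z % 8 = 5 ∨ z % 8 = 7 := by omega
    rcases this with h | h | h | h
    · exact ⟨1, 0, 0, 0, by simp, by omega⟩
    · exact ⟨0, 0, 2, 1, by simp, by omega⟩
    · exact ⟨2, 1, 0, 0, by simp, by omega⟩
    · exact ⟨0, 0, 1, 0, by simp, by omega⟩
  · obtain ⟨a, b, e⟩ := ZMod.sq_add_sq p z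
    refine ⟨a.val, b.val, 0, 0, by simp, ?_⟩
    rw [pow_one, ← ZMod.intCast_zmod_eq_zero_iff_dvd]
    simp [e]

theorem loc {k : ℤ} (hk : k % 8 = 7) {c : ℤ_[p]} (hc : ‖c‖ = 1) : ∃ x y u v : ℤ_[p],
    (x = 0 ∧ y = 0 ∨ u = 0 ∧ v = 0) ∧ x ^ 2 + y ^ 2 + k * (u ^ 2 + v ^ 2) = c := by
  have p1 : (1 : ℝ) < p := by exact_mod_cast hp.out.one_lt
  have h1 := (PadicInt.norm_le_pow_iff_mem_span_pow _ 3).2 (c.appr_spec 3)
  obtain ⟨x, y, u, v, h2, h3⟩ := int_rep (p := p) hk (z := c.appr 3) fun h => by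
    have := (PadicInt.nonarchimedean _ _).trans_lt (max_lt (h1.trans_lt
      (zpow_lt_one_of_neg₀ p1 (by norm_num))) ((PadicInt.norm_int_lt_one_iff_dvd _).2 h))
    rw [Int.cast_natCast, sub_add_cancel, hc] at this
    exact lt_irrefl _ this
  obtain ⟨s, hs⟩ := hens (N := (x ^ 2 + y ^ 2 + k * (u ^ 2 + v ^ 2) : ℤ)) hc (by
    have h4 := PadicInt.norm_int_le_pow_iff_dvd.2 h3
    rw [← norm_neg, neg_sub] at h1
    have := (PadicInt.nonarchimedean _ _).trans (max_le h4 (h1.trans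
      (zpow_le_zpow_right₀ p1.le (by split_ifs <;> norm_num))))
    rw [Int.cast_sub, Int.cast_natCast, sub_add_sub_cancel] at this
    refine this.trans_lt ?_
    split_ifs with h
    · subst h
      have : ‖(2 : ℤ_[2])‖ = 2⁻¹ := PadicInt.norm_p
      rw [this]
      norm_num
    · have : ‖(2 : ℤ_[p])‖ = 1 := le_antisymm (PadicInt.norm_le_one _) (not_lt.1 fun h5 => h
        ((Nat.prime_dvd_prime_iff_eq hp.out Nat.prime_two).1 (Int.natCast_dvd_natCast.1
          ((PadicInt.norm_int_lt_one_iff_dvd 2).1 (by exact_mod_cast h5)))))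
      rw [this, one_pow]
      exact zpow_lt_one_of_neg₀ p1 (by norm_num))
  refine ⟨s * x, s * y, s * u, s * v, h2.imp (fun h => by simp [h]) fun h => by simp [h], ?_⟩
  rw [← hs]
  push_cast
  ring

end padic

theorem norm_unit {c c' : Af} (hc : c ∈ Zn 1) (hc' : c' ∈ Zn 1) (h : c * c' = 1) (r : Pr) :
    ‖pr r c‖ = 1 := by
  have h1 : ‖pr r c‖ * ‖pr r c'‖ = 1 := by rw [← norm_mul, ← map_mul, h, map_one, norm_one]
  exact le_antisymm (mem_Z1.1 hc r) (h1.symm.trans_le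
    (mul_le_of_le_one_right (norm_nonneg _) (mem_Z1.1 hc' r)))

theorem unit_sq {k : ℤ} (hk : k % 8 = 7) {c c' : Af} (hc : c ∈ Zn 1) (hc' : c' ∈ Zn 1)
    (h : c * c' = 1) : ∃ x : Fin 4 → Af, (∀ i, x i ∈ Zn 1) ∧ x 0 * x 2 = 0 ∧ x 0 * x 3 = 0 ∧
      x 1 * x 2 = 0 ∧ x 1 * x 3 = 0 ∧ x 0 ^ 2 + x 1 ^ 2 + k * (x 2 ^ 2 + x 3 ^ 2) = c := by
  choose x y u v h1 h2 using fun r : Pr =>
    loc hk (c := ⟨pr r c, mem_Z1.1 hc r⟩) (norm_unit hc hc' h r)
  refine ⟨![mkZ x, mkZ y, mkZ u, mkZ v], fun i => by fin_cases i <;> exact mkZ_mem _,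
    ?_, ?_, ?_, ?_, ext_pr fun r => by simpa [pr_mkZ] using congrArg Subtype.val (h2 r)⟩ <;>
  exact ext_pr fun r => by rcases h1 r with h | h <;> simp [pr_mkZ, h]

variable {m : Type} [Fintype m] [DecidableEq m]

/-- convergence of rational matrices -/
def Lim (X : Matrix m m Af) (f : ℕ → Matrix m m ℚ) : Prop :=
  ∀ n, 0 < n → ∀ᶠ k in atTop, Mn n (X - am (f k))

omit [Fintype m] [DecidableEq m] in
theorem lim_const (A : Matrix m m ℚ) : Lim (am A) fun _ => A := fun _ _ =>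
  Eventually.of_forall fun _ i j => by rw [sub_self]; exact zero_mem _

omit [DecidableEq m] in
theorem Lim.mul {X Y : Matrix m m Af} {f g : ℕ → Matrix m m ℚ} (h : Lim X f) (h' : Lim Y g) :
    Lim (X * Y) fun k => f k * g k := fun n hn => by
  obtain ⟨d, d0, hd⟩ := exists_den_fin (Sum.elim (fun p : m × m => X p.1 p.2)
    fun p : m × m => Y p.1 p.2)
  filter_upwards [h _ (Nat.mul_pos d0 hn), h' _ (Nat.mul_pos d0 hn)] with k h1 h2
  rw [am_mul, show X * Y - am (f k) * am (g k) = X * (Y - am (g k)) + (X - am (f k)) * Y -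
    (X - am (f k)) * (Y - am (g k)) by noncomm_ring]
  refine Mn.sub (Mn.add (fun i j => ?_) fun i j => ?_)
    ((h1.mul h2).anti (Dvd.dvd.mul_right (dvd_mul_left _ _) _))
  · exact sum_mem fun t _ => mul_den d0 (hd (.inl (i, t))) (h2 t j)
  · exact sum_mem fun t _ => mul_comm (Y t j) _ ▸ mul_den d0 (hd (.inr (t, j))) (h1 i t)

omit [DecidableEq m] in
theorem exists_lim {κ : Type} [Fintype κ] (a : κ → Af) : ∃ q : ℕ → κ → ℚ,
    ∀ A : κ → Matrix m m ℚ, Lim (∑ i, a i • am (A i)) fun k => ∑ i, q k i • A i := by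
  choose q hq using fun k i => dens (a i) (Nat.factorial_pos k)
  refine ⟨q, fun A n hn => ?_⟩
  obtain ⟨d, d0, hd⟩ := exists_den_fin fun p : κ × m × m => am (A p.1) p.2.1 p.2.2
  filter_upwards [eventually_ge_atTop (d * n)] with k hk s t
  have e : (∑ i, a i • am (A i) - am (∑ i, q k i • A i)) s t =
      ∑ i, am (A i) s t * (a i - cA (q k i)) := by
    simp [am, Matrix.sum_apply, mul_sub, mul_comm]
  rw [e]
  exact sum_mem fun i _ => mul_den d0 (hd (i, s, t))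
    (Zn_anti (Nat.dvd_factorial (Nat.mul_pos d0 hn) hk) (hq k i))

theorem int_of_mn {L : Type} [Field L] [CharZero L] [Nonempty m] (l : L →+* Matrix m m ℚ) {n : ℕ}
    (hn : 0 < n) {x : L} (h : Mn n (am (l x))) : IsIntegral ℤ (x / n) := by
  choose B hB using fun i j => (rat_mem hn).1 (h i j)
  have e : l x = l n * (Int.castRingHom ℚ).mapMatrix (Matrix.of B) := by
    ext i j
    rw [map_natCast, ← nsmul_eq_mul, hB]
    simp
  rw [← isIntegral_algHom_iff l.toIntAlgHom l.injective]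
  have e1 : l (x / n) = (Int.castRingHom ℚ).mapMatrix (Matrix.of B) := by
    rw [div_eq_inv_mul, map_mul, e, ← mul_assoc, ← map_mul, inv_mul_cancel₀ (Nat.cast_ne_zero.2 hn.ne'),
      map_one, one_mul]
  change IsIntegral ℤ (l _)
  rw [e1]
  exact (Matrix.isIntegral (Matrix.of B)).map
    ((Int.castRingHom ℚ).mapMatrix (m := m)).toIntAlgHom

end Has

open Has

variable {F L : Type} [Field F] [Field L] [Algebra F L] {g : ℕ}

theorem exists_seven {I : L} (hI : I ^ 2 = -1) (cj : L ≃ₐ[F] L) (cjI : cj I = -I)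
    (z3 : ∃ ζ : L, ζ ^ 2 + ζ + 1 = 0) :
    ∃ (y : L) (k : ℤ), IsIntegral ℤ I ∧ IsIntegral ℤ y ∧ k % 8 = 7 ∧ y * cj y = k := by
  obtain ⟨ζ, h⟩ := z3
  have h1 : cj ζ ^ 2 + cj ζ + 1 = 0 := by simpa using congrArg cj h
  have h2 : (cj ζ - ζ) * (cj ζ + ζ + 1) = 0 := by linear_combination h1 - h
  have i1 : IsIntegral ℤ I := .of_pow two_pos (hI ▸ isIntegral_one.neg)
  have i2 : IsIntegral ℤ ζ := .of_pow three_pos
    ((by linear_combination (ζ - 1) * h : ζ ^ 3 = 1) ▸ isIntegral_one)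
  rcases mul_eq_zero.1 h2 with e | e
  · refine ⟨ζ ^ 2 + I * ζ, -1, i1, (i2.pow 2).add (i1.mul i2), by decide, ?_⟩
    rw [map_add, map_pow, map_mul, sub_eq_zero.1 e, cjI]
    push_cast
    linear_combination (-ζ ^ 2) * hI + (ζ ^ 2 - ζ + 1) * h
  · refine ⟨3 + ζ, 7, i1, (isIntegral_algebraMap (x := (3 : ℤ))).add i2 |> fun h => by simpa using h, by decide, ?_⟩
    rw [map_add, map_ofNat]
    push_cast
    linear_combination (3 + ζ) * e - h

/-- the units of `Zhat` are norms of integral elements -/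
theorem unit_norm_ad {I : L} (hI : I ^ 2 = -1) (cj : L ≃ₐ[F] L) (cjI : cj I = -I)
    (z3 : ∃ ζ : L, ζ ^ 2 + ζ + 1 = 0) (l : L →+* Mi g ℚ) {c c' : Af} (hc : c ∈ Zn 1)
    (hc' : c' ∈ Zn 1) (h : c * c' = 1) : ∃ (x : Fin 4 → Af) (z : Fin 4 → L), (∀ i, x i ∈ Zn 1) ∧
      (∀ i, IsIntegral ℤ (z i)) ∧ (∑ i, x i • am (l (z i))) * ∑ i, x i • am (l (cj (z i))) = c • (1 : Mi g Af) := by
  obtain ⟨y, k, i1, i2, hk, e⟩ := exists_seven hI cj cjI z3
  obtain ⟨x, h0, h1, h2, h3, h4, h5⟩ := unit_sq hk hc hc' h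
  refine ⟨x, ![1, I, y, I * y], h0, fun i => by
    fin_cases i
    exacts [isIntegral_one, i1, i2, i1.mul i2], ?_⟩
  let Λ : L →+* Mi g Af := cA.mapMatrix.comp l
  have e0 : ∀ z, am (l z) = Λ z := fun _ => rfl
  have e1 : I * y * (-I * cj y) = k := by linear_combination e - y * cj y * hI
  have e2 : y * (-I * cj y) = -(I * y * cj y) := by ring
  have e3 : I * -I = 1 := by linear_combination -hI
  simp only [Fin.sum_univ_four, e0, add_mul, mul_add, smul_mul_smul_comm, ← map_mul, h1, h2, h3, h4,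
    mul_comm (x 2) (x 0), mul_comm (x 2) (x 1), mul_comm (x 3) (x 0), mul_comm (x 3) (x 1),
    zero_smul, add_zero, zero_add, cons_val_zero, cons_val_one, cons_val, map_one]
  simp only [map_mul cj, cjI, e, e1, e2, e3, one_mul, mul_one, map_neg, map_one, map_intCast]
  rw [← h5, ← mul_one (k : Mi g Af), ← zsmul_eq_mul]
  module

/-- the Hasse norm theorem for `L = F(i)` -/
theorem norm_of_apx [NumberField F] [NumberField L] (I : L) (hI : I ^ 2 = -1)
    (gen : ∀ z, ∃ x y : F, z = algebraMap F L x + algebraMap F L y * I) (cj : L ≃ₐ[F] L)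
    (cjI : cj I = -I) (z3 : ∃ ζ : L, ζ ^ 2 + ζ + 1 = 0) (l : L →+* Mi g ℚ) [Nonempty (Ix g)]
    (m : F) (pos : ∀ φ : F →+* ℝ, 0 < φ m) (c c' : Af) (hc : c ∈ Zn 1)
    (hc' : c' ∈ Zn 1) (hcc : c * c' = 1) (κ : Type) [Fintype κ] (a : κ → Af) (z : κ → L)
    (h : am (l (algebraMap F L m)) * (∑ i, a i • am (l (z i))) * ∑ i, a i • am (l (cj (z i))) =
      c • (1 : Mi g Af)) : ∃ y : L, y * cj y = algebraMap F L m := by
  have N : ∀ x y : F, (algebraMap F L x + algebraMap F L y * I) *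
      cj (algebraMap F L x + algebraMap F L y * I) = algebraMap F L (x ^ 2 - (-1) * y ^ 2) :=
    fun x y => by
      simp only [map_add, map_mul, map_sub, map_pow, map_neg, map_one, AlgEquiv.commutes, cjI]
      linear_combination (-algebraMap F L y ^ 2) * hI
  by_cases hm : m = 0
  · exact ⟨0, by simp [hm]⟩
  obtain ⟨x, w, -, -, h1⟩ := unit_norm_ad hI cj cjI z3 l hc' hc (mul_comm c c' ▸ hcc)
  obtain ⟨q, hq⟩ := exists_lim (m := Ix g) a
  obtain ⟨q', hq'⟩ := exists_lim (m := Ix g) x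
  have h2 := (((lim_const (l (algebraMap F L m))).mul (hq fun i => l (z i))).mul
    (hq fun i => l (cj (z i)))).mul ((hq' fun i => l (w i)).mul (hq' fun i => l (cj (w i))))
  rw [h, h1, smul_mul_smul_comm, hcc, one_smul, one_mul] at h2
  obtain ⟨s, t, e⟩ := hasse_norm (-1) (Units.mk0 m hm) (by
    rintro (v | φ)
    swap
    · exact Subgroup.mem_sup_right (pos φ)
    obtain ⟨n, n0, hn⟩ := Sa.small v (Sa.val_pos v (by norm_num : (4 : F) ≠ 0)).ne'
    obtain ⟨k, hk⟩ := (h2 n (Nat.pos_of_ne_zero n0)).exists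
    obtain ⟨s, t, e⟩ := gen ((∑ i, q k i • z i) * ∑ i, q' k i • w i)
    have e1 : 1 - am (l (algebraMap F L m) * (∑ i, q k i • l (z i)) * (∑ i, q k i • l (cj (z i))) *
        ((∑ i, q' k i • l (w i)) * ∑ i, q' k i • l (cj (w i)))) =
        am (l (algebraMap F L (1 - m * (s ^ 2 - (-1) * t ^ 2)))) := by
      rw [map_sub, map_mul, ← N, ← e, map_one, map_sub, map_one, am_sub, am_one]
      simp only [← map_rat_smul, ← map_sum, ← map_mul]
      simp only [map_mul cj, map_sum, map_rat_smul]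
      congr 3
      ring
    rw [e1] at hk
    have h3 := int_of_mn l (Nat.pos_of_ne_zero n0) hk
    rw [← map_natCast (algebraMap F L), ← map_div₀,
      isIntegral_algebraMap_iff (algebraMap F L).injective] at h3
    have h4 := Sa.mem_OF'.1 h3 v
    rw [map_div₀, div_le_one₀ (Sa.nat_pos v n0), Valuation.map_sub_swap] at h4
    have h5 := h4.trans_lt hn
    have h6 : s ^ 2 - (-1) * t ^ 2 ≠ 0 := fun h0 => by
      rw [h0, mul_zero, zero_sub, Valuation.map_neg, map_one] at h5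
      exact absurd h5 (not_lt.2 (val_four_le _))
    rw [← mul_inv_cancel_right (Units.mk0 m hm) (Units.mk0 _ h6)]
    exact mul_mem (Subgroup.mem_sup_right (LS_of_close h5))
      (inv_mem (Subgroup.mem_sup_left ⟨s, t, rfl⟩)))
  exact ⟨_, (N s t).trans (congrArg _ e.symm)⟩

end Vale.Agent.P022K.TP
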