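import Vale.Agent.P022K.TP.Der

/-!
# Row LIE: Lie algebras are conjugated
-/

open Matrix Complex

noncomputable section

namespace Vale.Agent.P022K.TP

open P010MR P010M71 P010MT8

namespace Dr

variable {g : ℕ} {σ : ℂ ≃+* ℂ} {u : Mi g Af} {τ τ' : Mc g} {s s' : V g → ℂ} {N : ℕ}
  {w w' z z' : V g} {f f' k k' : Mi g ℚ}

/-- conjugate tangent vectors -/
def Cr (σ : ℂ ≃+* ℂ) (τ τ' : Mc g) (u : Mi g Af) (w w' : V g) : Prop :=
  ∀ N, 0 < N → ∀ s ∈ WU τ N, ∀ s' ∈ WU τ' N, Cn σ u s s' → σ (fderiv ℂ s 0 w) = fderiv ℂ s' 0 w'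

theorem Cr.add (h : Cr σ τ τ' u w w') (h' : Cr σ τ τ' u z z') : Cr σ τ τ' u (w + z) (w' + z') :=
  fun N hN s hs s' hs' hc => by
    rw [map_add, map_add, map_add, h N hN s hs s' hs' hc, h' N hN s hs s' hs' hc]

theorem Cr.cancel {c : ℚ} (h0 : c ≠ 0) (h : Cr σ τ τ' u ((c : ℂ) • w) ((c : ℂ) • w')) :
    Cr σ τ τ' u w w' := fun N hN s hs s' hs' hc => by
  have := h N hN s hs s' hs' hc
  simp only [map_smul, smul_eq_mul, map_mul, map_ratCast] at this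
  exact mul_left_cancel₀ (Rat.cast_ne_zero.2 h0) this

theorem d_lin (hs : Differentiable ℂ s) {m : Type} [Fintype m] (A : Matrix (Ix g) m ℂ)
    (x : m → ℂ) : fderiv ℂ (fun v => s (A *ᵥ v)) 0 x = fderiv ℂ s 0 (A *ᵥ x) := by
  have h1 : HasFDerivAt s (fderiv ℂ s 0) (A.mulVecLin.toContinuousLinearMap 0) := by
    rw [map_zero]; exact (hs 0).hasFDerivAt
  exact congrArg (fun L => L x) (h1.comp 0 A.mulVecLin.toContinuousLinearMap.hasFDerivAt).fderiv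

theorem d_per (hs : s ∈ WU τ N) (x : Fin g → ℂ) : fderiv ℂ s 0 (per τ *ᵥ x) = 0 := by
  obtain ⟨n, -, h⟩ := hs
  have : (fun v => s (per τ *ᵥ v)) = fun _ => s 0 := funext fun v => by
    simpa [ps, ee_zero] using h.2.2 v 0
  rw [← d_lin h.1, this]
  simp

theorem dec (τ : Mc g) (w : V g) : w = ∑ i, zc τ w i • ev i + per τ *ᵥ (w ∘ .inr) := by
  rw [sum_ev, P010MTh.per_mulVec]
  funext j
  rcases j with j | j <;> simp [zc]

theorem d_zc (hs : s ∈ WU τ N) (w : V g) :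
    fderiv ℂ s 0 w = ∑ i, zc τ w i * fderiv ℂ s 0 (ev i) := by
  conv_lhs => rw [dec τ w, map_add, d_per hs, add_zero, map_sum]
  simp only [map_smul, smul_eq_mul]

theorem zc_elim (τ : Mc g) (c : Fin g → ℂ) : zc τ (Sum.elim c 0) = c := by
  rw [zc, Sum.elim_comp_inl, Sum.elim_comp_inr, mulVec_zero, sub_zero]

theorem La.hm (h : ∃ a, La τ τ f a) : Hm τ τ f := fun x => by
  obtain ⟨a, h⟩ := h
  have h1 : zc τ (per τ *ᵥ x) = 0 := by
    rw [P010MTh.per_mulVec, zc, Sum.elim_comp_inl, Sum.elim_comp_inr, sub_self]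
  have := dec τ (cm f *ᵥ per τ *ᵥ x)
  simp only [h _, h1, mulVec_zero, Pi.zero_apply, zero_smul, Finset.sum_const_zero,
    zero_add] at this
  exact ⟨_, this⟩

/-- the matrix of the conjugation of tangent vectors -/
theorem exists_lam (h : Rel σ τ τ' u) : ∃ Λ : Mc g, IsUnit Λ.det ∧
    ∀ w w', Cr σ τ τ' u w w' → zc τ' w' = Λ *ᵥ fun i => σ (zc τ w i) := by
  choose y hy using fun j => der g σ τ τ' u h (ev j)
  have key : ∀ s ∈ WU τ 2, ∀ s' ∈ WU τ' 2, Cn σ u s s' → ∀ w, σ (fderiv ℂ s 0 w) =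
      ∑ i, ((of fun i j => zc τ' (y j) i) *ᵥ fun i => σ (zc τ w i)) i * fderiv ℂ s' 0 (ev i) :=
    fun s hs s' hs' hc w => by
      rw [d_zc hs, map_sum]
      simp only [map_mul, hy _ 2 two_pos s hs s' hs' hc, d_zc hs' (y _), mulVec, dotProduct,
        of_apply, Finset.sum_mul, Finset.mul_sum]
      rw [Finset.sum_comm]
      exact Finset.sum_congr rfl fun _ _ => Finset.sum_congr rfl fun _ _ => by ring
  refine ⟨of fun i j => zc τ' (y j) i, isUnit_iff_ne_zero.2 fun e => ?_, fun w w' hw => ?_⟩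
  · obtain ⟨c, h0, hc⟩ := exists_mulVec_eq_zero_iff.2 e
    refine h0 (funext fun j => ?_)
    obtain ⟨s, hs, h1⟩ := dual h.h (Pi.single j 1)
    obtain ⟨s', hs', h2⟩ := h.sec 2 two_pos s (WU.of_TS hs)
    have := key s (WU.of_TS hs) s' hs' h2 (Sum.elim (fun i => σ.symm (c i)) 0)
    rw [d_zc (WU.of_TS hs)] at this
    simpa [zc_elim, hc, h1, Pi.single_apply] using this
  · funext j
    obtain ⟨s', hs', h1⟩ := dual h.h' (Pi.single j 1)
    obtain ⟨s, hs, h2⟩ := h.surj two_pos (WU.of_TS hs')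
    have := key s hs s' (WU.of_TS hs') h2 w
    rw [hw 2 two_pos s hs s' (WU.of_TS hs') h2, d_zc (WU.of_TS hs')] at this
    simpa [h1, Pi.single_apply] using this

/-- conjugate endomorphisms -/
structure Cp (τ τ' : Mc g) (u : Mi g Af) (f f' : Mi g ℚ) : Prop where
  h : Hm τ τ f
  h' : Hm τ' τ' f'
  e : u * am f = am f' * u

theorem cp_one : Cp τ τ' u 1 1 := ⟨hm_one _, hm_one _, by rw [am_one, mul_one, one_mul]⟩

theorem Cp.add (h : Cp τ τ' u f f') (h' : Cp τ τ' u k k') : Cp τ τ' u (f + k) (f' + k') :=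
  ⟨h.h.add h'.h, h.h'.add h'.h', by rw [am_add, am_add, mul_add, add_mul, h.e, h'.e]⟩

theorem Cp.sub (h : Cp τ τ' u f f') (h' : Cp τ τ' u k k') : Cp τ τ' u (f - k) (f' - k') :=
  ⟨h.h.sub h'.h, h.h'.sub h'.h', by rw [am_sub, am_sub, mul_sub, sub_mul, h.e, h'.e]⟩

theorem Cp.smul (h : Cp τ τ' u f f') (c : ℚ) : Cp τ τ' u (c • f) (c • f') :=
  ⟨h.h.smul c, h.h'.smul c, by rw [am_smul, am_smul, mul_smul_comm, smul_mul_assoc, h.e]⟩

theorem Cp.mul (h : Cp τ τ' u f f') (h' : Cp τ τ' u k k') : Cp τ τ' u (f * k) (f' * k') :=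
  ⟨h.h.mul h'.h, h.h'.mul h'.h', by rw [am_mul, am_mul, ← mul_assoc, h.e, mul_assoc, h'.e,
    mul_assoc]⟩

theorem Cp.det (h : Cp τ τ' u f f') (hS : Sim σ u) : f'.det = f.det := by
  have h1 := congrArg (fun x => (x * ui σ u).det) h.e
  rw [mul_assoc (am f'), hS.mul_ui, mul_one, det_mul_comm, ← mul_assoc, hS.ui_mul, one_mul] at h1
  refine cA_inj ?_
  rw [RingHom.map_det, RingHom.map_det]
  exact h1.symm

theorem Cp.inv (h : Cp τ τ' u f f') (hS : Sim σ u) (hd : IsUnit f.det) : Cp τ τ' u f⁻¹ f'⁻¹ := by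
  have hd' : IsUnit f'.det := h.det hS ▸ hd
  refine ⟨h.h.inv (nonsing_inv_mul _ hd), h.h'.inv (nonsing_inv_mul _ hd'), ?_⟩
  rw [← one_mul (u * _), ← am_one, ← nonsing_inv_mul _ hd', am_mul, mul_assoc, ← mul_assoc (am f'),
    ← h.e, mul_assoc u, ← am_mul, mul_nonsing_inv _ hd, am_one, mul_one]

/-- the Rosati involution -/
def dag (f : Mi g ℚ) : Mi g ℚ := -J (Fin g) ℚ * (fᵀ * J (Fin g) ℚ)

theorem J_dag (f : Mi g ℚ) : J (Fin g) ℚ * dag f = fᵀ * J (Fin g) ℚ := by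
  rw [dag, ← mul_assoc, mul_neg, J_squared, neg_neg, one_mul]

theorem hm_dag (hτ : τ ∈ Hg g) (h : Hm τ τ f) : Hm τ τ (dag f) := fun x => by
  refine ⟨_, P010M22.lagr hτ fun y => ?_⟩
  obtain ⟨y', hy⟩ := h y
  rw [show (dag f).map (↑) = cm (dag f) from rfl, ps, mulVec_mulVec, ← cm_J, ← cm_mul, J_dag,
    cm_mul, ← mulVec_mulVec, dotProduct_mulVec, show cm fᵀ = (f.map (↑))ᵀ from rfl,
    vecMul_transpose, hy, cm_J, mulVec_mulVec, ← vecMul_transpose, ← dotProduct_mulVec,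
    mulVec_mulVec, ← Matrix.mul_assoc, perT, hτ.1.eq, sub_self, zero_mulVec, dotProduct_zero]

theorem Cp.dag (h : Cp τ τ' u f f') (hR : Rel σ τ τ' u) : Cp τ τ' u (dag f) (dag f') := by
  refine ⟨hm_dag hR.h h.h, hm_dag hR.h' h.h', ?_⟩
  have h1 : uᵀ * J (Fin g) Af * (u * am (Dr.dag f)) =
      uᵀ * J (Fin g) Af * (am (Dr.dag f') * u) := by
    rw [← mul_assoc, hR.sim, smul_mul_assoc, mul_assoc uᵀ, ← mul_assoc (J _ _), ← am_J, ← am_mul,
      ← am_mul, J_dag, J_dag, am_mul, am_mul, am_tr, am_tr, ← mul_assoc, ← mul_assoc,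
      ← transpose_mul, ← h.e, transpose_mul, am_J, mul_assoc, mul_assoc, ← mul_assoc uᵀ, hR.sim,
      mul_smul_comm]
  have h2 : -J (Fin g) Af * (ui σ u)ᵀ * (uᵀ * J (Fin g) Af) = 1 := by
    rw [mul_assoc, ← mul_assoc _ uᵀ, ← transpose_mul, hR.sim.mul_ui, transpose_one, one_mul,
      neg_mul, J_squared, neg_neg]
  rw [← one_mul (u * _), ← h2, mul_assoc, h1, ← mul_assoc, h2, one_mul]

theorem two (hR : Rel σ τ τ' u) (h : Cp τ τ' u f f') (h' : Cp τ τ' u k k')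
    (e : fᵀ * J (Fin g) ℚ * f + kᵀ * J (Fin g) ℚ * k = J (Fin g) ℚ) (hw : Cr σ τ τ' u w w') :
    Cr σ τ τ' u (cm f *ᵥ w) (cm f' *ᵥ w') := fun N hN s hs s' hs' hc => by
  obtain ⟨a, a', a1, a2, a3⟩ := exists_ev hR hN
  have e1 : ∑ i, (![f, k] i)ᵀ * J (Fin g) ℚ * ![f, k] i = (1 : ℚ) • J (Fin g) ℚ := by
    simpa using e
  have hu : ∀ i, u * am (![f, k] i) = am (![f', k'] i) * u := Fin.forall_fin_two.2 ⟨h.e, h'.e⟩
  have key : ∀ (τ : Mc g) (s a : V g → ℂ) (f k : Mi g ℚ) (w : V g), s ∈ WU τ N → Ev τ N a →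
      fderiv ℂ (fun v => ∏ i, ![s, a] i (cm (![f, k] i) *ᵥ v)) 0 w =
        fderiv ℂ s 0 (cm f *ᵥ w) := fun τ s a f k w hs ha => by
    have := d_mul ((WU.hol hs).comp (Hh.diff_cm (cm f))) ((WU.hol ha.1).comp (Hh.diff_cm (cm k)))
      0 w
    simp only [Function.comp_def, d_lin (WU.hol hs), d_lin (WU.hol ha.1), mulVec_zero, ha.2.1,
      ha.2.2, _root_.zero_apply, mul_zero, zero_add, one_mul] at this
    simp only [Fin.prod_univ_two]
    exact this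
  rw [← key τ s a f k w hs a1, ← key τ' s' a' f' k' w' hs' a2]
  exact hw N hN _ (Hh.prod_mem (τ := fun _ => τ) (by simp) e1 (Fin.forall_fin_two.2 ⟨h.h, h'.h⟩)
    (Fin.forall_fin_two.2 ⟨hs, a1.1⟩)) _ (Hh.prod_mem (τ := fun _ => τ') (by simp)
      (Hh.form_tr (fun _ => hR.sim) hR.sim e1 hu) (Fin.forall_fin_two.2 ⟨h.h', h'.h'⟩)
      (Fin.forall_fin_two.2 ⟨hs', a2.1⟩)) (Hh.prod_cn hu (Fin.forall_fin_two.2 ⟨hc, a3⟩))

theorem exists_t (h : Mi g ℚ) : ∃ t : ℚ, t ≠ 0 ∧ IsUnit ((t ^ 2) • (1 : Mi g ℚ) + h).det := by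
  by_contra! H
  refine ((Polynomial.monic_X.mul ((charpoly_monic (-h)).comp (Polynomial.monic_X_pow 2)
    (by simp))).ne_zero) (Polynomial.zero_of_eval_zero _ fun t => ?_)
  rw [Polynomial.eval_mul, Polynomial.eval_X, Polynomial.eval_comp, eval_charpoly, mul_eq_zero,
    or_iff_not_imp_left]
  intro ht
  have := H t ht
  rw [isUnit_iff_ne_zero, not_not] at this
  rw [← this, sub_neg_eq_add, scalar_apply, smul_one_eq_diagonal]
  simp

theorem form (f : Mi g ℚ) (t : ℚ) :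
    ((2 * t) • f)ᵀ * J (Fin g) ℚ * (2 * t) • f +
      (t ^ 2 • 1 - dag f * f)ᵀ * J (Fin g) ℚ * (t ^ 2 • 1 - dag f * f) =
      (t ^ 2 • 1 + dag f * f)ᵀ * J (Fin g) ℚ * (t ^ 2 • 1 + dag f * f) := by
  have h1 : J (Fin g) ℚ * (dag f * f) = fᵀ * J (Fin g) ℚ * f := by rw [← mul_assoc, J_dag]
  have h2 : (dag f * f)ᵀ * J (Fin g) ℚ = fᵀ * J (Fin g) ℚ * f := by
    have := congrArg transpose h1
    simp only [transpose_mul, J_transpose, mul_neg, neg_mul, neg_inj, transpose_transpose] at this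
    rw [transpose_mul, this, mul_assoc]
  generalize dag f * f = h at h1 h2
  simp only [transpose_sub, transpose_add, transpose_smul, transpose_one, sub_mul, mul_sub, add_mul,
    mul_add, smul_mul_assoc, mul_smul_comm, one_mul, mul_one, h1, h2]
  module

theorem cm_smul (c : ℚ) (f : Mi g ℚ) (v : V g) : cm (c • f) *ᵥ v = (c : ℂ) • cm f *ᵥ v := by
  rw [← smul_mulVec]
  congr 1
  ext; simp [cm]

theorem cm_add (f k : Mi g ℚ) (v : V g) : cm (f + k) *ᵥ v = cm f *ᵥ v + cm k *ᵥ v := by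
  rw [← add_mulVec]
  congr 1
  ext; simp [cm]

/-- endomorphisms respect conjugate tangent vectors -/
theorem Cp.cr (h : Cp τ τ' u f f') (hR : Rel σ τ τ' u) (z : V g) :
    ∃ z', Cr σ τ τ' u z z' ∧ Cr σ τ τ' u (cm f *ᵥ z) (cm f' *ᵥ z') := by
  obtain ⟨t, ht, hd⟩ := exists_t (Dr.dag f * f)
  have h1 := (h.dag hR).mul h
  have h2 := (cp_one.smul (t ^ 2)).add h1
  have h3 := (cp_one.smul (t ^ 2)).sub h1
  have h4 := h2.inv hR.sim hd
  have hd' := h2.det hR.sim ▸ hd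
  have e := form f t
  have e1 : t ^ 2 • 1 - Dr.dag f * f + (t ^ 2 • 1 + Dr.dag f * f) = (2 * t ^ 2) • 1 := by module
  have e2 : t ^ 2 • 1 - Dr.dag f' * f' + (t ^ 2 • 1 + Dr.dag f' * f') = (2 * t ^ 2) • 1 := by
    module
  generalize t ^ 2 • 1 + Dr.dag f * f = k at *
  generalize t ^ 2 • 1 + Dr.dag f' * f' = k' at *
  generalize t ^ 2 • 1 - Dr.dag f * f = l at *
  generalize t ^ 2 • 1 - Dr.dag f' * f' = l' at *
  have e3 : ((2 * t) • f * k⁻¹)ᵀ * J (Fin g) ℚ * ((2 * t) • f * k⁻¹) +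
      (l * k⁻¹)ᵀ * J (Fin g) ℚ * (l * k⁻¹) = J (Fin g) ℚ := by
    have := congrArg (fun x => k⁻¹ᵀ * x * k⁻¹) e
    rw [← mul_assoc, ← mul_assoc, ← transpose_mul, mul_assoc _ k, mul_nonsing_inv _ hd,
      transpose_one, one_mul, mul_one] at this
    conv_rhs => rw [← this]
    simp only [transpose_mul, mul_add, add_mul, mul_assoc]
  obtain ⟨w', hw⟩ := der g σ τ τ' u hR (cm k *ᵥ z)
  have h5 := two hR ((h.smul _).mul h4) (h3.mul h4) e3 hw
  have h6 := (two hR (h3.mul h4) ((h.smul _).mul h4) ((add_comm _ _).trans e3) hw).add hw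
  have e4 : w' = cm k' *ᵥ cm k'⁻¹ *ᵥ w' := by
    rw [mulVec_mulVec, ← cm_mul, mul_nonsing_inv _ hd', cm_one, one_mulVec]
  rw [mulVec_mulVec, ← cm_mul, mul_assoc, nonsing_inv_mul _ hd, mul_one, cm_mul,
    ← mulVec_mulVec] at h5 h6
  refine ⟨cm k'⁻¹ *ᵥ w', Cr.cancel (c := 2 * t ^ 2) (by positivity) ?_,
    Cr.cancel (c := 2 * t) (by positivity) (by rwa [← cm_smul, ← cm_smul])⟩
  generalize cm k'⁻¹ *ᵥ w' = z' at *
  rwa [e4, ← cm_add, ← cm_add, e1, e2, cm_smul, cm_smul, cm_one, one_mulVec, one_mulVec] at h6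

end Dr

open Dr

/-- **LIE** -/
theorem lie (g : ℕ) : LIE g := by
  intro σ τ τ' u h
  obtain ⟨Λ, h1, h2⟩ := exists_lam h
  refine ⟨Λ, h1, fun f f' a a' e ha ha' => Matrix.ext_iff_mulVec.2 fun c => ?_⟩
  obtain ⟨z', h3, h4⟩ := Cp.cr ⟨La.hm ⟨a, ha⟩, La.hm ⟨a', ha'⟩, e⟩ h
    (Sum.elim (fun i => σ.symm (c i)) 0)
  have h5 := h2 _ _ h4
  rw [ha', h2 _ _ h3, ha, zc_elim] at h5
  simp only [RingEquiv.apply_symm_apply] at h5
  rw [← mulVec_mulVec, ← mulVec_mulVec, h5]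
  congr 1
  funext i
  simp [mulVec, dotProduct]

end Vale.Agent.P022K.TP
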