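import Vale.Agent.P022K.TP.Cx
import Vale.Agent.P022K.TP.Lie

/-!
# Points with complex multiplication: types, the commutant
-/

open Matrix Complex Polynomial

noncomputable section

namespace Vale.Agent.P022K.TP

open P010MR P010M71 P010MT8

variable {g : ℕ} {τ τ' : Mc g} {L : Type} [Field L] [NumberField L] {l l' : L →+* Mi g ℚ}
  {Φ Φ' : Set (L →+* ℂ)}

theorem root_emb (z : L) {r : ℂ} (h : aeval r (minpoly ℚ z) = 0) : ∃ ψ : L →+* ℂ, ψ z = r := by
  have := NumberField.Embeddings.range_eval_eq_rootSet_minpoly L ℂ z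
  exact this.ge (mem_rootSet.2 ⟨minpoly.ne_zero (Algebra.IsIntegral.isIntegral z), h⟩)

theorem kill (l : L →+* Mi g ℚ) (z : L) :
    aeval (cm (l z)) (∏ ψ : L →+* ℂ, (X - C (ψ z))) = 0 := by
  classical
  have h0 := minpoly.ne_zero (Algebra.IsIntegral.isIntegral (R := ℚ) z)
  have h1 : aeval (cm (l z)) ((minpoly ℚ z).map (algebraMap ℚ ℂ)) = 0 := by
    rw [aeval_map_algebraMap]
    exact (aeval_algHom_apply ((Rat.castHom ℂ).mapMatrix.comp l).toRatAlgHom z _).trans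
      (by rw [minpoly.aeval, map_zero])
  refine aeval_eq_zero_of_dvd_aeval_eq_zero ((IsAlgClosed.splits _).dvd_of_roots_le_roots
    (Polynomial.map_ne_zero h0) ?_) h1
  refine (Multiset.le_iff_subset (nodup_roots (Separable.map (Algebra.IsSeparable.isSeparable ℚ z)))).2
    fun r hr => ?_
  obtain ⟨ψ, rfl⟩ := root_emb z (mem_aroots.1 hr).2
  refine (mem_roots (Finset.prod_ne_zero_iff.2 fun _ _ => X_sub_C_ne_zero _)).2 ?_
  rw [IsRoot, eval_prod]
  exact Finset.prod_eq_zero (Finset.mem_univ ψ) (by simp)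

theorem exists_sep (L : Type) [Field L] [NumberField L] :
    ∃ θ : L, Function.Injective fun ψ : L →+* ℂ => ψ θ := by
  obtain ⟨θ, h⟩ := Field.exists_primitive_element ℚ L
  have h1 : Algebra.adjoin ℚ {θ} = ⊤ := by
    rw [← IntermediateField.adjoin_simple_toSubalgebra_of_isAlgebraic
      (Algebra.IsAlgebraic.isAlgebraic θ), h]
    rfl
  refine ⟨θ, fun ψ ψ' e => RingHom.ext fun x => ?_⟩
  exact DFunLike.congr_fun (AlgHom.ext_of_adjoin_eq_top (φ₁ := ψ.toRatAlgHom)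
    (φ₂ := ψ'.toRatAlgHom) h1 fun y hy => hy ▸ e) x

theorem star_aeval (f : Mi g ℚ) {ι : Type} (s : Finset ι) (c : ι → ℂ) (v : V g) :
    star (aeval (cm f) (∏ i ∈ s, (X - C (c i))) *ᵥ v) =
      aeval (cm f) (∏ i ∈ s, (X - C (star (c i)))) *ᵥ star v := by
  classical
  induction s using Finset.induction_on with
  | empty => simp
  | insert i s hi ih =>
    simp only [Finset.prod_insert hi, map_mul, ← mulVec_mulVec, map_sub, aeval_X, aeval_C,
      sub_mulVec, Algebra.algebraMap_eq_smul_one, smul_mulVec, one_mulVec, star_sub, star_cm,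
      star_smul, ih]

omit [NumberField L] in
theorem Ty.of_pol (h : Ty τ l Φ) {θ : L} (hθ : Function.Injective fun ψ : L →+* ℂ => ψ θ)
    {ι : Type} (s : Finset ι) (c : ι → L →+* ℂ) (hs : ∀ i ∈ s, c i ∉ Φ) {v : V g}
    (e : aeval (cm (l θ)) (∏ i ∈ s, (X - C (c i θ))) *ᵥ v = 0) : zc τ v = 0 := by
  obtain ⟨a, ha⟩ := exists_la (h.hm θ)
  by_contra h0
  obtain ⟨i, hi, Q, h1, h2⟩ := exists_eig a s (fun i => c i θ) h0
    (by rw [← ha.aeval, e]; exact (zl τ).map_zero)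
  obtain ⟨ψ, h3, h4⟩ := h.eig θ a ha _ _ h1 h2
  exact hs i hi (hθ h4 ▸ h3)

open Classical in
/-- the Hodge filtration is the kernel of a polynomial -/
theorem Ty.ker (h : Ty τ l Φ) (hΦ : ∀ ψ ∈ Φ, (starRingEnd ℂ).comp ψ ∉ Φ) {θ : L}
    (hθ : Function.Injective fun ψ : L →+* ℂ => ψ θ) (v : V g) : zc τ v = 0 ↔
      aeval (cm (l θ)) (∏ ψ ∈ Finset.univ.filter (· ∉ Φ), (X - C (ψ θ))) *ᵥ v = 0 := by
  refine ⟨fun hv => ?_, h.of_pol hθ _ id fun _ hi => (Finset.mem_filter.1 hi).2⟩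
  obtain ⟨a, ha⟩ := exists_la (h.hm θ)
  refine eq_zero_of_zc h.mem (by rw [ha.aeval, hv, mulVec_zero]) ?_
  refine h.of_pol hθ (Finset.univ.filter (· ∈ Φ)) (fun ψ => (starRingEnd ℂ).comp ψ)
    (fun ψ hψ => hΦ ψ (Finset.mem_filter.1 hψ).2) ?_
  refine (star_aeval _ _ (fun ψ : L →+* ℂ => ψ θ) _).symm.trans ?_
  rw [mulVec_mulVec, ← map_mul, Finset.prod_filter_mul_prod_filter_not, kill, zero_mulVec,
    star_zero]

/-- a matrix that respects the multiplications is a homomorphism -/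
theorem Ty.hom (h : Ty τ l Φ) (h' : Ty τ' l' Φ) (hΦ : ∀ ψ ∈ Φ, (starRingEnd ℂ).comp ψ ∉ Φ)
    {γ : Mi g ℚ} (e : ∀ z, γ * l' z = l z * γ) : Hm τ' τ γ := by
  obtain ⟨θ, hθ⟩ := exists_sep L
  refine hm_iff_zc.2 fun v hv => (h.ker hΦ hθ _).2 ?_
  rw [mulVec_mulVec, ← aeval_comm (A := cm (l' θ)) (by rw [← cm_mul, e, cm_mul]), ← mulVec_mulVec,
    (h'.ker hΦ hθ _).1 hv, mulVec_zero]

theorem Ty.uniq (h : Ty τ l Φ) (h' : Ty τ' l Φ) (hΦ : ∀ ψ ∈ Φ, (starRingEnd ℂ).comp ψ ∉ Φ) :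
    τ' = τ := eq_of_hm (h.hom h' hΦ fun z => by rw [one_mul, mul_one])

omit [NumberField L]

theorem Ty.mono (h : Ty τ l Φ) (e : Φ ⊆ Φ') : Ty τ l Φ' :=
  ⟨h.mem, h.hm, fun z a ha c y hy e' => (h.eig z a ha c y hy e').imp fun _ H => ⟨e H.1, H.2⟩⟩

theorem Ty.comp (h : Ty τ l Φ) {L' : Type} [Field L'] (α : L' →+* L) :
    Ty τ (l.comp α) ((·.comp α) '' Φ) :=
  ⟨h.mem, fun z => h.hm _, fun z a ha c y hy e => by
    obtain ⟨ψ, h1, h2⟩ := h.eig (α z) a ha c y hy e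
    exact ⟨_, ⟨ψ, h1, rfl⟩, h2⟩⟩

/-- the type of the conjugate -/
theorem Ty.conj (h : Ty τ l Φ) {σ : ℂ ≃+* ℂ} {u : Mi g Af} (hR : Rel σ τ τ' u)
    (e : ∀ z, u * am (l z) = am (l' z) * u) (h' : ∀ z, Hm τ' τ' (l' z)) :
    Ty τ' l' (σ.toRingHom.comp '' Φ) := by
  obtain ⟨Λ, hΛ, H⟩ := lie g σ τ τ' u hR
  refine ⟨hR.h', h', fun z a' ha' c y hy ey => ?_⟩
  obtain ⟨a, ha⟩ := exists_la (h.hm z)
  have h1 := H _ _ a a' (e z) ha ha'
  have h2 : Λ *ᵥ (Λ⁻¹ *ᵥ y) = y := by rw [mulVec_mulVec, mul_nonsing_inv _ hΛ, one_mulVec]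
  have h3 : a.map σ *ᵥ (Λ⁻¹ *ᵥ y) = c • (Λ⁻¹ *ᵥ y) := by
    rw [← mulVec_smul, ← ey, ← h2, mulVec_mulVec _ a', ← h1, h2, ← mulVec_mulVec,
      mulVec_mulVec _ Λ⁻¹, nonsing_inv_mul _ hΛ, one_mulVec]
  obtain ⟨ψ, h4, h5⟩ := h.eig z a ha (σ.symm c) (fun i => σ.symm ((Λ⁻¹ *ᵥ y) i))
    (fun h0 => hy (by
      rw [← h2, show Λ⁻¹ *ᵥ y = 0 from funext fun i => by simpa using congrFun h0 i, mulVec_zero]))
    (funext fun i => σ.injective (by
      simpa [mulVec, dotProduct] using congrFun h3 i))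
  exact ⟨_, ⟨ψ, h4, rfl⟩, (σ.symm_apply_eq.1 h5 :)⟩

/-! ### The commutant -/

/-- the matrices that commute with `L` -/
def Co (l : L →+* Mi g ℚ) (f : Mi g ℚ) : Prop := ∀ z, f * l z = l z * f

theorem Co.mul {f f' : Mi g ℚ} (h : Co l f) (h' : Co l f') : Co l (f * f') := fun z => by
  rw [mul_assoc, h', ← mul_assoc, h, mul_assoc]

theorem co_l (z : L) : Co l (l z) := fun y => by rw [← map_mul, ← map_mul, mul_comm]

/-- an `L`-linear form -/
def Lf (l : L →+* Mi g ℚ) (lam : (Ix g → ℚ) →+ L) : Prop := ∀ z v, lam (l z *ᵥ v) = z * lam v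

theorem exists_lf (l : L →+* Mi g ℚ) {x : Ix g → ℚ} (hx : x ≠ 0) : ∃ lam, Lf l lam ∧ lam x = 1 := by
  let _ : Module L (Ix g → ℚ) :=
    Module.compHom _ ((Matrix.toLinAlgEquiv' : Mi g ℚ ≃ₐ[ℚ] _).toRingEquiv.toRingHom.comp l)
  obtain ⟨f, hf⟩ := Module.Projective.exists_dual_eq_one L hx
  exact ⟨f.toAddMonoidHom, fun z v => f.map_smul z v, hf⟩

/-- the operator `v ↦ lam v • x` -/
def rk (l : L →+* Mi g ℚ) (lam : (Ix g → ℚ) →+ L) : (Ix g → ℚ) →ₗ[ℚ] Mi g ℚ where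
  toFun x := .of fun i k => (l (lam (Pi.single k 1)) *ᵥ x) i
  map_add' x y := by ext i k; simp [mulVec_add]
  map_smul' c x := by ext i k; simp [mulVec_smul]

variable [CharZero L] {lam : (Ix g → ℚ) →+ L}

theorem rk_mulVec (x v : Ix g → ℚ) : rk l lam x *ᵥ v = l (lam v) *ᵥ x := by
  have e : lam v = ∑ k, v k • lam (Pi.single k 1) := by
    conv_lhs => rw [← Finset.univ_sum_single v, map_sum]
    refine Finset.sum_congr rfl fun k _ => ?_
    rw [← map_rat_smul, ← Pi.single_smul, smul_eq_mul, mul_one]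
  rw [e, map_sum, sum_mulVec]
  funext i
  rw [Finset.sum_apply]
  refine Finset.sum_congr (s₁ := (Finset.univ : Finset (Ix g))) (M := ℚ) rfl fun k _ => ?_
  rw [map_rat_smul, smul_mulVec, Pi.smul_apply, smul_eq_mul, mul_comm]
  rfl

theorem ext_mv {R : Type} [CommRing R] {A B : Mi g R} (h : ∀ v, A *ᵥ v = B *ᵥ v) : A = B :=
  toLin'.injective (LinearMap.ext h)

theorem co_rk (h : Lf l lam) (x : Ix g → ℚ) : Co l (rk l lam x) := fun z => ext_mv fun v => by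
  rw [← mulVec_mulVec, ← mulVec_mulVec, rk_mulVec, rk_mulVec, h, map_mul, mulVec_mulVec]

theorem Co.rk {f : Mi g ℚ} (h : Co l f) (x : Ix g → ℚ) : f * rk l lam x = rk l lam (f *ᵥ x) :=
  ext_mv fun v => by
    rw [← mulVec_mulVec, rk_mulVec, rk_mulVec, mulVec_mulVec, mulVec_mulVec, h]

/-- the double commutant -/
theorem cent_l [Nonempty (Ix g)] (l : L →+* Mi g ℚ) : ∃ z : Ix g → L, ∀ (R : Type) [CommRing R]
    (φ : ℚ →+* R) (t : Mi g R), (∀ f, Co l f → t * f.map φ = f.map φ * t) →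
      ∃ a : Ix g → R, t = ∑ k, a k • (l (z k)).map φ := by
  obtain ⟨lam, h, h1⟩ := exists_lf l (x := 1) one_ne_zero
  refine ⟨fun k => lam (Pi.single k 1), fun R _ φ t ht => ⟨t *ᵥ 1, Matrix.ext fun i j => ?_⟩⟩
  have h2 : (rk l lam (Pi.single j 1)).map φ *ᵥ 1 = Pi.single j 1 := by
    have := rk_mulVec (l := l) (lam := lam) (Pi.single j 1) 1
    rw [h1, map_one, one_mulVec] at this
    funext a
    have := congrArg φ (congrFun this a)
    simpa [mulVec, dotProduct, Pi.single_apply, apply_ite φ] using this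
  have h3 := congrFun (congrArg (· *ᵥ (1 : Ix g → R)) (ht _ (co_rk h (Pi.single j 1)))) i
  simp only [← mulVec_mulVec, h2] at h3
  rw [mulVec_single_one] at h3
  refine h3.trans ?_
  rw [Matrix.sum_apply]
  refine Finset.sum_congr (s₁ := (Finset.univ : Finset (Ix g))) (M := R) rfl fun k _ => ?_
  simp [rk, mul_comm]

theorem cent_q [Nonempty (Ix g)] {t : Mi g ℚ} (h : ∀ f, Co l f → t * f = f * t) :
    ∃ z, t = l z := by
  obtain ⟨z, H⟩ := cent_l l
  obtain ⟨a, ha⟩ := H ℚ (RingHom.id ℚ) t h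
  exact ⟨∑ k, a k • z k, by rw [ha, map_sum]; simp only [map_rat_smul]; rfl⟩

/-- the theorem of Skolem and Noether for the commutant -/
theorem exists_sn [Nonempty (Ix g)] (l : L →+* Mi g ℚ) {U U' : Mi g Af} (hU : U * U' = 1)
    (h : ∀ f, Co l f → ∃ f', U * am f = am f' * U) :
    ∃ β β' : Mi g ℚ, β' * β = 1 ∧ ∀ f f', Co l f → U * am f = am f' * U → β * f = f' * β := by
  obtain ⟨lam, hl, h1⟩ := exists_lf l (x := 1) one_ne_zero
  have uq : ∀ {a b : Mi g ℚ}, am a * U = am b * U → a = b := fun {a b} e => am_inj (by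
    rw [← mul_one (am a), ← hU, ← mul_assoc, e, mul_assoc, hU, mul_one])
  choose d hd using fun x => h _ (co_rk hl x)
  have h2 : d 1 ≠ 0 := fun e => by
    have h3 := hd 1
    rw [e, show am (0 : Mi g ℚ) = 0 from Matrix.map_zero _ (map_zero _), zero_mul] at h3
    have h4 : am (rk l lam 1) = am 0 := by
      rw [← one_mul (am _), ← mul_eq_one_comm.1 hU, mul_assoc, h3, mul_zero]
      exact (Matrix.map_zero _ (map_zero _)).symm
    have h5 := rk_mulVec (l := l) (lam := lam) 1 1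
    rw [am_inj h4, h1, map_one, one_mulVec, zero_mulVec] at h5
    exact zero_ne_one h5
  obtain ⟨v, hv⟩ : ∃ v, d 1 *ᵥ v ≠ 0 := by
    by_contra! H
    exact h2 (ext_mv fun v => by rw [H, zero_mulVec])
  let b : (Ix g → ℚ) →ₗ[ℚ] Ix g → ℚ :=
    { toFun := fun x => d x *ᵥ v
      map_add' := fun x y => by
        rw [← add_mulVec]
        refine congrArg (· *ᵥ v) (uq ?_)
        rw [← hd, map_add, am_add, am_add, mul_add, add_mul, hd, hd]
      map_smul' := fun c x => by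
        rw [RingHom.id_apply, ← smul_mulVec]
        refine congrArg (· *ᵥ v) (uq ?_)
        rw [← hd, map_smul, am_smul, am_smul, mul_smul_comm, smul_mul_assoc, hd] }
  have hb : ∀ f f', Co l f → U * am f = am f' * U → ∀ x, b (f *ᵥ x) = f' *ᵥ b x :=
    fun f f' hf e x => by
      change d _ *ᵥ v = f' *ᵥ (d x *ᵥ v)
      rw [mulVec_mulVec]
      refine congrArg (· *ᵥ v) (uq ?_)
      rw [← hd, ← hf.rk, am_mul, am_mul, ← mul_assoc, e, mul_assoc, hd, mul_assoc]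
  have hi : IsUnit (LinearMap.toMatrix' b) := by
    rw [← Matrix.mulVec_injective_iff_isUnit]
    refine (injective_iff_map_eq_zero (Matrix.mulVecLin _)).2 fun x hx => ?_
    by_contra h0
    obtain ⟨lam', hl', h3⟩ := exists_lf l h0
    obtain ⟨f', e⟩ := h _ (co_rk hl' 1)
    have h4 := hb _ _ (co_rk hl' 1) e x
    rw [rk_mulVec, h3, map_one, one_mulVec,
      show b x = 0 from (LinearMap.toMatrix'_mulVec b x).symm.trans hx, mulVec_zero] at h4
    exact hv h4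
  refine ⟨_, _, hi.val_inv_mul, fun f f' hf e => ext_mv fun x => ?_⟩
  rw [← mulVec_mulVec, ← mulVec_mulVec, LinearMap.toMatrix'_mulVec, LinearMap.toMatrix'_mulVec,
    hb f f' hf e]

end Vale.Agent.P022K.TP
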