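import Vale.Agent.P022K.TP.Opn

/-!
# A point fixed up to adelic matrices is algebraic (helper99)
-/

open Matrix

namespace Vale.Agent.P022K.TP

open P010MR P010M71 P010MT8

variable {g : ℕ} {τ : Mc g}

/-- a complex number with countably many conjugates over the algebraic numbers is algebraic -/
theorem alg_of_cnt {z : ℂ} {S : Set ℂ} (hS : S.Countable)
    (h : ∀ σ : ℂ ≃+* ℂ, (∀ x, IsAlgebraic ℚ x → σ x = x) → σ z ∈ S) : IsAlgebraic ℚ z := by
  by_contra hz
  obtain ⟨w, hw⟩ : ∃ w, w ∉ S ∪ {x | IsAlgebraic ℚ x} := by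
    by_contra hc
    push Not at hc
    exact not_countable_complex ((hS.union (Algebraic.countable ℚ ℂ)).mono fun x _ => hc x)
  rw [Set.mem_union, not_or] at hw
  let K := algebraicClosure ℚ ℂ
  have : Algebra.IsAlgebraic ℚ K := algebraicClosure.isAlgebraic ℚ ℂ
  have : Countable K := ((Algebraic.countable ℚ ℂ).mono (s₁ := (K : Set ℂ))
    fun x hx => mem_algebraicClosure_iff.1 hx).to_subtype
  have ht : ∀ {y : ℂ}, ¬ IsAlgebraic ℚ y → Function.Injective (Polynomial.aeval (R := K) y) :=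
    fun hy => transcendental_iff_injective.1 fun e => hy (e.restrictScalars ℚ)
  have : Countable (FractionRing (Polynomial K)) := Cardinal.mk_le_aleph0_iff.1
    ((IsLocalization.cardinalMk_le (nonZeroDivisors (Polynomial K))).trans
      (Polynomial.cardinalMk_le_max.trans (max_le Cardinal.mk_le_aleph0 le_rfl)))
  obtain ⟨σ, hσ⟩ := P010M6.exists_equiv
    (IsFractionRing.lift (K := FractionRing (Polynomial K)) (ht hz))
    (IsFractionRing.lift (K := FractionRing (Polynomial K)) (ht hw.2))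
    (by rw [Cardinal.mk_complex]; exact Cardinal.aleph0_lt_continuum) rfl
  have h1 := hσ (algebraMap _ _ (Polynomial.X : Polynomial K))
  have h2 := h σ fun x hx => by
    simpa using hσ (algebraMap _ _ (Polynomial.C (⟨x, mem_algebraicClosure_iff.2 hx⟩ : K)))
  simp only [IsFractionRing.lift_algebraMap] at h1
  exact hw.1 ((show σ z = w by simpa using h1) ▸ h2)

/-- algebraic Pluecker ratios of level one make the point algebraic -/
theorem algp_of_ratio (hτ : τ ∈ Hg g)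
    (h1 : ∀ x x' : Ia g 1 → Ix g → ℚ, IsAlgebraic ℚ (pk 1 x' τ / pk 1 x τ)) : Algp τ := by
  intro σ hσ
  obtain ⟨x, hx⟩ := exists_pk hτ one_pos
  obtain ⟨s, hs, e⟩ := P010M31.exists_vals hτ hx fun _ => 1
  refine one g σ τ τ 1 hτ hτ (by simp [Sim, chi_eq_one hσ]) 1 one_pos s (WU.of_TS hs) s
    (WU.of_TS hs) (fun h => by simpa [h] using e fun _ => 0) fun v => ?_
  obtain ⟨n, hn, h2⟩ := cn_refl (WU.of_TS hs) v
  refine ⟨n, hn, fun w hw => (hσ _ ?_).trans (h2 w hw)⟩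
  rw [P010M31.interp one_pos hτ hs hx v]
  exact mem_algebraicClosure_iff.1 (sum_mem fun b _ => by
    rw [e, one_mul]; exact mem_algebraicClosure_iff.2 (h1 _ _))

/-- ALG for a countable orbit -/
theorem algp_of_cnt (hτ : τ ∈ Hg g) {T : Set (Mc g)} (hT : T.Countable)
    (H : ∀ σ : ℂ ≃+* ℂ, (∀ x, IsAlgebraic ℚ x → σ x = x) → ∃ t ∈ T, ∃ u, Rel σ τ t u) :
    Algp τ := by
  refine algp_of_ratio hτ fun x x' => ?_
  have := hT.to_subtype
  have : Countable (Mi g ℚ) := inferInstanceAs (Countable (Ix g → Ix g → ℚ))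
  obtain ⟨M, hM, hx⟩ := exists_den_fam (Sum.elim x x')
  refine alg_of_cnt (Set.countable_range
    fun p : T × Sp g ℚ × (Ia g 1 → Ix g → ℚ) × (Ia g 1 → Ix g → ℚ) =>
      pk 1 p.2.2.2 (act (qr p.2.1.1) p.1) / pk 1 p.2.2.1 (act (qr p.2.1.1) p.1)) fun σ hσ => ?_
  obtain ⟨t, ht, u, h⟩ := H σ hσ
  obtain ⟨δ, hu⟩ := spa g σ u h.sim
  choose y hy using fun b => exists_vn ((am δ.1 * u) *ᵥ av (Sum.elim x x' b)) hM
  exact ⟨⟨⟨t, ht⟩, δ, _, _⟩, ((h.left δ).ratio (x := x) (y := x') hu one_pos hM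
    (fun b => hx (.inl b)) (fun b => hx (.inr b)) (fun b => hy (.inl b)) fun b => hy (.inr b)).symm⟩

/-- ALG without integrality -/
theorem alg' (hτ : τ ∈ Hg g)
    (H : ∀ σ : ℂ ≃+* ℂ, (∀ x, IsAlgebraic ℚ x → σ x = x) → ∃ u, Rel σ τ τ u) : Algp τ :=
  algp_of_cnt hτ (Set.countable_singleton τ) fun σ hσ => ⟨τ, rfl, H σ hσ⟩

end Vale.Agent.P022K.TP
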