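import Vale.Agent.P022K.TP.Unq
import Mathlib.LinearAlgebra.Matrix.Charpoly.Coeff

/-!
# Product points; row END: homomorphisms are conjugated
-/

set_option linter.unusedSectionVars false

open Matrix Complex

noncomputable section

namespace Vale.Agent.P022K.TP

open P010MR P010M71 P010MT8

variable {g G : ℕ} {κ : Type} [Fintype κ] [DecidableEq κ] (e : κ × Fin g ≃ Fin G)

namespace En

/-- the projections -/
def qa (R : Type) [CommRing R] (a : κ) : Matrix (Fin g) (Fin G) R :=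
  Matrix.of fun i k => if e (a, i) = k then 1 else 0

/-- the projections -/
def pa (R : Type) [CommRing R] (a : κ) : Matrix (Ix g) (Ix G) R :=
  fromBlocks (qa e R a) 0 0 (qa e R a)

variable (R : Type) [CommRing R]

theorem qa_mul (a b : κ) : qa e R a * (qa e R b)ᵀ = if a = b then 1 else 0 := by
  ext i j
  by_cases h : a = b <;> simp [qa, mul_apply, h, one_apply, eq_comm]

theorem qa_sum : ∑ a, (qa e R a)ᵀ * qa e R a = 1 := by
  ext k l
  obtain ⟨⟨b, j⟩, rfl⟩ := e.surjective k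
  obtain ⟨⟨c, i⟩, rfl⟩ := e.surjective l
  by_cases h : b = c <;> simp [qa, mul_apply, Matrix.sum_apply, one_apply, ite_and, h, eq_comm]

theorem pa_mul (a b : κ) : pa e R a * (pa e R b)ᵀ = if a = b then 1 else 0 := by
  rw [pa, pa, fromBlocks_transpose, fromBlocks_multiply, qa_mul]
  by_cases h : a = b <;> simp [h]

theorem pa_sum : ∑ a, (pa e R a)ᵀ * pa e R a = 1 := by
  rw [← fromBlocks_one, ← qa_sum e R]
  simp only [pa, fromBlocks_transpose, fromBlocks_multiply]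
  ext (i | i) (j | j) <;> simp [Matrix.sum_apply]

theorem pa_J (a : κ) : pa e R a * J (Fin G) R = J (Fin g) R * pa e R a := by
  simp [pa, J, fromBlocks_multiply]

theorem J_pa (a : κ) : J (Fin G) R * (pa e R a)ᵀ = (pa e R a)ᵀ * J (Fin g) R := by
  simp [pa, J, fromBlocks_multiply, fromBlocks_transpose]

theorem pa_form : ∑ a, (pa e R a)ᵀ * J (Fin g) R * pa e R a = J (Fin G) R := by
  simp only [← J_pa, Matrix.mul_assoc, ← Matrix.mul_sum, pa_sum, Matrix.mul_one]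

theorem am_pa (a : κ) : am (pa e ℚ a) = pa e Af a := by
  ext (i | i) (j | j) <;> simp [am, pa, qa, apply_ite cA]

theorem cm_pa (a : κ) : cm (pa e ℚ a) = pa e ℂ a := by
  ext (i | i) (j | j) <;> simp [cm, pa, qa, apply_ite ((↑) : ℚ → ℂ)]

variable {R}

/-- block diagonal matrices -/
def bq (τ : κ → Matrix (Fin g) (Fin g) R) : Matrix (Fin G) (Fin G) R :=
  ∑ a, (qa e R a)ᵀ * τ a * qa e R a

/-- block diagonal matrices -/
def bp (u : κ → Mi g R) : Mi G R := ∑ a, (pa e R a)ᵀ * u a * pa e R a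

theorem qa_bq (τ : κ → Matrix (Fin g) (Fin g) R) (a : κ) :
    qa e R a * bq e τ = τ a * qa e R a := by
  rw [bq, Matrix.mul_sum, Finset.sum_eq_single a] <;>
    simp +contextual [← Matrix.mul_assoc, qa_mul, @eq_comm _ a]

theorem bq_qa (τ : κ → Matrix (Fin g) (Fin g) R) (a : κ) :
    bq e τ * (qa e R a)ᵀ = (qa e R a)ᵀ * τ a := by
  rw [bq, Matrix.sum_mul, Finset.sum_eq_single a] <;> simp +contextual [Matrix.mul_assoc, qa_mul]

theorem pa_bp (u : κ → Mi g R) (a : κ) : pa e R a * bp e u = u a * pa e R a := by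
  rw [bp, Matrix.mul_sum, Finset.sum_eq_single a] <;>
    simp +contextual [← Matrix.mul_assoc, pa_mul, @eq_comm _ a]

theorem bp_pa (u : κ → Mi g R) (a : κ) : bp e u * (pa e R a)ᵀ = (pa e R a)ᵀ * u a := by
  rw [bp, Matrix.sum_mul, Finset.sum_eq_single a] <;> simp +contextual [Matrix.mul_assoc, pa_mul]

theorem bq_apply (τ : κ → Matrix (Fin g) (Fin g) R) (a b : κ) (i j : Fin g) :
    bq e τ (e (a, i)) (e (b, j)) = if a = b then τ a i j else 0 := by
  by_cases h : a = b <;> simp [bq, qa, mul_apply, Matrix.sum_apply, ite_and, h, eq_comm]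

theorem im_bq (τ : κ → Mc g) : im (bq e τ) = bq e fun a => im (τ a) := by
  ext k l
  obtain ⟨⟨a, i⟩, rfl⟩ := e.surjective k
  obtain ⟨⟨b, j⟩, rfl⟩ := e.surjective l
  simp only [P010MR.im, map_apply, bq_apply]
  split_ifs <;> simp

theorem bq_symm {τ : κ → Matrix (Fin g) (Fin g) R} (h : ∀ a, (τ a)ᵀ = τ a) :
    (bq e τ)ᵀ = bq e τ := by
  simp [bq, transpose_sum, transpose_mul, h, Matrix.mul_assoc]

/-- the product point -/
theorem bq_mem {τ : κ → Mc g} (h : ∀ a, τ a ∈ Hg g) : bq e τ ∈ Hg G := by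
  refine ⟨bq_symm e fun a => (h a).1, ?_⟩
  rw [im_bq]
  refine posDef_iff_dotProduct_mulVec.2 ⟨?_, fun x hx => ?_⟩
  · rw [IsHermitian, conjTranspose_eq_transpose_of_trivial]
    exact bq_symm e fun a => im_symm (h a)
  have h1 : ∃ a, qa e ℝ a *ᵥ x ≠ 0 := by
    by_contra! H
    refine hx ?_
    rw [← one_mulVec x, ← qa_sum e ℝ, sum_mulVec]
    exact Finset.sum_eq_zero fun a _ => by rw [← mulVec_mulVec, H, mulVec_zero]
  obtain ⟨a, ha⟩ := h1
  have h2 : ∀ b, star x ⬝ᵥ ((qa e ℝ b)ᵀ * im (τ b) * qa e ℝ b) *ᵥ x =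
      star (qa e ℝ b *ᵥ x) ⬝ᵥ im (τ b) *ᵥ (qa e ℝ b *ᵥ x) := fun b => by
    rw [star_trivial, star_trivial, ← mulVec_mulVec, ← mulVec_mulVec, dotProduct_mulVec,
      vecMul_transpose]
  rw [bq, sum_mulVec, dotProduct_sum]
  simp only [h2]
  exact Finset.sum_pos' (fun b _ => (h b).2.posSemidef.dotProduct_mulVec_nonneg _)
    ⟨a, Finset.mem_univ a, (h a).2.dotProduct_mulVec_pos ha⟩

theorem hm_pa (τ : κ → Mc g) (a : κ) : Hm (bq e τ) (τ a) (pa e ℚ a) :=
  hm_iff.2 ⟨qa e ℂ a, by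
    rw [cm_pa, pa, per, per, fromBlocks_mul_fromRows, fromRows_mul, qa_bq]; simp⟩

theorem hm_pa' (τ : κ → Mc g) (a : κ) : Hm (τ a) (bq e τ) (pa e ℚ a)ᵀ :=
  hm_iff.2 ⟨(qa e ℂ a)ᵀ, by
    rw [show cm (pa e ℚ a)ᵀ = (cm (pa e ℚ a))ᵀ from rfl, cm_pa, pa, per, per,
      fromBlocks_transpose, fromBlocks_mul_fromRows, fromRows_mul, bq_qa]; simp⟩

theorem sim_bp {σ : ℂ ≃+* ℂ} {u : κ → Mi g Af} (h : ∀ a, Sim σ (u a)) : Sim σ (bp e u) := by
  have h1 : ∀ a, (u a)ᵀ * J (Fin g) Af * u a = chi ℂ σ • J (Fin g) Af := h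
  rw [Sim, ← pa_form e Af, Finset.smul_sum, Matrix.mul_sum, Matrix.sum_mul]
  refine Finset.sum_congr rfl fun a _ => ?_
  calc _ = (pa e Af a * bp e u)ᵀ * J (Fin g) Af * (pa e Af a * bp e u) := by
        simp only [transpose_mul, Matrix.mul_assoc]
    _ = (pa e Af a)ᵀ * ((u a)ᵀ * J (Fin g) Af * u a) * pa e Af a := by
        simp only [pa_bp, transpose_mul, Matrix.mul_assoc]
    _ = _ := by rw [h1, Matrix.mul_smul, Matrix.smul_mul]

/-- products of related points are related -/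
theorem rel_bp {σ : ℂ ≃+* ℂ} {τ τ' : κ → Mc g} {u : κ → Mi g Af}
    (h : ∀ a, Rel σ (τ a) (τ' a) (u a)) : Rel σ (bq e τ) (bq e τ') (bp e u) :=
  hom g G σ κ τ τ' u _ _ _ (pa e ℚ) (pa e ℚ) 1 h (bq_mem e fun a => (h a).h)
    (bq_mem e fun a => (h a).h') (sim_bp e fun a => (h a).sim) (hm_pa e τ) (hm_pa e τ') one_pos
    (by rw [pa_form, one_smul]) fun a => by rw [am_pa, pa_bp]

/-- the adjoint -/
def ad {g1 : ℕ} (f : Matrix (Ix g) (Ix g1) R) : Matrix (Ix g1) (Ix g) R :=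
  -(J (Fin g1) R * fᵀ * J (Fin g) R)

theorem J_ad {g1 : ℕ} (f : Matrix (Ix g) (Ix g1) R) :
    J (Fin g1) R * ad f = fᵀ * J (Fin g) R := by
  rw [ad, Matrix.mul_neg, ← Matrix.mul_assoc, ← Matrix.mul_assoc, J_squared]
  simp

theorem ad_J {g1 : ℕ} (f : Matrix (Ix g) (Ix g1) R) :
    (ad f)ᵀ * J (Fin g1) R = J (Fin g) R * f := by
  have := congrArg transpose (J_ad f)
  rw [transpose_mul, transpose_mul, J_transpose, J_transpose, transpose_transpose, Matrix.mul_neg,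
    Matrix.neg_mul] at this
  exact neg_injective this

/-- the Hodge filtration is Lagrangian -/
theorem hm_of_form {g1 : ℕ} {t : Mc g1} {τ : Mc g} (hτ : τ ∈ Hg g) {f : Matrix (Ix g) (Ix g1) ℚ}
    (h : (per τ)ᵀ * J (Fin g) ℂ * (cm f * per t) = 0) : Hm t τ f := by
  refine hm_iff.2 ⟨(cm f * per t).toRows₂, ?_⟩
  generalize cm f * per t = w at h
  rw [← fromRows_toRows w, per, transpose_fromRows, J, fromCols_mul_fromBlocks,
    fromCols_mul_fromRows, hτ.1] at h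
  conv_lhs => rw [← fromRows_toRows w]
  rw [per, fromRows_mul, Matrix.one_mul]
  congr 1
  simpa [add_neg_eq_zero] using h

theorem hm_ad {g1 : ℕ} {t : Mc g1} {τ : Mc g} (ht : t ∈ Hg g1) (hτ : τ ∈ Hg g)
    {f : Matrix (Ix g) (Ix g1) ℚ} (h : Hm t τ f) : Hm τ t (ad f) := by
  obtain ⟨a, ha⟩ := hm_iff.1 h
  refine hm_of_form ht ?_
  have h1 : J (Fin g1) ℂ * cm (ad f) = (cm f)ᵀ * J (Fin g) ℂ := by
    rw [← cm_J, ← cm_J, ← cm_mul, J_ad, cm_mul]; rfl
  rw [Matrix.mul_assoc, ← Matrix.mul_assoc (J _ _), h1, ← Matrix.mul_assoc, ← Matrix.mul_assoc,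
    ← transpose_mul, ha, transpose_mul, Matrix.mul_assoc, Matrix.mul_assoc,
    ← Matrix.mul_assoc (per τ)ᵀ, perT, hτ.1, sub_self, Matrix.mul_zero]

theorem exists_reg (X : Mi g ℚ) : ∃ y : ℚ, y ≠ 0 ∧ IsUnit (y • (1 : Mi g ℚ) - X).det := by
  by_contra! H
  refine mul_ne_zero Polynomial.X_ne_zero X.charpoly_monic.ne_zero
    (Polynomial.zero_of_eval_zero _ fun y => ?_)
  rw [Polynomial.eval_mul, Polynomial.eval_X, eval_charpoly, scalar_apply, ← smul_one_eq_diagonal]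
  by_cases h : y = 0
  · rw [h, zero_mul]
  · rw [not_not.1 (mt isUnit_iff_ne_zero.2 (H y h)), mul_zero]

/-- skew endomorphisms are conjugated -/
theorem skew (hU : UNQ g) {σ : ℂ ≃+* ℂ} {τ τ' : Mc g} {u : Mi g Af} (h : Rel σ τ τ' u)
    {X : Mi g ℚ} (hX : Xᵀ * J (Fin g) ℚ = -(J (Fin g) ℚ * X)) (hm : Hm τ τ X) :
    ∃ X', u * am X = am X' * u ∧ Hm τ' τ' X' := by
  obtain ⟨y, hy, hd⟩ := exists_reg X
  set A := y • (1 : Mi g ℚ) - X with hA
  have h1 := mul_nonsing_inv A hd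
  have h2 := nonsing_inv_mul A hd
  have h3 : (y • (1 : Mi g ℚ) + X)ᵀ * J (Fin g) ℚ * (y • 1 + X) = Aᵀ * J (Fin g) ℚ * A := by
    simp only [hA, transpose_add, transpose_sub, transpose_smul, transpose_one, add_mul, sub_mul,
      hX, smul_mul_assoc, one_mul, mul_add, mul_sub, mul_smul_comm, mul_one, neg_mul, smul_neg,
      smul_add, smul_sub]
    abel
  let C : Sp g ℚ := ⟨(y • 1 + X) * A⁻¹, SymplecticGroup.mem_iff'.2 (by
    rw [transpose_mul, mul_assoc, mul_assoc, ← mul_assoc (J _ _), ← mul_assoc (_ + _)ᵀ,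
      ← mul_assoc (_ + _)ᵀ, h3, mul_assoc, h1, mul_one, ← mul_assoc, ← transpose_mul, h1,
      transpose_one, one_mul])⟩
  have h4 : Hm τ τ C.1 :=
    (((hm_one τ).smul y).add hm).mul ((((hm_one τ).smul y).sub hm).inv h2)
  obtain ⟨δ, h5, h6⟩ := hU σ τ τ' τ' u _ h (h.right h.h C (act_of_hm C h.h h4))
  have h7 : (C.1 + 1) * A = (2 * y) • 1 := by
    rw [add_mul, one_mul, mul_assoc, h2, mul_one, hA, add_add_sub_cancel, mul_smul, two_smul]
  have h8 : am (δ.1 + 1) * (u * am A) = cA (2 * y) • u := by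
    rw [← mul_assoc, am_add, add_mul, ← h6, am_one, one_mul, ← mul_add_one, ← am_one, ← am_add,
      mul_assoc, ← am_mul, h7, am_smul, am_one, mul_smul_comm, mul_one]
  have h9 : IsUnit (δ.1 + 1).det := isUnit_iff_ne_zero.2 fun h0 => by
    have := congrArg (fun x => (x * ui σ u).det) h8
    simp only [smul_mul_assoc, h.sim.mul_ui, det_mul, det_smul, det_one, mul_one] at this
    rw [am, ← RingHom.mapMatrix_apply, ← RingHom.map_det, h0, map_zero, zero_mul, zero_mul,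
      ← map_pow, ← map_zero cA] at this
    exact pow_ne_zero _ (mul_ne_zero two_ne_zero hy) (cA_inj this).symm
  have h10 := nonsing_inv_mul _ h9
  have h11 : Hm τ' τ' δ.1 := by
    have := hm_act δ h.h'
    rwa [← h5] at this
  refine ⟨y • 1 - (2 * y) • (δ.1 + 1)⁻¹, ?_,
    ((hm_one τ').smul y).sub (((h11.add (hm_one τ')).inv h10).smul _)⟩
  have h12 : u * am A = cA (2 * y) • (am (δ.1 + 1)⁻¹ * u) := by
    rw [← mul_smul_comm, ← h8, ← mul_assoc, ← am_mul, h10, am_one, one_mul]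
  rw [am_sub, am_smul, am_smul, am_one, sub_mul, smul_mul_assoc, smul_mul_assoc, ← h12, hA, am_sub,
    am_smul, am_one, mul_sub, mul_smul_comm, one_mul, mul_one, sub_sub_cancel]

end En

open En

/-- **END** -/
theorem end_of (hU : UNQ (2 * g)) : END g := by
  intro σ τ τ' t t' u u1 h h1 f hf
  let e : Fin 2 × Fin g ≃ Fin (2 * g) := finProdFinEquiv
  have hR : Rel σ (bq e ![τ, t]) (bq e ![τ', t']) (bp e ![u, u1]) :=
    rel_bp e (Fin.forall_fin_two.2 ⟨h, h1⟩)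
  obtain ⟨X', h2, h3⟩ := skew hU hR
    (X := (pa e ℚ 0)ᵀ * f * pa e ℚ 1 - (pa e ℚ 1)ᵀ * ad f * pa e ℚ 0) (by
      simp only [transpose_sub, transpose_mul, transpose_transpose, sub_mul, mul_sub,
        Matrix.mul_assoc, pa_J, neg_sub]
      simp only [← Matrix.mul_assoc, J_pa]
      simp only [Matrix.mul_assoc (pa e ℚ _)ᵀ, J_ad, ad_J])
    ((((hm_pa' e ![τ, t] 0).mul hf).mul (hm_pa e ![τ, t] 1)).sub
      (((hm_pa' e ![τ, t] 1).mul (hm_ad h1.h h.h hf)).mul (hm_pa e ![τ, t] 0)))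
  refine ⟨pa e ℚ 0 * X' * (pa e ℚ 1)ᵀ, ?_,
    ((hm_pa e ![τ', t'] 0).mul h3).mul (hm_pa' e ![τ', t'] 1)⟩
  have h4 := congrArg (fun x => pa e Af 0 * x * (pa e Af 1)ᵀ) h2
  have h5 : ((pa e ℚ 0)ᵀ * (f * pa e ℚ 1) - (pa e ℚ 1)ᵀ * (ad f * pa e ℚ 0)) * (pa e ℚ 1)ᵀ =
      (pa e ℚ 0)ᵀ * f := by
    simp [Matrix.sub_mul, Matrix.mul_assoc, pa_mul]
  simp only [Matrix.mul_assoc, bp_pa] at h4
  rw [← Matrix.mul_assoc, pa_bp, ← am_pa, ← am_pa, ← am_tr, ← am_mul, h5, Matrix.mul_assoc,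
    ← am_mul, ← Matrix.mul_assoc, pa_mul, if_pos rfl, Matrix.one_mul] at h4
  simp only [am_mul, Matrix.mul_assoc]
  exact h4

/-- **END** -/
theorem end_row (hN : NEAT (2 * g)) : END g := end_of (unq hN)

end Vale.Agent.P022K.TP
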