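import Vale.Agent.P022K.TP.Cm
import Vale.Agent.P022K.TP.Conj
import Vale.Agent.P022K.TP.End
import Vale.Agent.P022K.TP.Neat
import Vale.Agent.P022K.TP.Alg2
import Vale.Agent.P022K.TP.Has

/-!
# The main theorem of complex multiplication, first form
-/

open Matrix Complex Polynomial

noncomputable section

namespace Vale.Agent.P022K.TP

open P010MR P010M71 P010MT8

variable {g : ℕ} {τ τ' : Mc g} {F L : Type} [Field F] [NumberField F] [Field L] [NumberField L]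
  [Algebra F L] {Φ : Set (L →+* ℂ)}

/-- the norm theorem in the form that is needed -/
def NOR (l : L →+* Mi g ℚ) (cj : L ≃ₐ[F] L) : Prop := ∀ m : F, m ≠ 0 → (∀ φ : F →+* ℝ, 0 < φ m) →
  ∀ c c' : Af, c ∈ Zn 1 → c' ∈ Zn 1 → c * c' = 1 → ∀ (a : Ix g → Af) (z : Ix g → L),
    am (l (algebraMap F L m)) * (∑ i, a i • am (l (z i))) * (∑ i, a i • am (l (cj (z i)))) = c • 1 →
      ∃ y : L, y * cj y = algebraMap F L m

theorem nor [Nonempty (Ix g)] {I : L} (hI : I ^ 2 = -1)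
    (gen : ∀ z, ∃ x y : F, z = algebraMap F L x + algebraMap F L y * I) {cj : L ≃ₐ[F] L}
    (cjI : cj I = -I) (z3 : ∃ ζ : L, ζ ^ 2 + ζ + 1 = 0) (l : L →+* Mi g ℚ) : NOR l cj :=
  fun m _ pos c c' hc hc' e a z h => norm_of_apx I hI gen cj cjI z3 l m pos c c' hc hc' e _ a z h

omit [NumberField F] in
theorem fix_cj {I : L}
    (gen : ∀ z, ∃ x y : F, z = algebraMap F L x + algebraMap F L y * I) {cj : L ≃ₐ[F] L}
    (cjI : cj I = -I) (z : L) (h : cj z = z) : ∃ m, algebraMap F L m = z := by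
  obtain ⟨x, y, rfl⟩ := gen z
  rw [map_add, map_mul, cj.commutes, cj.commutes, cjI] at h
  exact ⟨x, by linear_combination (1 / 2 : L) * h⟩

theorem qr_mul' (A B : Mi g ℚ) : qr (A * B) = qr A * qr B := Matrix.map_mul (f := Rat.castHom ℝ)

theorem exists_eigR [Nonempty (Ix g)] (l : F →+* Mi g ℚ) (m : F) (φ : F →+* ℝ) :
    ∃ x, x ≠ 0 ∧ qr (l m) *ᵥ x = φ m • x := by
  have h1 : minpoly ℚ m ∣ (l m).charpoly :=
    minpoly.algHom_eq l.toRatAlgHom l.injective m ▸ minpoly_dvd_charpoly (l m)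
  have h2 : aeval (φ m) (l m).charpoly = 0 := aeval_eq_zero_of_dvd_aeval_eq_zero h1
    ((aeval_algHom_apply φ.toRatAlgHom m _).trans (by rw [minpoly.aeval, map_zero]))
  rw [aeval_def, ← eval_map, ← charpoly_map, eval_charpoly, ← exists_mulVec_eq_zero_iff] at h2
  obtain ⟨x, hx, h3⟩ := h2
  refine ⟨x, hx, ?_⟩
  rw [sub_mulVec, scalar_apply, ← smul_one_eq_diagonal, smul_mulVec, one_mulVec, sub_eq_zero] at h3
  exact h3.symm

theorem pos_of_hm [Nonempty (Ix g)] (l : F →+* Mi g ℚ) {m : F} {β β' : Mi g ℚ} (hτ : τ ∈ Hg g)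
    (hτ' : τ' ∈ Hg g) (h : Hm τ τ' β) (e : β' * β = 1) (hm : Hm τ τ (l m))
    (hβ : βᵀ * J (Fin g) ℚ * β = J (Fin g) ℚ * l m) (φ : F →+* ℝ) : 0 < φ m := by
  obtain ⟨x, hx, h1⟩ := exists_eigR l m φ
  have h2 : qr β *ᵥ x ≠ 0 := fun h0 => hx (by
    rw [← one_mulVec x, ← show qr (1 : Mi g ℚ) = 1 from Matrix.map_one _ (by simp) (by simp), ← e,
      qr_mul', ← mulVec_mulVec, h0, mulVec_zero])
  have h3 := (Qm_posDef hτ').dotProduct_mulVec_pos h2
  have h4 := (Qm_posDef hτ).dotProduct_mulVec_pos hx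
  have h5 : (qr β)ᵀ * J (Fin g) ℝ * qr β = J (Fin g) ℝ * qr (l m) := by
    have := congrArg qr hβ
    rwa [qr_mul', qr_mul', qr_mul', show qr (J (Fin g) ℚ) = J (Fin g) ℝ from
      Matrix.map_J _ (Rat.castHom ℝ)] at this
  rw [star_trivial, mulVec_mulVec, ← vecMul_transpose, ← dotProduct_mulVec, mulVec_mulVec, Qm,
    ← mul_assoc, ← mul_assoc, mul_assoc _ (Jm τ'), ← (hm_iff_jm hτ hτ').1 h, ← mul_assoc, h5, mul_assoc,
    (hm_iff_jm hτ hτ).1 hm, ← mul_assoc, ← mulVec_mulVec, h1, mulVec_smul, dotProduct_smul] at h3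
  exact (mul_pos_iff_of_pos_right h4).1 h3

theorem mul_eq_smul_comm {A B : Mi g Af} {c c' : Af} (hc : c * c' = 1) {D : Mi g Af}
    (h : A * B * D = c • 1) : B * D * A = c • 1 := by
  have h1 : (c' • A) * (B * D) = 1 := by
    rw [smul_mul_assoc, ← mul_assoc, h, smul_smul, mul_comm, hc, one_smul]
  rw [← mul_eq_one_comm.1 h1, mul_smul_comm, smul_smul, hc, one_smul]

/-- **the main theorem**: an automorphism that respects the type fixes the point -/
theorem cmfix [Nonempty (Ix g)] {l : L →+* Mi g ℚ} {cj : L ≃ₐ[F] L} (hN : NOR l cj)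
    (fx : ∀ z, cj z = z → ∃ m, algebraMap F L m = z)
    (adj : ∀ z, (l z)ᵀ * J (Fin g) ℚ = J (Fin g) ℚ * l (cj z)) (h : Ty τ l Φ)
    (hΦ : ∀ ψ ∈ Φ, (starRingEnd ℂ).comp ψ ∉ Φ) {w : Mi g ℚ} {s : ℤˣ}
    (hw : wᵀ * J (Fin g) ℚ * w = ((s : ℤ) : ℚ) • J (Fin g) ℚ) (α : L ≃+* L)
    (hα : ∀ z, w * l z = l (α z) * w) {σ : ℂ ≃+* ℂ}
    (hσ : ∀ ψ ∈ Φ, ∃ ψ' ∈ Φ, ∀ z, σ (ψ z) = ψ' (α z)) :
    ∃ t ∈ Submodule.span Af (Set.range fun z => am (l z)), Rel σ τ τ (t * am w) := by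
  have hs : ((s : ℤ) : ℚ) * ((s : ℤ) : ℚ) = 1 := by exact_mod_cast Int.units_coe_mul_self s
  obtain ⟨w', hw'⟩ : ∃ w', w' * w = 1 := ⟨((s : ℤ) : ℚ) • (-J (Fin g) ℚ * wᵀ * J (Fin g) ℚ), by
    rw [smul_mul_assoc, mul_assoc (-J _ _), mul_assoc (-J _ _), hw, mul_smul_comm, smul_smul, hs,
      one_smul, neg_mul, J_squared, neg_neg]⟩
  have hw'' := mul_eq_one_comm.1 hw'
  have hα' : ∀ z, w' * l z * w = l (α.symm z) := fun z => by
    rw [mul_assoc, ← α.apply_symm_apply z, ← hα, ← mul_assoc, hw', one_mul, α.symm_apply_apply]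
  obtain ⟨τ1, u, hR⟩ := conj g σ τ h.mem
  have hU : u * am w' * (am w * ui σ u) = 1 := by
    rw [mul_assoc, ← mul_assoc (am w'), ← am_mul, hw', am_one, one_mul, hR.sim.mul_ui]
  have hd : ∀ f, Co l f → ∃ f', u * am w' * am f = am f' * (u * am w') ∧ Hm τ1 τ1 f' :=
    fun f hf => by
      obtain ⟨f', h1, h2⟩ := end_row (neat _) σ τ τ1 τ τ1 u u hR hR (w' * f * w)
        (h.hom h hΦ fun z => by
          rw [mul_assoc, hα, ← mul_assoc, mul_assoc w', hf, ← α.symm_apply_apply z, ← hα',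
            α.symm_apply_apply]
          simp only [mul_assoc]
          rw [← mul_assoc w w', hw'', one_mul])
      refine ⟨f', ?_, h2⟩
      rw [← mul_assoc, ← h1, mul_assoc, mul_assoc, ← am_mul, ← am_mul, mul_assoc _ w, hw'', mul_one]
  obtain ⟨β, β', hβ, H⟩ := exists_sn l hU fun f hf => (hd f hf).imp fun _ e => e.1
  have hβ' := mul_eq_one_comm.1 hβ
  let l1 : L →+* Mi g ℚ :=
    { toFun := fun z => β * l z * β'
      map_one' := by rw [map_one, mul_one, hβ']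
      map_mul' := fun x y => by
        rw [map_mul]
        simp only [mul_assoc]
        rw [← mul_assoc β' β, hβ, one_mul]
      map_zero' := by simp
      map_add' := fun x y => by rw [map_add, mul_add, add_mul] }
  have h1 : ∀ f, Co l f → u * am w' * am f = am (β * f * β') * (u * am w') ∧
      Hm τ1 τ1 (β * f * β') := fun f hf => by
    obtain ⟨f', e, e'⟩ := hd f hf
    rw [H f f' hf e, mul_assoc f', hβ', mul_one]
    exact ⟨e, e'⟩
  have h2 : Ty τ1 l1 Φ := ((h.comp α.symm.toRingHom).conj hR (l' := l1) (fun z => by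
    have := congrArg (· * am w) (h1 _ (co_l z)).1
    simp only [mul_assoc, ← am_mul, hw', am_one, mul_one] at this
    change u * am (l (α.symm z)) = am (β * l z * β') * u
    rw [← hα', mul_assoc, mul_assoc, this]) fun z => (h1 _ (co_l z)).2).mono (by
      rintro _ ⟨_, ⟨ψ, hψ, rfl⟩, rfl⟩
      obtain ⟨ψ', h3, h4⟩ := hσ ψ hψ
      convert h3 using 1
      exact RingHom.ext fun z => (h4 _).trans (congrArg ψ' (α.apply_symm_apply z)))
  have h3 : Hm τ τ1 β := h2.hom h hΦ fun z => by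
    change _ = β * l z * β' * β
    rw [mul_assoc _ β', hβ, mul_one]
  obtain ⟨z, hz⟩ := cent_l l
  obtain ⟨a, ha⟩ := hz Af cA (am β' * (u * am w')) fun f hf => by
    change _ * am f = am f * _
    rw [mul_assoc, (h1 f hf).1, ← mul_assoc, ← mul_assoc, ← am_mul, ← mul_assoc β', ← mul_assoc β',
      hβ, one_mul, am_mul, mul_assoc (am f), mul_assoc (am f), mul_assoc (am β')]
  change _ = ∑ k, a k • am (l (z k)) at ha
  set t := ∑ k, a k • am (l (z k)) with ht
  set t' := ∑ k, a k • am (l (cj (z k))) with ht'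
  have cs : ∀ (y : Ix g → L) f, Co l f →
      am f * ∑ k, a k • am (l (y k)) = (∑ k, a k • am (l (y k))) * am f := fun y f hf => by
    simp only [Finset.mul_sum, Finset.sum_mul, mul_smul_comm, smul_mul_assoc, ← am_mul, hf _]
  have h4 : tᵀ * J (Fin g) Af = J (Fin g) Af * t' := by
    simp only [ht, ht', transpose_sum, transpose_smul, Finset.mul_sum, Finset.sum_mul,
      mul_smul_comm, smul_mul_assoc, ← am_J, ← am_tr, ← am_mul, adj]
  have h5 : am β * t = u * am w' := by rw [← ha, ← mul_assoc, ← am_mul, hβ', am_one, one_mul]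
  have hJ : ∀ A : Mi g ℚ, J (Fin g) ℚ * (-J (Fin g) ℚ * A) = A := fun A => by
    rw [← mul_assoc, mul_neg, J_squared, neg_neg, one_mul]
  have hJ' : ∀ {A B : Mi g Af}, J (Fin g) Af * A = J (Fin g) Af * B → A = B := fun {A B} e => by
    have := congrArg (-J (Fin g) Af * ·) e
    simpa only [← mul_assoc, neg_mul, J_squared, neg_neg, one_mul] using this
  obtain ⟨G, hG⟩ : ∃ G : Mi g ℚ, G = -J (Fin g) ℚ * (βᵀ * J (Fin g) ℚ * β) := ⟨_, rfl⟩
  have h6 : t' * am G * t = (chi ℂ σ * ((s : ℤ) : Af)) • 1 := hJ' (by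
    have e1 : w'ᵀ * J (Fin g) ℚ * w' = ((s : ℤ) : ℚ) • J (Fin g) ℚ := by
      have := congrArg (fun A => ((s : ℤ) : ℚ) • (w'ᵀ * A * w')) hw
      simp only [mul_smul_comm, smul_mul_assoc, smul_smul, hs, one_smul] at this
      rw [← this, ← mul_assoc, ← mul_assoc, ← transpose_mul, mul_assoc _ w, hw'', transpose_one,
        one_mul, mul_one]
    rw [← mul_assoc, ← mul_assoc, ← h4, mul_assoc tᵀ, ← am_J, ← am_mul, hG, hJ, am_mul, am_mul,
      am_tr, ← mul_assoc, ← mul_assoc, ← transpose_mul, mul_assoc, h5, transpose_mul, am_J,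
      mul_assoc _ uᵀ, mul_assoc, ← mul_assoc _ u, hR.sim, smul_mul_assoc, mul_smul_comm,
      ← mul_assoc, ← am_tr, ← am_J, ← am_mul, ← am_mul, e1, am_smul, smul_smul, map_intCast,
      mul_smul_comm, mul_one])
  have hc : chi ℂ σ * ((s : ℤ) : Af) * (chi ℂ σ⁻¹ * ((s : ℤ) : Af)) = 1 := by
    rw [mul_mul_mul_comm, chi_mul_inv, one_mul, ← Int.cast_mul, Int.units_coe_mul_self,
      Int.cast_one]
  have h7 : (chi ℂ σ⁻¹ * ((s : ℤ) : Af)) • (t' * am G * t) = 1 := by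
    rw [h6, smul_smul, mul_comm, hc, one_smul]
  have u1 : IsUnit t := IsUnit.of_mul_eq_one_right _ ((smul_mul_assoc _ _ _).trans h7)
  have u2 : IsUnit t' := IsUnit.of_mul_eq_one _
    ((mul_smul_comm _ _ _).trans (by rwa [mul_assoc] at h7))
  obtain ⟨m0, hm0⟩ := cent_q (l := l) (t := G) fun f hf => am_inj (u2.mul_left_cancel
    (u1.mul_right_cancel (by
      rw [am_mul, am_mul, ← mul_assoc, mul_assoc _ (am f), (cs z f hf : am f * t = t * am f),
        ← mul_assoc, h6, ← mul_assoc t', ← (cs (fun k => cj (z k)) f hf : am f * t' = t' * am f),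
        mul_assoc (am f), mul_assoc (am f), h6, smul_mul_assoc, mul_smul_comm, one_mul, mul_one])))
  have h8 : βᵀ * J (Fin g) ℚ * β = J (Fin g) ℚ * l m0 := by rw [← hm0, hG, hJ]
  obtain ⟨m, rfl⟩ := fx m0 (l.injective (by
    have e := congrArg transpose h8
    rw [transpose_mul, transpose_mul, transpose_transpose, transpose_mul, J_transpose, neg_mul,
      mul_neg, mul_neg, neg_inj, ← mul_assoc, h8, adj] at e
    have := congrArg (-J (Fin g) ℚ * ·) e
    simpa only [← mul_assoc, neg_mul, J_squared, neg_neg, one_mul] using this.symm))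
  have hm : m ≠ 0 := fun e => by
    rw [hm0, e, map_zero, map_zero, show am (0 : Mi g ℚ) = 0 from Matrix.map_zero _ (map_zero _),
      mul_zero, zero_mul, smul_zero] at h7
    exact zero_ne_one (α := Mi g ℚ) (am_inj (by
      rw [am_one, ← h7]; exact Matrix.map_zero _ (map_zero _)))
  obtain ⟨y, hy⟩ := hN m hm
    (pos_of_hm (l.comp (algebraMap F L)) h.mem hR.h' h3 hβ (h.hm _) h8) _ _
    (Zn_mul1 (chi_mem _) (int_mem _)) (Zn_mul1 (chi_mem _) (int_mem _)) hc a z (by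
      rw [← hm0]
      exact mul_eq_smul_comm hc h6)
  have hy0 : y ≠ 0 := fun e => hm ((map_eq_zero (algebraMap F L)).1 (by rw [← hy, e, zero_mul]))
  have h9 : (β * l y⁻¹)ᵀ * J (Fin g) ℚ * (β * l y⁻¹) = (1 : ℚ) • J (Fin g) ℚ := by
    rw [transpose_mul, mul_assoc _ βᵀ, mul_assoc, ← mul_assoc _ β, h8, ← mul_assoc, ← mul_assoc,
      adj, mul_assoc, mul_assoc, ← map_mul, ← map_mul, ← hy, map_inv₀, one_smul, mul_comm y,
      mul_inv_cancel_right₀ hy0, inv_mul_cancel₀ ((map_ne_zero cj).2 hy0), map_one, mul_one]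
  have h10 : u * am 1 = am (β * l y⁻¹) * (am (l y) * t * am w) := by
    rw [← mul_assoc, ← mul_assoc, ← am_mul, mul_assoc β, ← map_mul, inv_mul_cancel₀ hy0, map_one,
      mul_one, h5, mul_assoc, ← am_mul, hw']
  refine ⟨am (l y) * t, ?_, hR.hom1 h.mem h.mem ?_ (hm_one τ) (h3.mul (h.hm _)) one_pos
    (by simp) h10⟩
  · rw [ht, Finset.mul_sum]
    refine sum_mem fun k _ => ?_
    rw [mul_smul_comm, ← am_mul, ← map_mul]
    exact Submodule.smul_mem _ _ (Submodule.subset_span ⟨_, rfl⟩)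
  · have e := hR.sim
    rw [am_one, mul_one] at h10
    rw [Sim, h10, transpose_mul, mul_assoc _ (am _)ᵀ, mul_assoc, ← mul_assoc _ (am _), ← am_tr,
      ← am_J, ← am_mul, ← am_mul, h9, one_smul, ← mul_assoc, am_J] at e
    exact e

/-- points with complex multiplication are algebraic -/
theorem Ty.algp [Nonempty (Ix g)] {l : L →+* Mi g ℚ} {cj : L ≃ₐ[F] L} (hN : NOR l cj)
    (fx : ∀ z, cj z = z → ∃ m, algebraMap F L m = z)
    (adj : ∀ z, (l z)ᵀ * J (Fin g) ℚ = J (Fin g) ℚ * l (cj z)) (h : Ty τ l Φ)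
    (hΦ : ∀ ψ ∈ Φ, (starRingEnd ℂ).comp ψ ∉ Φ) : Algp τ := alg' h.mem fun σ hσ => by
  obtain ⟨t, -, H⟩ := cmfix hN fx adj h hΦ (w := 1) (s := 1) (by simp) (RingEquiv.refl L)
    (fun z => by simp) (σ := σ) fun ψ hψ => ⟨ψ, hψ, fun z => hσ _
      ((Algebra.IsAlgebraic.isAlgebraic z).algHom ψ.toRatAlgHom)⟩
  exact ⟨_, H⟩

omit [NumberField F] [NumberField L] in
/-- elements of norm one fix the point -/
theorem Rel.nrm {l : L →+* Mi g ℚ} {cj : L ≃ₐ[F] L}
    (adj : ∀ z, (l z)ᵀ * J (Fin g) ℚ = J (Fin g) ℚ * l (cj z)) (h : ∀ z, Hm τ' τ' (l z))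
    {σ : ℂ ≃+* ℂ} {u : Mi g Af} (hR : Rel σ τ τ' u) {y : L} (hy : y * cj y = 1) :
    Rel σ τ τ' (am (l y) * u) := by
  have e : l y ∈ Sp g ℚ := SymplecticGroup.mem_iff'.2 (by
    rw [adj, mul_assoc, ← map_mul, mul_comm _ y, hy, map_one, mul_one])
  have := hR.left ⟨_, e⟩
  rwa [act_of_hm ⟨_, e⟩ hR.h' (h y)] at this

omit [NumberField L] in
theorem co_span {l : L →+* Mi g ℚ} {t : Mi g Af}
    (ht : t ∈ Submodule.span Af (Set.range fun z => am (l z))) {f : Mi g ℚ} (hf : Co l f) :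
    am f * t = t * am f := by
  induction ht using Submodule.span_induction with
  | mem _ h => obtain ⟨z, rfl⟩ := h; rw [← am_mul, ← am_mul, hf]
  | zero => simp
  | add x y _ _ hx hy => rw [mul_add, add_mul, hx, hy]
  | smul c x _ hx => rw [mul_smul_comm, smul_mul_assoc, hx]

omit [NumberField F] in
/-- the ambiguity in the main theorem -/
theorem cm_unq [Nonempty (Ix g)] {l : L →+* Mi g ℚ} {cj : L ≃ₐ[F] L}
    (adj : ∀ z, (l z)ᵀ * J (Fin g) ℚ = J (Fin g) ℚ * l (cj z)) {σ : ℂ ≃+* ℂ} {t t' w : Mi g Af}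
    (ht : t ∈ Submodule.span Af (Set.range fun z => am (l z)))
    (ht' : t' ∈ Submodule.span Af (Set.range fun z => am (l z))) {τ1 τ2 : Mc g}
    (h : Rel σ τ τ1 (t * w)) (h' : Rel σ τ τ2 (t' * w)) :
    ∃ y, y * cj y = 1 ∧ t' * w = am (l y) * (t * w) := by
  obtain ⟨δ, -, e⟩ := unq (neat g) σ τ _ _ _ _ h h'
  have h1 : t * (w * ui σ (t * w)) = 1 := by rw [← mul_assoc, h.sim.mul_ui]
  have h2 : t' = am δ.1 * t := (IsUnit.of_mul_eq_one_right (b := w)
    (ui σ (t * w) * t) (by rw [mul_assoc, h.sim.ui_mul])).mul_right_cancel (by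
      rw [e, mul_assoc])
  obtain ⟨y, hy⟩ := cent_q (l := l) (t := δ.1) fun f hf => am_inj
    ((IsUnit.of_mul_eq_one _ h1).mul_right_cancel (by
      rw [am_mul, am_mul, mul_assoc, co_span ht hf, ← mul_assoc, ← h2, ← co_span ht' hf, h2,
        mul_assoc]))
  refine ⟨y, l.injective ?_, hy ▸ e⟩
  have h3 := SymplecticGroup.mem_iff'.1 δ.2
  rw [hy, adj, mul_assoc, ← map_mul, mul_comm _ y] at h3
  have := congrArg (-J (Fin g) ℚ * ·) h3
  simpa only [← mul_assoc, neg_mul, J_squared, neg_neg, one_mul, map_one] using this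

end Vale.Agent.P022K.TP
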