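import Vale.Agent.P022K.F0.HilbA
import Vale.Agent.P022K.F0.FujQ

/-!
# Reduced norms of a quaternion algebra, elements with given trace and norm
-/

open NumberField IsDedekindDomain
open scoped Quaternion

namespace Vale.Agent.P022K.TP

open F0.Fuj P011.Arith Hilb

variable {M : Type} [Field M] [NumberField M] {a b : M}

/-- an element which is positive at the ramified real places is a reduced norm -/
theorem nrd_ex {c : M} (ha : a ≠ 0) (hb : b ≠ 0) (hc : c ≠ 0)
    (h : ∀ φ : M →+* ℝ, φ a < 0 → φ b < 0 → 0 < φ c) : ∃ x : ℍ[M,a,b], nrd x = c := by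
  obtain ⟨x, y, z, t, e⟩ := Sch.quaternion_norm (Units.mk0 a ha) (Units.mk0 b hb) (Units.mk0 c hc) h
  exact ⟨⟨x, y, z, t⟩, e.symm⟩

/-- an element with given reduced trace and norm -/
theorem emb_ex (ha : a ≠ 0) (hb : b ≠ 0) {t n : M} (he : t ^ 2 - 4 * n ≠ 0)
    (h : ∀ p, Units.mk0 _ he ∈ LSp p → Units.mk0 b hb ∈ LN (Units.mk0 a ha) p) :
    ∃ x : ℍ[M,a,b], trd x = t ∧ nrd x = n := by
  obtain ⟨s, x, y, e⟩ := emb h
  simp only [Units.val_mk0] at e
  refine ⟨⟨t / 2, s / 2, x / 2, y / 2⟩, by simp only [trd]; ring, ?_⟩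
  simp only [nrd]
  linear_combination (1 / 4 : M) * e

/-- a place that splits in an embedded quadratic field is not ramified -/
theorem split_of (ha : a ≠ 0) (hb : b ≠ 0) (x : ℍ[M,a,b]) (he : trd x ^ 2 - 4 * nrd x ≠ 0)
    {p : Pl M} (h : Units.mk0 _ he ∈ LSp p) : Units.mk0 b hb ∈ LN (Units.mk0 a ha) p := by
  obtain ⟨b', e⟩ := chg (a := Units.mk0 a ha) (b := Units.mk0 b hb) (e := Units.mk0 _ he)
    (s := 2 * x.imI) (x := 2 * x.imJ) (y := 2 * x.imK) (by simp only [Units.val_mk0, nrd, trd]; ring)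
  by_contra h1
  have h2 : p ∈ Ram (Units.mk0 _ he) b' := e ▸ h1
  exact h2 (LN_top h ▸ Subgroup.mem_top _)

end Vale.Agent.P022K.TP
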