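import Vale.Agent.P022K.PM.Defs
import Vale.Agent.P022K.TP.Hom
import Vale.Agent.P022K.TP.Nrd

/-!
# The datum `QD`: left and right multiplications, adjoints, centraliser, the group `EE`
-/

open NumberField Matrix Quaternion

noncomputable section

namespace Vale.Agent.P022K.PM

open Vale.Agent.P022 Vale.Agent.P010MR Vale.Agent.P010MT8
open Vale.Agent.P022K.TP

namespace QD

variable (D : QD)

theorem mx_ap (f : D.B →ₗ[ℚ] D.B) (x : D.B) : D.mx f *ᵥ D.e x = D.e (f x) := by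
  simp [mx, LinearMap.toMatrix'_mulVec]

theorem lm_ap (b x : D.B) : D.lm b *ᵥ D.e x = D.e (b * x) := D.mx_ap _ x

theorem rm_ap (b x : D.B) : D.rm b *ᵥ D.e x = D.e (x * b) := D.mx_ap _ x

theorem ext_e {X Y : Mi D.g ℚ} (h : ∀ x, X *ᵥ D.e x = Y *ᵥ D.e x) : X = Y :=
  Matrix.ext_iff_mulVec.2 fun v => by rw [← D.e.apply_symm_apply v, h]

theorem lm_mul (a b : D.B) : D.lm (a * b) = D.lm a * D.lm b :=
  D.ext_e fun x => by rw [← mulVec_mulVec, lm_ap, lm_ap, lm_ap, mul_assoc]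

theorem rm_mul (a b : D.B) : D.rm (a * b) = D.rm b * D.rm a :=
  D.ext_e fun x => by rw [← mulVec_mulVec, rm_ap, rm_ap, rm_ap, mul_assoc]

theorem lm_rm (a b : D.B) : D.lm a * D.rm b = D.rm b * D.lm a :=
  D.ext_e fun x => by rw [← mulVec_mulVec, ← mulVec_mulVec, rm_ap, lm_ap, lm_ap, rm_ap, mul_assoc]

theorem lm_one : D.lm 1 = 1 := D.ext_e fun x => by rw [lm_ap, one_mul, one_mulVec]
theorem rm_one : D.rm 1 = 1 := D.ext_e fun x => by rw [rm_ap, mul_one, one_mulVec]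
theorem lm_zero : D.lm 0 = 0 := D.ext_e fun x => by rw [lm_ap, zero_mul, map_zero, zero_mulVec]
theorem rm_zero : D.rm 0 = 0 := D.ext_e fun x => by rw [rm_ap, mul_zero, map_zero, zero_mulVec]

theorem lm_add (a b : D.B) : D.lm (a + b) = D.lm a + D.lm b :=
  D.ext_e fun x => by rw [add_mulVec, lm_ap, lm_ap, lm_ap, add_mul, map_add]

theorem rm_add (a b : D.B) : D.rm (a + b) = D.rm a + D.rm b :=
  D.ext_e fun x => by rw [add_mulVec, rm_ap, rm_ap, rm_ap, mul_add, map_add]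

theorem lm_smul (q : ℚ) (b : D.B) : D.lm (q • b) = q • D.lm b :=
  D.ext_e fun x => by rw [smul_mulVec, lm_ap, lm_ap, smul_mul_assoc, map_smul]

theorem rm_smul (q : ℚ) (b : D.B) : D.rm (q • b) = q • D.rm b :=
  D.ext_e fun x => by rw [smul_mulVec, rm_ap, rm_ap, mul_smul_comm, map_smul]

theorem lm_neg (b : D.B) : D.lm (-b) = -D.lm b := by simpa using D.lm_smul (-1) b
theorem rm_neg (b : D.B) : D.rm (-b) = -D.rm b := by simpa using D.rm_smul (-1) b

theorem lm_sub (a b : D.B) : D.lm (a - b) = D.lm a - D.lm b := by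
  rw [sub_eq_add_neg, lm_add, lm_neg, sub_eq_add_neg]

theorem rm_sub (a b : D.B) : D.rm (a - b) = D.rm a - D.rm b := by
  rw [sub_eq_add_neg, rm_add, rm_neg, sub_eq_add_neg]

theorem lm_inj {a b : D.B} (h : D.lm a = D.lm b) : a = b := by
  have := congrArg (· *ᵥ D.e 1) h
  simp only [lm_ap, mul_one] at this
  exact D.e.injective this

theorem rm_inj {a b : D.B} (h : D.rm a = D.rm b) : a = b := by
  have := congrArg (· *ᵥ D.e 1) h
  simp only [rm_ap, one_mul] at this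
  exact D.e.injective this

theorem sc_comm (m : D.M) (x : D.B) : D.sc m * x = x * D.sc m := Algebra.commutes m x

theorem lm_sc (m : D.M) : D.lm (D.sc m) = D.rm (D.sc m) :=
  D.ext_e fun x => by rw [lm_ap, rm_ap, sc_comm]

theorem sc_eq (m : D.M) : D.sc m = ⟨m, 0, 0, 0⟩ := rfl

theorem sc_mul (m m' : D.M) : D.sc (m * m') = D.sc m * D.sc m' := map_mul (algebraMap _ _) _ _

theorem sc_one : D.sc 1 = 1 := map_one (algebraMap _ _)

/-- the centraliser of the right multiplications -/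
theorem cent {X : Mi D.g ℚ} (h : ∀ b, X * D.rm b = D.rm b * X) : ∃ c, X = D.lm c := by
  refine ⟨D.e.symm (X *ᵥ D.e 1), D.ext_e fun x => ?_⟩
  rw [lm_ap, ← rm_ap, D.e.apply_symm_apply, mulVec_mulVec, ← h, ← mulVec_mulVec, rm_ap, one_mul]

/-- the centraliser of the left multiplications -/
theorem cent' {X : Mi D.g ℚ} (h : ∀ b, X * D.lm b = D.lm b * X) : ∃ c, X = D.rm c := by
  refine ⟨D.e.symm (X *ᵥ D.e 1), D.ext_e fun x => ?_⟩
  rw [rm_ap, ← lm_ap, D.e.apply_symm_apply, mulVec_mulVec, ← h, ← mulVec_mulVec, lm_ap, mul_one]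

theorem nrd_eq (b : D.B) : D.nrd b = F0.Fuj.nrd b := by
  simp only [nrd, F0.Fuj.nrd, QuaternionAlgebra.re_mul, QuaternionAlgebra.re_star,
    QuaternionAlgebra.imI_star, QuaternionAlgebra.imJ_star, QuaternionAlgebra.imK_star]
  ring

theorem nrd_mul (a b : D.B) : D.nrd (a * b) = D.nrd a * D.nrd b := by
  simp only [nrd_eq]
  exact map_mul (F0.Fuj.nrdHom (-1) D.β) a b

theorem nrd_star (b : D.B) : D.nrd (star b) = D.nrd b := by simp [nrd_eq, F0.Fuj.nrd]

theorem nrd_sc (m : D.M) : D.nrd (D.sc m) = m ^ 2 := by simp [nrd_eq, F0.Fuj.nrd, sc_eq]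

theorem nrd_one : D.nrd 1 = 1 := by simp [nrd]

theorem mul_star (b : D.B) : b * star b = D.sc (D.nrd b) := QuaternionAlgebra.mul_star_eq_coe b

theorem star_mul_self (b : D.B) : star b * b = D.sc (D.nrd b) := by
  rw [← D.nrd_star, ← mul_star, star_star]

theorem real_emb : Nonempty (D.M →+* ℝ) := by
  obtain ⟨v⟩ : Nonempty (InfinitePlace D.M) := inferInstance
  exact ⟨InfinitePlace.embedding_of_isReal (D.real.isReal v)⟩

theorem beta_ne : D.β ≠ 0 := fun h => by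
  obtain ⟨φ⟩ := D.real_emb
  simpa [h] using D.pos φ

theorem eq_zero_of_re {y : D.B} (h : ∀ z, (y * z).re = 0) : y = 0 := by
  have h1 := h 1
  have h2 := h D.bi
  have h3 := h D.bj
  have h4 := h (D.bi * D.bj)
  simp [bi, bj, D.beta_ne] at h1 h2 h3 h4
  ext <;> simp [*]

/-- `B` is a division algebra -/
theorem nrd_ne_zero {y : D.B} (h : y ≠ 0) : D.nrd y ≠ 0 := fun h0 => h <| D.eq_zero_of_re fun z => by
  obtain ⟨l, _, μ, -, H⟩ := D.ram 2 Nat.prime_two
  have := H (y * z)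
  rw [show (y * z * star (y * z)).re = D.nrd (y * z) from rfl, nrd_mul, h0, zero_mul, map_zero,
    norm_zero] at this
  exact (map_eq_zero μ).1 (norm_eq_zero.1 (pow_eq_zero_iff two_ne_zero |>.1
    (le_antisymm this (sq_nonneg _))))

theorem isUnit_of_ne {y : D.B} (h : y ≠ 0) : IsUnit y := by
  refine ⟨⟨y, D.sc (D.nrd y)⁻¹ * star y, ?_, ?_⟩, rfl⟩
  · rw [sc_comm, ← mul_assoc, mul_star, ← sc_mul, mul_inv_cancel₀ (D.nrd_ne_zero h), sc_one]
  · rw [mul_assoc, star_mul_self, ← sc_mul, inv_mul_cancel₀ (D.nrd_ne_zero h), sc_one]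

theorem delta_ne : D.δ ≠ 0 := fun h => by
  obtain ⟨φ⟩ := D.real_emb
  have h1 : D.d1 = 0 := congrArg QuaternionAlgebra.imI h
  have h3 : D.d3 = 0 := congrArg QuaternionAlgebra.imK h
  simpa [h1, h3] using D.neg φ

theorem star_delta : star D.δ = -D.δ := by ext <;> simp [δ]

theorem nrd_delta : D.nrd D.δ = D.d1 ^ 2 - D.β * D.d3 ^ 2 := by
  simp only [nrd_eq, F0.Fuj.nrd, δ]; ring

/-- every non zero element of `M` is a reduced norm -/
theorem nrd_surj {m : D.M} (h : m ≠ 0) : ∃ x, D.nrd x = m := by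
  obtain ⟨x, hx⟩ := nrd_ex (a := -1) (neg_ne_zero.2 one_ne_zero) D.beta_ne h
    fun φ _ h => absurd (D.pos φ) h.not_gt
  exact ⟨x, (D.nrd_eq x).trans hx⟩

theorem sym' (x y : D.B) :
    pq (D.e x) (D.e y) = Algebra.trace ℚ D.M (2 * (D.δ * star x * y).re) := D.sym x y

theorem adj_of {X Y : Mi D.g ℚ} (h : ∀ x y, pq (X *ᵥ D.e x) (D.e y) = pq (D.e x) (Y *ᵥ D.e y)) :
    Xᵀ * J (Fin D.g) ℚ = J (Fin D.g) ℚ * Y := by
  refine D.ext_e fun y => dotProduct_eq_iff.1 fun v => ?_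
  have := h (D.e.symm v) y
  rw [D.e.apply_symm_apply, pq, pq, ← vecMul_transpose, ← dotProduct_mulVec, mulVec_mulVec,
    mulVec_mulVec] at this
  rw [dotProduct_comm, this, dotProduct_comm]

theorem re_comm (x y : D.B) : (x * y).re = (y * x).re := by
  simp only [QuaternionAlgebra.re_mul]; ring

theorem lm_adj (b : D.B) : (D.lm b)ᵀ * J (Fin D.g) ℚ = J (Fin D.g) ℚ * D.lm (star b) :=
  D.adj_of fun x y => by rw [lm_ap, lm_ap, sym', sym', star_mul]; simp only [mul_assoc]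

theorem rm_adj {z z' : D.B} (h : z' * D.δ = D.δ * star z) :
    (D.rm z)ᵀ * J (Fin D.g) ℚ = J (Fin D.g) ℚ * D.rm z' :=
  D.adj_of fun x y => by
    rw [rm_ap, rm_ap, sym', sym', star_mul, ← mul_assoc, ← h, ← mul_assoc, D.re_comm _ z']
    simp only [mul_assoc]

theorem exists_adj (z : D.B) : ∃ z', z' * D.δ = D.δ * star z := by
  obtain ⟨d, hd⟩ := D.isUnit_of_ne D.delta_ne
  exact ⟨d * star z * ↑d⁻¹, by rw [← hd, Units.inv_mul_cancel_right]⟩

theorem exists_adj' (z' : D.B) : ∃ z, z' * D.δ = D.δ * star z := by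
  obtain ⟨d, hd⟩ := D.isUnit_of_ne D.delta_ne
  exact ⟨star (↑d⁻¹ * (z' * d)), by rw [← hd, star_star, Units.mul_inv_cancel_left]⟩

theorem lm_form (b : D.B) :
    (D.lm b)ᵀ * J (Fin D.g) ℚ * D.lm b = J (Fin D.g) ℚ * D.lm (D.sc (D.nrd b)) := by
  rw [lm_adj, mul_assoc, ← lm_mul, star_mul_self]

/-- elements of norm one as symplectic matrices -/
def sp (b : D.B) (h : D.nrd b = 1) : Sp D.g ℚ :=
  ⟨D.lm b, SymplecticGroup.mem_iff'.2 (by rw [lm_form, h, sc_one, lm_one, mul_one])⟩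

variable {D}

theorem loc_act {τ : Mc D.g} (hτ : τ ∈ Hg D.g) (γ : Sp D.g ℚ) {r : D.B → Mi D.g ℚ}
    (h : ∀ b, Hm τ τ (r b)) (e : ∀ b, γ.1 * r b = D.rm b * γ.1) : act (qr γ.1) τ ∈ D.Loc := by
  refine ⟨act_mem (qr_mem γ) hτ, fun b => ?_⟩
  have := ((hm_act γ hτ).mul (h b)).mul ((hm_act γ hτ).inv (inv_mul_sp γ))
  rwa [e, mul_assoc, mul_eq_one_comm.1 (inv_mul_sp γ), mul_one] at this

theorem loc_sp {τ : Mc D.g} (hτ : τ ∈ D.Loc) {b : D.B} (h : D.nrd b = 1) :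
    act (qr (D.sp b h).1) τ ∈ D.Loc := loc_act hτ.1 _ hτ.2 fun _ => D.lm_rm _ _

/-- conjugation by `j` to the power `s` -/
def al (s : ℤˣ) (b : D.B) : D.B := ⟨b.re, (s : ℤ) * b.imI, b.imJ, (s : ℤ) * b.imK⟩

theorem al_one (b : D.B) : al 1 b = b := by ext <;> simp [al]

theorem al_add (s : ℤˣ) (a b : D.B) : al s (a + b) = al s a + al s b := by
  ext <;> simp [al, mul_add]

theorem al_mul (s : ℤˣ) (a b : D.B) : al s (a * b) = al s a * al s b := by
  rcases Int.units_eq_one_or s with rfl | rfl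
  · simp only [al_one]
  · ext <;> simp [al] <;> ring

theorem al_al (s : ℤˣ) (b : D.B) : al s (al s b) = b := by
  rcases Int.units_eq_one_or s with rfl | rfl
  · simp only [al_one]
  · ext <;> simp [al]

theorem al_sc (s : ℤˣ) (m : D.M) : al s (D.sc m) = D.sc m := by ext <;> simp [al, sc_eq]

theorem al_bj (s : ℤˣ) : al s D.bj = D.bj := by ext <;> simp [al, bj]

theorem al_bi (s : ℤˣ) : al s D.bi = ((s : ℤ) : ℚ) • D.bi := by
  rcases Int.units_eq_one_or s with rfl | rfl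
  · simp [al_one]
  · ext <;> simp [al, bi]

theorem decomp (b : D.B) :
    b = D.sc b.re + D.sc b.imI * D.bi + D.sc b.imJ * D.bj + D.sc b.imK * (D.bi * D.bj) := by
  ext <;> simp [sc_eq, bi, bj]

variable {c : Af} {s : ℤˣ} {u : Mi D.g Af}

theorem am_al_bi (s : ℤˣ) : am (D.rm (al s D.bi)) = ((s : ℤ) : Af) • am (D.rm D.bi) := by
  rw [al_bi, rm_smul, am_smul, map_intCast]

theorem At.comm (h : D.At c s u) (b : D.B) : u * am (D.rm b) = am (D.rm (al s b)) * u := by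
  let P : D.B → Prop := fun b => u * am (D.rm b) = am (D.rm (al s b)) * u
  have h1 : ∀ a b, P a → P b → P (a + b) := fun a b ha hb => by
    simp only [P, al_add, rm_add, am_add, mul_add, add_mul] at ha hb ⊢
    rw [ha, hb]
  have h2 : ∀ a b, P a → P b → P (a * b) := fun a b ha hb => by
    simp only [P, al_mul, rm_mul, am_mul] at ha hb ⊢
    rw [← mul_assoc, hb, mul_assoc, ha, mul_assoc]
  have h3 : ∀ m, P (D.sc m) := fun m => by simp only [P, al_sc, h.cm]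
  have h4 : P D.bi := by simp only [P, am_al_bi, h.ci, smul_mul_assoc]
  have h5 : P D.bj := by simp only [P, al_bj, h.cj]
  change P b
  rw [decomp b]
  exact h1 _ _ (h1 _ _ (h1 _ _ (h3 _) (h2 _ _ (h3 _) h4)) (h2 _ _ (h3 _) h5))
    (h2 _ _ (h3 _) (h2 _ _ h4 h5))

theorem At.of_comm (hs : uᵀ * J (Fin D.g) Af * u = c • J (Fin D.g) Af)
    (h : ∀ b, u * am (D.rm b) = am (D.rm (al s b)) * u) : D.At c s u :=
  ⟨hs, fun m => by rw [h, al_sc], by rw [h, al_bj], by rw [h, am_al_bi, smul_mul_assoc]⟩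

theorem at_one (hs : Sim 1 u) (h : ∀ b, u * am (D.rm b) = am (D.rm b) * u) : D.At 1 1 u :=
  At.of_comm (by simpa [Sim] using hs) fun b => by rw [al_one, h]

theorem at_lm {b : D.B} (h : D.nrd b = 1) : D.At 1 1 (am (D.lm b)) :=
  at_one (sim_sp (D.sp b h)) fun _ => by rw [← am_mul, ← am_mul, lm_rm]

end QD

variable {D : QD} {η : GQ →* ℤˣ}

theorem at_uu (e : EE D η) : D.At (cyc (sg e)) (η (sg e)) (uu e) := e.2

theorem cyc_mul_inv (σ : GQ) : cyc σ * cyc σ⁻¹ = 1 := by rw [← map_mul, mul_inv_cancel, map_one]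

theorem chi_ext {j : Qb →+* ℂ} {σ : GQ} {s : ℂ ≃+* ℂ} (h : ∀ a, s (j a) = j (σ a)) :
    chi ℂ s = cyc σ := chi_comp j (s := σ.toRingEquiv) h

theorem sim_uu {j : Qb →+* ℂ} (e : EE D η) {s : ℂ ≃+* ℂ} (h : ∀ a, s (j a) = j (sg e a)) :
    Sim s (uu e) := by
  rw [Sim, chi_ext h]; exact (at_uu e).sim

/-- an element of the group from its components -/
theorem exists_EE (σ : GQ) {u : Mi D.g Af} (h : D.At (cyc σ) (η σ) u) :
    ∃ e : EE D η, sg e = σ ∧ uu e = u := by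
  have h1 : (cyc σ⁻¹ • (-J (Fin D.g) Af * uᵀ * J (Fin D.g) Af)) * u = 1 := by
    rw [smul_mul_assoc, mul_assoc (-J _ _), mul_assoc (-J _ _), h.sim, mul_smul_comm, smul_smul,
      mul_comm (cyc _), cyc_mul_inv, one_smul, neg_mul, J_squared, neg_neg]
  exact ⟨⟨(σ, ⟨u, _, mul_eq_one_comm.1 h1, h1⟩), h⟩, rfl, rfl⟩

theorem ext_EE {e e' : EE D η} (h : sg e = sg e') (h' : uu e = uu e') : e = e' :=
  Subtype.ext (Prod.ext h (Units.ext h'))

end Vale.Agent.P022K.PM
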