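import Vale.Agent.P022K.TP.Bas

/-!
# Row PKR: Pluecker coordinates are conjugated (helper99)
-/

open Matrix

namespace Vale.Agent.P022K.TP

open P010MR P010M71 P010MT8

variable {g : ℕ} {σ : ℂ ≃+* ℂ} {u : Mi g Af} {τ τ' : Mc g} {s s' : V g → ℂ} {N M : ℕ}

theorem den_iff {x : Ix g → ℚ} : Den M x ↔ Vn 1 ((M : Af) • av x) :=
  forall_congr' fun i => by
    rw [Pi.smul_apply, smul_eq_mul, av, ← map_natCast cA, ← map_mul, rat_mem one_pos]
    simp

theorem den_of (hu : Mn 1 u) {x x' : Ix g → ℚ} (hx : Den M x) (h : Vn 1 (u *ᵥ av x - av x')) :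
    Den M x' := den_iff.2 fun i => by
  have h1 := hu.mulVec (den_iff.1 hx) i
  have h2 := Zn_mul1 (int_mem M) (h i)
  rw [mulVec_smul] at h1
  convert sub_mem h1 h2 using 1
  simp only [Pi.smul_apply, smul_eq_mul, Pi.sub_apply, Int.cast_natCast]
  ring

theorem ts_per (hs : s ∈ TS τ N) {x z : Ix g → ℚ} (hx : Den M x) (hz : Vz M z) :
    s (cq (x + z)) = s (cq x) := by
  obtain ⟨k, hk⟩ := pq_int hz hx
  have := (tr_eq_iff _).1 ((mem_TS.1 hs).2 z (Vz.mono (m := M) (by rwa [one_mul]))) (cq x)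
  rw [← cq_add, ps_cq, hk] at this
  rw [this, show ((N : ℂ) * ((k : ℚ) : ℂ)) = ((N * k : ℤ) : ℂ) by push_cast; ring, ee_int, one_mul]

/-- values of conjugate sections at points of finite level -/
theorem Cn.val (h : Cn σ u s s') (hs : s' ∈ TS τ' N) (hu : Mn 1 u) (hM : 0 < M)
    {x x' : Ix g → ℚ} (hx : Den M x) (e : Vn M (u *ᵥ av x - av x')) :
    σ (s (cq x)) = s' (cq x') := by
  obtain ⟨n, hn, h1⟩ := h x
  obtain ⟨w, hw⟩ := exists_vn (u *ᵥ av x) (Nat.mul_pos hn hM)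
  have hz : Vz M (w - x') := (vn_av hM).1 (by
    have := e.sub (hw.anti (dvd_mul_left _ _))
    rwa [sub_sub_sub_cancel_left, ← av_sub] at this)
  rw [h1 w (hw.anti (dvd_mul_right _ _)), ← add_sub_cancel x' w,
    ts_per hs (den_of hu hx (e.anti (one_dvd _))) hz]

/-- **PKR** -/
theorem pkr (g : ℕ) : PKR g := by
  intro σ τ τ' u h hu N hN
  obtain ⟨h1, h2⟩ := (P010MTh.bas_row g τ h.h).2 N hN
  have h3 : ∀ a, th N a τ ∈ TS τ N := fun a => h2 ▸ Submodule.subset_span ⟨a, rfl⟩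
  choose t ht hc using fun a => int g σ τ τ' u h hu N hN _ (h3 a)
  obtain ⟨c, hc0, h4⟩ := det_eq (P010MTh.bas_row g) h.h' hN ht
    (Fintype.linearIndependent_iff.2 fun d hd i => by
      refine (map_eq_zero_iff _ σ.symm.injective).1 (Fintype.linearIndependent_iff.1 h1
        (fun i => σ.symm (d i)) ?_ i)
      by_contra h0
      refine (Cn.sum Finset.univ fun a => (hc a).smul (σ.symm (d a))).ne
        (Submodule.sum_mem _ fun a _ => Submodule.smul_mem _ _ (h3 a)).1 h0 ?_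
      simpa using hd)
  refine ⟨c⁻¹, inv_ne_zero hc0, fun M hM x x' hx e => ?_⟩
  rw [eq_inv_mul_iff_mul_eq₀ hc0, ← h4, pk, RingEquiv.map_det]
  congr 1
  ext a b
  exact ((hc a).val (ht a) hu hM (hx b) (e b)).symm

/-- ratios of Pluecker coordinates are conjugated -/
theorem Rel.ratio (h : Rel σ τ τ' u) (hu : Mn 1 u) (hN : 0 < N) (hM : 0 < M)
    {x x' y y' : Ia g N → Ix g → ℚ} (hx : ∀ b, Den M (x b)) (hy : ∀ b, Den M (y b))
    (ex : ∀ b, Vn M (u *ᵥ av (x b) - av (x' b))) (ey : ∀ b, Vn M (u *ᵥ av (y b) - av (y' b))) :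
    σ (pk N y τ / pk N x τ) = pk N y' τ' / pk N x' τ' := by
  obtain ⟨c, hc, H⟩ := pkr g σ τ τ' u h hu N hN
  rw [H M hM x x' hx ex, H M hM y y' hy ey, map_div₀, mul_div_mul_left _ _ hc]

theorem Rel.pk_ne (h : Rel σ τ τ' u) (hu : Mn 1 u) (hN : 0 < N) (hM : 0 < M)
    {x x' : Ia g N → Ix g → ℚ} (hx : ∀ b, Den M (x b))
    (ex : ∀ b, Vn M (u *ᵥ av (x b) - av (x' b))) (h0 : pk N x τ ≠ 0) : pk N x' τ' ≠ 0 := by
  obtain ⟨c, hc, H⟩ := pkr g σ τ τ' u h hu N hN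
  rw [H M hM x x' hx ex]
  exact mul_ne_zero hc ((map_ne_zero σ).2 h0)

theorem vn_fix (hu : Mn (M * M) (u - 1)) (hM : 0 < M) {x : Ix g → ℚ} (hx : Den M x) :
    Vn M (u *ᵥ av x - av x) := fun i => (mul_mem_iff hM).1 (by
  have := hu.mulVec (den_iff.1 hx) i
  rwa [mul_one, mulVec_smul, sub_mulVec, one_mulVec] at this)

end Vale.Agent.P022K.TP
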