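import Vale.Agent.P022K.TP.Alg2
import Vale.Agent.P022K.TP.Neat
import Vale.Agent.P022K.TP.End
import Vale.Agent.P022K.TP.Conj

/-!
# The rows UNQ, END, OPN without hypotheses (helper99)
-/

namespace Vale.Agent.P022K.TP

theorem unq' (g : ℕ) : UNQ g := unq (neat g)

theorem end' (g : ℕ) : END g := end_row (neat (2 * g))

theorem opn' (g : ℕ) : OPN g := opn (conj g)

end Vale.Agent.P022K.TP
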