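import Vale.Agent.P022K.TP.Nrd
import Vale.Agent.P022K.F0.FujM

/-!
# Strong approximation for quaternion algebras: valuations, lattices, the choice of a trace
-/

open NumberField IsDedekindDomain IsDedekindDomain.HeightOneSpectrum
open scoped Quaternion

namespace Vale.Agent.P022K.TP.Sa

open F0.Fuj P011.Arith Hilb QuaternionAlgebra

section loc

variable {M : Type} [Field M] {a b : M} {w : Valuation M Z0} {γ δ : Z0} {x y : ℍ[M,a,b]}

/-- all coordinates have valuation at most `γ` -/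
def In (w : Valuation M Z0) (γ : Z0) (x : ℍ[M,a,b]) : Prop :=
  w x.re ≤ γ ∧ w x.imI ≤ γ ∧ w x.imJ ≤ γ ∧ w x.imK ≤ γ

theorem In.mono (h : In w γ x) (e : γ ≤ δ) : In w δ x :=
  ⟨h.1.trans e, h.2.1.trans e, h.2.2.1.trans e, h.2.2.2.trans e⟩

theorem In.add (h : In w γ x) (h' : In w γ y) : In w γ (x + y) :=
  ⟨w.map_add_le h.1 h'.1, w.map_add_le h.2.1 h'.2.1, w.map_add_le h.2.2.1 h'.2.2.1,
    w.map_add_le h.2.2.2 h'.2.2.2⟩

theorem In.sub (h : In w γ x) (h' : In w γ y) : In w γ (x - y) :=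
  ⟨w.map_sub_le h.1 h'.1, w.map_sub_le h.2.1 h'.2.1, w.map_sub_le h.2.2.1 h'.2.2.1,
    w.map_sub_le h.2.2.2 h'.2.2.2⟩

theorem In.star (h : In w γ x) : In w γ (star x) := by simpa [In] using h

theorem in_zero : In w γ (0 : ℍ[M,a,b]) := by simp [In]

theorem in_one : In w 1 (1 : ℍ[M,a,b]) := by simp [In]

theorem In.smul {c : M} (hc : w c ≤ δ) (h : In w γ x) : In w (δ * γ) (c • x) := by
  have k : ∀ p, w p ≤ γ → w (c * p) ≤ δ * γ := fun p hp => by
    rw [map_mul]; exact mul_le_mul' hc hp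
  exact ⟨k _ h.1, k _ h.2.1, k _ h.2.2.1, k _ h.2.2.2⟩

theorem In.mul (ha : w a ≤ 1) (hb : w b ≤ 1) (h : In w γ x) (h' : In w δ y) :
    In w (γ * δ) (x * y) := by
  have k : ∀ {p q}, w p ≤ γ → w q ≤ δ → w (p * q) ≤ γ * δ := fun hp hq => by
    rw [map_mul]; exact mul_le_mul' hp hq
  have k1 : ∀ {c p}, w c ≤ 1 → w p ≤ γ → w (c * p) ≤ γ := fun hp hq => by
    rw [map_mul]; exact mul_le_of_le_one_of_le hp hq
  have hab : w (a * b) ≤ 1 := by rw [map_mul]; exact mul_le_one' ha hb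
  obtain ⟨h1, h2, h3, h4⟩ := h
  obtain ⟨g1, g2, g3, g4⟩ := h'
  refine ⟨?_, ?_, ?_, ?_⟩ <;>
    simp only [re_mul, imI_mul, imJ_mul, imK_mul, zero_mul, add_zero, sub_zero]
  · exact w.map_sub_le (w.map_add_le (w.map_add_le (k h1 g1) (k (k1 ha h2) g2)) (k (k1 hb h3) g3))
      (k (k1 hab h4) g4)
  · exact w.map_add_le (w.map_sub_le (w.map_add_le (k h1 g2) (k h2 g1)) (k (k1 hb h3) g4))
      (k (k1 hb h4) g3)
  · exact w.map_sub_le (w.map_add_le (w.map_add_le (k h1 g3) (k (k1 ha h2) g4)) (k h3 g1))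
      (k (k1 ha h4) g2)
  · exact w.map_add_le (w.map_sub_le (w.map_add_le (k h1 g4) (k h2 g3)) (k h3 g2)) (k h4 g1)

theorem nat_le (w : Valuation M Z0) (n : ℕ) : w n ≤ 1 := natCast_mem w.integer n

theorem two_le (w : Valuation M Z0) : w 2 ≤ 1 := by simpa using nat_le w 2

theorem In.trd (h : In w γ x) : w (trd x) ≤ γ := by
  rw [F0.Fuj.trd, map_mul]
  exact mul_le_of_le_one_of_le (two_le w) h.1

theorem In.nrd (ha : w a ≤ 1) (hb : w b ≤ 1) (h : In w γ x) : w (nrd x) ≤ γ * γ := by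
  have := (h.mul ha hb h.star).1
  rwa [mul_star_eq, algebraMap_eq] at this

/-- the inverse -/
def iv (s : ℍ[M,a,b]) : ℍ[M,a,b] := (nrd s)⁻¹ • star s

theorem mul_iv (h : nrd x ≠ 0) : x * iv x = 1 := by
  rw [iv, mul_smul_comm, mul_star_eq, Algebra.smul_def, ← map_mul, inv_mul_cancel₀ h, map_one]

theorem nrd_iv (h : nrd x ≠ 0) : nrd x * nrd (iv x) = 1 := by rw [← nrd_mul, mul_iv h, nrd_one]

/-- the standard basis -/
def zz (a b : M) : Fin 4 → ℍ[M,a,b] := ![1, qi a b, qj a b, qk a b]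

theorem in_zz (z : Fin 4) : In w 1 (zz a b z) := by
  fin_cases z <;> simp [In, zz, qi, qj, qk]

/-- an approximate intertwiner -/
def sz (p x : ℍ[M,a,b]) (z : Fin 4) : ℍ[M,a,b] := p * zz a b z - zz a b z * star x

theorem sz_sum (p x : ℍ[M,a,b]) : a * b * nrd (sz p x 0) - b * nrd (sz p x 1) -
    a * nrd (sz p x 2) + nrd (sz p x 3) = a * b * (4 * nrd p + 4 * nrd x - 2 * trd x * trd p) := by
  simp [sz, zz, nrd, trd, qi, qj, qk]
  ring

theorem sz_mul (p x y z : ℍ[M,a,b]) (hp : nrd p = 1) (hx : nrd x = 1) :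
    (p * z - z * star y) * x - p * (p * z - z * star y) =
      (trd x - trd p) • (p * z) + z * star (x - y) * x - p * z * star (x - y) := by
  have h1 : z * star x * x = z := by rw [mul_assoc, star_mul_eq, hx, map_one, mul_one]
  have h2 : p * (p * z) = trd p • (p * z) - z := by
    rw [← mul_assoc, sq_eq, hp, map_one, sub_mul, smul_mul_assoc, one_mul]
  have h3 : trd x • (p * z) = p * z * x + p * z * star x := by
    rw [← mul_add, add_star_eq, Algebra.smul_def, Algebra.commutes]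
  rw [star_sub, sub_smul, h3, mul_sub p, h2, mul_sub z, sub_mul, sub_mul, h1]
  noncomm_ring

/-- local conjugation -/
theorem conj_loc (ha : w a ≤ 1) (hb : w b ≤ 1) {p : ℍ[M,a,b]} {C ε ρ : Z0} (hp : nrd p = 1)
    (hx : nrd x = 1) (hC : 1 ≤ C) (h1 : In w C p) (h2 : In w C x) (h3 : In w ε (x - y))
    (he : ε ≤ 1) (h4 : w (trd x - trd p) ≤ ε) (hρ : ρ ≤ 1)
    (h5 : ε * C * C < w (a * b * (2 * (4 - trd p ^ 2))) * ρ) :
    ∃ z, nrd (sz p y z) ≠ 0 ∧ In w ρ (sz p y z * x * iv (sz p y z) - p) := by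
  set c := w (a * b * (2 * (4 - trd p ^ 2))) with hc
  have h6 : ε * C < c :=
    ((le_mul_of_one_le_right' hC).trans_lt h5).trans_le (mul_le_of_le_one_right' hρ)
  have hab : w (a * b) ≤ 1 := by rw [map_mul]; exact mul_le_one' ha hb
  have h7 : w (a * b * (4 * nrd p + 4 * nrd y - 2 * trd y * trd p)) = c := by
    refine w.map_eq_of_sub_lt (lt_of_le_of_lt ?_ h6)
    have e1 : nrd y = 1 - trd ((x - y) * star x) + nrd (x - y) := by
      rw [← hx]; simp [nrd, trd]; ring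
    have e2 : trd y = trd x - trd (x - y) := by simp [trd]; ring
    have e : a * b * (4 * nrd p + 4 * nrd y - 2 * trd y * trd p) - a * b * (2 * (4 - trd p ^ 2)) =
        a * b * (2 * (2 * (nrd (x - y) - trd ((x - y) * star x)) -
          (trd x - trd p - trd (x - y)) * trd p)) := by
      rw [hp, e1, e2]; ring
    rw [e, map_mul, map_mul w 2]
    refine mul_le_of_le_one_of_le hab (mul_le_of_le_one_of_le (two_le w) (w.map_sub_le ?_ ?_))
    · rw [map_mul]
      exact mul_le_of_le_one_of_le (two_le w) (w.map_sub_le ((h3.nrd ha hb).trans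
        (mul_le_mul' le_rfl (he.trans hC))) (h3.mul ha hb h2.star).trd)
    · rw [map_mul]
      exact mul_le_mul' (w.map_sub_le h4 h3.trd) h1.trd
  obtain ⟨z, hz⟩ : ∃ z, c ≤ w (nrd (sz p y z)) := by
    by_contra hn
    push Not at hn
    have k : ∀ {u : M} (z), w u ≤ 1 → w (u * nrd (sz p y z)) < c := fun z hu => by
      rw [map_mul]; exact (mul_le_of_le_one_left' hu).trans_lt (hn z)
    have := w.map_add_lt (w.map_sub_lt (w.map_sub_lt (k 0 hab) (k 1 hb)) (k 2 ha)) (hn 3)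
    rw [sz_sum, h7] at this
    exact lt_irrefl _ this
  have c0 : 0 < c := zero_le.trans_lt h6
  have n0 : nrd (sz p y z) ≠ 0 := fun e => by
    rw [e, map_zero] at hz
    exact absurd c0 (not_lt.2 hz)
  refine ⟨z, n0, ?_⟩
  have e : sz p y z * x * iv (sz p y z) - p = (sz p y z * x - p * sz p y z) * iv (sz p y z) := by
    rw [sub_mul, mul_assoc p, mul_iv n0, mul_one]
  have k1 : In w C (p * zz a b z) := mul_one C ▸ h1.mul ha hb (in_zz z)
  have k2 : In w C (sz p y z) := k1.sub (one_mul C ▸ (in_zz z).mul ha hb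
    (sub_sub_cancel x y ▸ h2.sub (h3.mono (he.trans hC))).star)
  have k3 : In w (ε * C) (sz p y z * x - p * sz p y z) := by
    rw [sz, sz_mul p x y _ hp hx]
    exact ((k1.smul h4).add ((one_mul ε ▸ (in_zz z).mul ha hb h3.star).mul ha hb h2)).sub
      (mul_comm ε C ▸ k1.mul ha hb h3.star)
  have k4 : In w (c⁻¹ * C) (iv (sz p y z)) :=
    k2.star.smul (by rw [map_inv₀]; exact inv_anti₀ c0 hz)
  rw [e]
  refine (k3.mul ha hb k4).mono ?_
  rw [mul_left_comm, inv_mul_le_iff₀ c0]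
  exact h5.le

/-- one step of the Cayley transform -/
theorem cayley [CharZero M] (ha : w a ≤ 1) (hb : w b ≤ 1) (hγ : 1 ≤ γ) (h : In w γ y)
    (h1 : w (nrd y - 1) ≤ w 4 * δ) (h2 : δ < 1) : ∃ p, nrd p = 1 ∧ In w (δ * γ) (p - y) := by
  have w4 : 0 < w 4 := zero_lt_iff.2 ((Valuation.ne_zero_iff _).2 (by norm_num))
  obtain ⟨c, hc, h3⟩ : ∃ c : M, (c = 1 ∨ c = -1) ∧ w 4 ≤ w (nrd (1 + c • y)) := by
    by_contra hn
    push Not at hn
    have h4 : w (2 * (nrd y - 1)) < w 4 := by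
      rw [map_mul]
      exact (mul_le_of_le_one_of_le (two_le w) h1).trans_lt (mul_lt_of_lt_one_right w4 h2)
    have := w.map_sub_lt (w.map_add_lt (hn 1 (.inl rfl)) (hn (-1) (.inr rfl))) h4
    rw [show nrd (1 + (1 : M) • y) + nrd (1 + (-1 : M) • y) - 2 * (nrd y - 1) = 4 by
      simp [nrd]; ring] at this
    exact lt_irrefl _ this
  have c2 : c * c = 1 := by rcases hc with rfl | rfl <;> simp
  have c1 : w c ≤ 1 := by rcases hc with rfl | rfl <;> simp
  set u := 1 + c • y with hu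
  have n0 : nrd (star u) ≠ 0 := fun e => by
    rw [← nrd_star, e, map_zero] at h3
    exact absurd w4 (not_lt.2 h3)
  refine ⟨c • u * iv (star u), ?_, ?_⟩
  · rw [nrd_mul, nrd_smul, ← nrd_star u, mul_assoc, nrd_iv n0, sq, c2, mul_one]
  have e : c • u - y * star u = (-c * (nrd y - 1)) • (1 : ℍ[M,a,b]) := by
    rw [hu, star_add, star_one, QuaternionAlgebra.star_smul, mul_add, mul_smul_comm, mul_star_eq, smul_add, smul_smul,
      c2, Algebra.algebraMap_eq_smul_one, mul_one]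
    module
  have e1 : c • u * iv (star u) - y = ((-c * (nrd y - 1)) * (nrd u)⁻¹) • u := by
    conv_lhs => rw [← mul_one y, ← mul_iv n0, ← mul_assoc, ← sub_mul, e]
    rw [iv, star_star, nrd_star, smul_mul_assoc, one_mul, smul_smul]
  rw [e1]
  refine In.smul ?_ ((in_one.mono hγ).add (one_mul γ ▸ h.smul c1))
  rw [nrd_star] at n0
  rw [map_mul, map_inv₀, mul_inv_le_iff₀ (w4.trans_le h3), map_mul, Valuation.map_neg, mul_comm δ]
  exact (mul_le_of_le_one_of_le c1 h1).trans (mul_le_mul' h3 le_rfl)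

end loc

variable {M : Type} [Field M] [NumberField M] {a b : M}

/-- the finite places -/
abbrev Pv (M : Type) [Field M] [NumberField M] := HeightOneSpectrum (𝓞 M)

theorem mem_OF' {c : M} : c ∈ OF M ↔ ∀ w : Pv M, w.valuation M c ≤ 1 :=
  ⟨fun h w => w.valuation_le_one (⟨c, h⟩ : 𝓞 M), fun h => by
    obtain ⟨r, rfl⟩ := mem_integers_of_valuation_le_one M c h
    exact r.2⟩

theorem mem_O (ha : a ∈ OF M) (hb : b ∈ OF M) {x : ℍ[M,a,b]} :
    x ∈ ord (OF M) ha hb ↔ ∀ w : Pv M, In (w.valuation M) 1 x := by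
  simp only [mem_ord, mem_OF', In, forall_and]

theorem val_pos (w : Pv M) {c : M} (h : c ≠ 0) : 0 < w.valuation M c :=
  zero_lt_iff.2 ((Valuation.ne_zero_iff _).2 h)

theorem nat_pos (w : Pv M) {n : ℕ} (h : n ≠ 0) : 0 < w.valuation M n :=
  val_pos w (Nat.cast_ne_zero.2 h)

theorem small (w : Pv M) {γ : Z0} (h : γ ≠ 0) : ∃ N : ℕ, N ≠ 0 ∧ w.valuation M N < γ := by
  have h1 : w.valuation M (Ideal.absNorm w.asIdeal : ℕ) < 1 := by
    have := (w.valuation_lt_one_iff_mem (K := M) _).2 (Ideal.absNorm_mem w.asIdeal)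
    exact_mod_cast this
  obtain ⟨k, hk⟩ := exists_pow_lt₀ h1 (Units.mk0 γ h)
  exact ⟨_ ^ k, pow_ne_zero k fun h => w.ne_bot (Ideal.absNorm_eq_zero_iff.1 h), by simpa using hk⟩

theorem den {S : Set ℍ[M,a,b]} (hS : S.Finite) : ∃ K : ℕ, K ≠ 0 ∧ ∀ x ∈ S, ∀ w : Pv M,
    In (w.valuation M) (w.valuation M K)⁻¹ x := by
  obtain ⟨K, K0, h⟩ := exists_den_finite (((hS.image re).union (hS.image imI)).union
    ((hS.image imJ).union (hS.image imK)))
  refine ⟨K, K0, fun x hx w => ?_⟩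
  have k : ∀ c : M, K * c ∈ OF M → w.valuation M c ≤ (w.valuation M K)⁻¹ := fun c hc => by
    rw [← mul_one (_ : Z0)⁻¹, le_inv_mul_iff₀ (nat_pos w K0), ← map_mul]
    exact mem_OF'.1 hc w
  exact ⟨k _ (h _ (.inl (.inl ⟨x, hx, rfl⟩))), k _ (h _ (.inl (.inr ⟨x, hx, rfl⟩))),
    k _ (h _ (.inr (.inl ⟨x, hx, rfl⟩))), k _ (h _ (.inr (.inr ⟨x, hx, rfl⟩)))⟩

/-- the Chinese remainder theorem -/
theorem crt {S : Set (Pv M)} (hS : S.Finite) (x : Pv M → M) (δ : Pv M → Z0) (hδ : ∀ w, δ w ≠ 0) :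
    ∃ t : M, (∀ w ∈ S, w.valuation M (t - x w) < δ w) ∧ ∀ w ∉ S, w.valuation M t ≤ 1 := by
  classical
  obtain ⟨d, d0, hd⟩ := exists_den_finite (hS.image x)
  have d1 : (d : M) ≠ 0 := Nat.cast_ne_zero.2 d0
  have hT := hS.union (finite_valuation_ne_one (d : M) d1)
  have hk : ∀ w : Pv M, ∃ k : ℕ, WithZero.exp (-(k : ℤ)) < w.valuation M d * min 1 (δ w) :=
    fun w => WithZero.exists_exp_neg_natCast_lt (mul_pos (nat_pos w d0)
      (lt_min zero_lt_one (zero_lt_iff.2 (hδ w)))).ne'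
  choose k hk using hk
  have hu : ∀ w, ∃ u : 𝓞 M, (w ∈ S → algebraMap _ M u = d * x w) ∧ (w ∉ S → u = 0) := fun w => by
    by_cases h : w ∈ S
    exacts [⟨⟨d * x w, hd _ ⟨w, h, rfl⟩⟩, fun _ => rfl, fun h' => absurd h h'⟩,
      ⟨0, fun h' => absurd h' h, fun _ => rfl⟩]
  choose u hu hu' using hu
  obtain ⟨c, hc⟩ := IsDedekindDomain.exists_forall_sub_mem_ideal (s := hT.toFinset)
    (fun w : Pv M => w.asIdeal) k (fun w _ => w.prime)
    (fun w _ w' _ hne e => hne (HeightOneSpectrum.ext e)) fun w => u w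
  have h1 : ∀ w, w ∈ S ∨ w.valuation M d ≠ 1 →
      w.valuation M ((c - u w : 𝓞 M) / d) < min 1 (δ w) := fun w hw => by
    rw [map_div₀, div_lt_iff₀' (nat_pos w d0)]
    refine lt_of_le_of_lt ?_ (hk w)
    rw [RingOfIntegers.coe_eq_algebraMap, valuation_of_algebraMap]
    exact (intValuation_le_pow_iff_mem w _ _).2 (hc w (hT.mem_toFinset.2 hw))
  refine ⟨c / d, fun w hw => ?_, fun w hw => ?_⟩
  · have e : (c : M) / d - x w = (c - u w : 𝓞 M) / d := by
      rw [RingOfIntegers.coe_eq_algebraMap (c - u w), map_sub, hu w hw]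
      field_simp
    rw [e]
    exact (h1 w (.inl hw)).trans_le (min_le_right _ _)
  · by_cases h2 : w.valuation M d = 1
    · rw [map_div₀, h2, div_one]
      exact w.valuation_le_one c
    · have := h1 w (.inr h2)
      rw [hu' w hw, sub_zero] at this
      exact this.le.trans (min_le_left _ _)

/-- integral elements have conjugates with bounded denominators -/
theorem lat (ha : a ∈ OF M) (hb : b ∈ OF M) (hD : ∀ q : ℍ[M,a,b], q ≠ 0 → nrd q ≠ 0) :
    ∃ m : ℕ, m ≠ 0 ∧ ∀ y : ℍ[M,a,b], trd y ∈ OF M → nrd y ∈ OF M →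
      ∃ g : ℍ[M,a,b]ˣ, (m : M) • (↑g⁻¹ * y * g) ∈ ord (OF M) ha hb := by
  obtain ⟨e⟩ := exists_basis ha hb
  set O := ord (OF M) ha hb
  obtain ⟨m, m0, hm⟩ := ideal_elt e (fun g y g0 hy => by
    have h1 : (g : ℍ[M,a,b]) * y = 0 := by simpa using congrArg Subtype.val hy
    exact Subtype.ext ((isUnit_of_div hD _ fun h => g0 (Subtype.ext h)).mul_right_eq_zero.mp h1))
  refine ⟨m, m0, fun y ht hn => ?_⟩
  obtain ⟨D, D0, h1⟩ := den (Set.finite_singleton y)
  have h2 : (D : M) • y ∈ O := (mem_O ha hb).2 fun w => by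
    have := (h1 y rfl w).smul (le_refl (w.valuation M D))
    rwa [mul_inv_cancel₀ (nat_pos w D0).ne'] at this
  let L : AddSubgroup O :=
    { carrier := {l | ∃ p ∈ O, ∃ q ∈ O, (l : ℍ[M,a,b]) = (D : M) • (p + y * q)}
      zero_mem' := ⟨0, zero_mem _, 0, zero_mem _, by simp⟩
      add_mem' := by
        rintro l l' ⟨p, hp, q, hq, e⟩ ⟨p', hp', q', hq', e'⟩
        exact ⟨p + p', add_mem hp hp', q + q', add_mem hq hq', by
          rw [Subring.coe_add, e, e', mul_add]; module⟩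
      neg_mem' := by
        rintro l ⟨p, hp, q, hq, e⟩
        exact ⟨-p, neg_mem hp, -q, neg_mem hq, by rw [Subring.coe_neg, e, mul_neg]; module⟩ }
  have hL : L.index ≠ 0 := by
    obtain ⟨R, hR, h1⟩ := reps_mod e D0
    have : Finite (O ⧸ L) := by
      have := hR.to_subtype
      refine Finite.of_surjective (fun r : R => ((r : O) : O ⧸ L)) fun q => ?_
      obtain ⟨y, rfl⟩ := QuotientAddGroup.mk_surjective q
      obtain ⟨r, hr, w, rfl⟩ := h1 y
      refine ⟨⟨r, hr⟩, QuotientAddGroup.eq.mpr ?_⟩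
      rw [neg_add_cancel_left]
      exact ⟨w, w.2, 0, zero_mem _, by simp [Algebra.smul_def]⟩
    exact AddSubgroup.index_ne_zero_of_finite
  obtain ⟨g, ⟨p, hp, q, hq, hg⟩, g0, h3⟩ := hm L hL (by
    rintro l ⟨p, hp, q, hq, e⟩ z
    exact ⟨p * z, mul_mem hp z.2, q * z, mul_mem hq z.2, by
      rw [Subring.coe_mul, e, smul_mul_assoc, add_mul, mul_assoc]⟩)
  have e1 : y * g = (D : M) • (-(nrd y • q) + y * (p + trd y • q)) := by
    rw [hg, mul_smul_comm, mul_add, ← mul_assoc, sq_eq, sub_mul, ← Algebra.smul_def, mul_add,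
      mul_smul_comm, smul_mul_assoc]
    module
  have h4 := neg_mem (smul_mem_ord hn hq)
  have h5 := add_mem hp (smul_mem_ord ht hq)
  have h6 : y * g ∈ O := by
    rw [e1, smul_add, ← smul_mul_assoc]
    exact add_mem (smul_mem_ord (natCast_mem _ D) h4) (mul_mem h2 h5)
  obtain ⟨z, hz⟩ := h3 ⟨_, h6⟩ ⟨_, h4, _, h5, e1⟩
  obtain ⟨u, hu⟩ := isUnit_of_div hD g fun h => g0 (Subtype.ext h)
  refine ⟨u, ?_⟩
  have e2 : (m : M) • (y * u) = u * z := by
    rw [hu, Algebra.smul_def, map_natCast]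
    exact congrArg Subtype.val hz
  rw [mul_assoc, ← mul_smul_comm, e2, Units.inv_mul_cancel_left]
  exact z.2

/-- an element of norm one whose trace is close to a given one at `v` and to `2` elsewhere -/
theorem trace_ex (ha : a ≠ 0) (hb : b ≠ 0) (hR : ∀ φ : M →+* ℝ, 0 < φ a ∨ 0 < φ b) (v : Pv M)
    {p : ℍ[M,a,b]} (hp : nrd p = 1) (he : trd p ^ 2 - 4 ≠ 0) {μ : M} (h0 : μ ≠ 0)
    (hμ : ∀ w : Pv M, w ≠ v → w.valuation M μ ≤ 1) {ε : Z0} (hε : ε ≠ 0) :
    ∃ x : ℍ[M,a,b], nrd x = 1 ∧ v.valuation M (trd x - trd p) < ε ∧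
      ∀ w : Pv M, w ≠ v → w.valuation M (trd x - 2) ≤ w.valuation M μ ^ 2 := by
  classical
  have four_ne_zero : (4 : M) ≠ 0 := by norm_num
  choose π hπ using fun w : Pv M => w.valuation_exists_uniformizer M
  have π0 : ∀ w, π w * (4 * μ) ^ 2 ≠ 0 := fun w => mul_ne_zero
    (fun h => by simpa [h] using (hπ w).symm) (pow_ne_zero 2 (mul_ne_zero four_ne_zero h0))
  have hS := ((Set.finite_singleton v).union (finite_valuation_ne_one μ h0)).union
    ((finite_valuation_ne_one (2 : M) two_ne_zero).union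
      ((finite_valuation_ne_one a ha).union (finite_valuation_ne_one b hb)))
  set C := max 1 (v.valuation M (trd p)) with hC
  have C0 : 0 < C := zero_lt_one.trans_le (le_max_left _ _)
  set c := v.valuation M 4 * v.valuation M (trd p ^ 2 - 4) with hc
  have c0 : 0 < c := mul_pos (val_pos v four_ne_zero) (val_pos v he)
  obtain ⟨t, h1, h2⟩ := crt hS (fun w => if w = v then trd p else 2 + π w * (4 * μ) ^ 2)
    (fun w => if w = v then min ε (min 1 (c / C)) else w.valuation M (π w * (4 * μ) ^ 2))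
    (fun w => by
      split_ifs
      exacts [(lt_min (zero_lt_iff.2 hε) (lt_min zero_lt_one (div_pos c0 C0))).ne',
        (val_pos w (π0 w)).ne'])
  have h3 := h1 v (.inl (.inl rfl))
  simp only [if_true, lt_min_iff] at h3
  have h4 : v.valuation M (t ^ 2 - 4 - (trd p ^ 2 - 4)) < c := by
    rw [show t ^ 2 - 4 - (trd p ^ 2 - 4) = (t - trd p) * (t - trd p + trd p + trd p) by ring,
      map_mul]
    refine lt_of_le_of_lt (mul_le_mul' le_rfl (Valuation.map_add_le _ (Valuation.map_add_le _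
      (h3.2.1.le.trans (le_max_left _ _)) (le_max_right _ _)) (le_max_right _ _))) ?_
    exact (lt_div_iff₀ C0).1 h3.2.2
  have h5 : v.valuation M (t ^ 2 - 4) = v.valuation M (trd p ^ 2 - 4) :=
    Valuation.map_eq_of_sub_lt _ (h4.trans_le (mul_le_of_le_one_left' (val_four_le _)))
  have h6 : t ^ 2 - 4 * 1 ≠ 0 := fun h => by
    rw [mul_one] at h
    rw [h, map_zero] at h5
    exact (val_pos v he).ne h5
  have h7 : ∀ w ∈ _, w ≠ v → w.valuation M (t - 2) = w.valuation M (π w * (4 * μ) ^ 2) :=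
    fun w hw hv => Valuation.map_eq_of_sub_lt _ (by
      have := h1 w hw
      rwa [if_neg hv, if_neg hv, ← sub_sub] at this)
  have h8 : ∀ w : Pv M, w.valuation M (π w) < 1 := fun w => by
    rw [hπ, ← WithZero.exp_zero, WithZero.exp_lt_exp]; decide
  obtain ⟨x, rfl, hx⟩ := emb_ex ha hb h6 (by
    rintro (w | φ) hw
    swap
    · exact real_iff.2 (hR φ)
    by_cases hv : w = v
    · subst hv
      have he' : trd p ^ 2 - 4 * nrd p ≠ 0 := by rwa [hp, mul_one]
      refine split_of ha hb p he' (p := .inl w) (Sch.LS_of_near hw ?_)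
      simp only [Units.val_mk0, hp, mul_one]
      rwa [h5, Valuation.map_sub_swap]
    by_cases hw' : w ∈ ({v} ∪ {w : Pv M | w.valuation M μ ≠ 1}) ∪ ({w | w.valuation M 2 ≠ 1} ∪
      ({w | w.valuation M a ≠ 1} ∪ {w | w.valuation M b ≠ 1}))
    · exfalso
      obtain ⟨y, hy⟩ := LS_even hw
      have e1 : w.valuation M (t + 2) = w.valuation M 4 := Valuation.map_eq_of_sub_lt _ (by
        rw [show t + 2 - 4 = t - 2 by ring, h7 w hw' hv, show π w * (4 * μ) ^ 2 =
          4 * (π w * (4 * (μ * μ))) by ring, map_mul, map_mul, map_mul, map_mul]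
        exact mul_lt_of_lt_one_right (val_pos w four_ne_zero) ((mul_le_of_le_one_right'
          (mul_le_one' (val_four_le _) (mul_le_one' (hμ w hv) (hμ w hv)))).trans_lt (h8 w)))
      rw [Units.val_mk0, show t ^ 2 - 4 * 1 = (t - 2) * (t + 2) by ring, map_mul, h7 w hw' hv, e1,
        ← map_mul, show π w * (4 * μ) ^ 2 * 4 = π w * (8 * μ) ^ 2 by ring, map_mul, map_pow,
        hπ] at hy
      have e2 := congrArg WithZero.log hy
      rw [WithZero.log_mul WithZero.exp_ne_zero (pow_ne_zero 2 (val_pos w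
        (mul_ne_zero (by norm_num) h0)).ne'), WithZero.log_pow, WithZero.log_pow,
        WithZero.log_exp] at e2
      simp only [nsmul_eq_mul, Nat.cast_ofNat] at e2
      omega
    · simp only [Set.mem_union, Set.mem_ofPred_eq, not_or, not_not] at hw'
      exact unit_norm w hw'.2.1 _ _ hw'.2.2.1 hw'.2.2.2)
  refine ⟨x, hx, h3.1, fun w hv => ?_⟩
  by_cases hw : w.valuation M μ = 1
  · rw [hw, one_pow]
    by_cases hw' : w ∈ ({v} ∪ {w : Pv M | w.valuation M μ ≠ 1}) ∪ ({w | w.valuation M 2 ≠ 1} ∪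
      ({w | w.valuation M a ≠ 1} ∪ {w | w.valuation M b ≠ 1}))
    · rw [h7 w hw' hv, map_mul, map_pow, map_mul, hw, mul_one]
      exact mul_le_one' (h8 w).le (pow_le_one' (val_four_le _) 2)
    · exact Valuation.map_sub_le _ (h2 w hw') (two_le _)
  · rw [h7 w (.inl (.inr hw)) hv, mul_pow, ← mul_assoc, map_mul, map_mul, map_pow, map_pow]
    exact mul_le_of_le_one_left' (mul_le_one' (h8 w).le (pow_le_one' (val_four_le _) 2))

end Vale.Agent.P022K.TP.Sa
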