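import Vale.Agent.P022K.TP.Sa0

/-!
# Strong approximation for the elements of norm one of an indefinite quaternion division algebra
-/

open NumberField IsDedekindDomain IsDedekindDomain.HeightOneSpectrum
open scoped Quaternion

namespace Vale.Agent.P022K.TP.Sa

open F0.Fuj P011.Arith Hilb QuaternionAlgebra

variable {M : Type} [Field M] [NumberField M] {a b : M}

omit [NumberField M] in
theorem ne_of_div (hD : ∀ q : ℍ[M,a,b], q ≠ 0 → nrd q ≠ 0) : a ≠ 0 ∧ b ≠ 0 :=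
  ⟨fun h => hD (qi a b) (fun e => by simpa [qi] using congrArg imI e) (by simp [nrd, qi, h]),
    fun h => hD (qj a b) (fun e => by simpa [qj] using congrArg imJ e) (by simp [nrd, qj, h])⟩

/-- approximation at one place -/
theorem core (ha : a ∈ OF M) (hb : b ∈ OF M) (hD : ∀ q : ℍ[M,a,b], q ≠ 0 → nrd q ≠ 0)
    (hR : ∀ φ : M →+* ℝ, 0 < φ a ∨ 0 < φ b) (v : Pv M) {p : ℍ[M,a,b]} (hp : nrd p = 1)
    (he : trd p ^ 2 - 4 ≠ 0) {n : ℕ} (hn : n ≠ 0) :
    ∃ γ : ℍ[M,a,b], nrd γ = 1 ∧ In (v.valuation M) (v.valuation M n) (γ - p) ∧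
      ∀ w : Pv M, w ≠ v → In (w.valuation M) (w.valuation M n) (γ - 1) := by
  classical
  obtain ⟨a0, b0⟩ := ne_of_div hD
  have ha' := mem_OF'.1 ha
  have hb' := mem_OF'.1 hb
  obtain ⟨m, m0, hm⟩ := lat ha hb hD
  have m1 : (m : M) ≠ 0 := Nat.cast_ne_zero.2 m0
  obtain ⟨e⟩ := exists_basis ha hb
  obtain ⟨D, D0, h1⟩ := den (Set.finite_singleton p)
  replace h1 := h1 p rfl v
  set V := (v.valuation M D)⁻¹ with hV
  have V1 : 1 ≤ V := (one_le_inv₀ (nat_pos v D0)).2 (nat_le _ D)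
  set U := (v.valuation M m)⁻¹ with hU
  have U1 : 1 ≤ U := (one_le_inv₀ (nat_pos v m0)).2 (nat_le _ m)
  have VC : V ≤ V * U := le_mul_of_one_le_right' U1
  have C1 : 1 ≤ V * U := V1.trans VC
  have C0 : 0 < V * U := zero_lt_one.trans_le C1
  set c := v.valuation M (a * b * (2 * (4 - trd p ^ 2))) * v.valuation M n with hc
  have c0 : 0 < c := mul_pos (val_pos v (mul_ne_zero (mul_ne_zero a0 b0) (mul_ne_zero two_ne_zero
    fun h => he (by rw [← neg_sub, h, neg_zero])))) (nat_pos v hn)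
  obtain ⟨N, N0, hN⟩ := small v (lt_min (div_pos zero_lt_one C0)
    (div_pos (div_pos (div_pos c0 C0) C0) C0)).ne'
  rw [lt_min_iff, lt_div_iff₀ C0, lt_div_iff₀ C0, lt_div_iff₀ C0, lt_div_iff₀ C0] at hN
  obtain ⟨R, hR0, h2⟩ := reps_mod e N0
  let xc : ord (OF M) ha hb → ℍ[M,a,b] := fun r => 1 + ((D : M)⁻¹ * (m : M)⁻¹) • (r : ℍ[M,a,b])
  have hT := (hR0.prod Set.finite_univ).image fun q : _ × Fin 4 => sz p (xc q.1) q.2
  obtain ⟨K, K0, hK⟩ := den (hT.union (hT.image iv))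
  have n1 : ((n * m * K * K : ℕ) : M) ≠ 0 := by positivity
  obtain ⟨μ, h3, h4⟩ := crt ((Set.finite_singleton v).union (finite_valuation_ne_one _ n1))
    (fun w => if w = v then (D : M)⁻¹ else 0)
    (fun w => if w = v then v.valuation M N else w.valuation M (n * m * K * K : ℕ)) (fun w => by
      split_ifs
      exacts [(nat_pos v N0).ne', (val_pos w n1).ne'])
  have h5 := h3 v (.inl rfl)
  simp only [if_true] at h5
  have h6 : v.valuation M μ = V := by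
    rw [hV, ← map_inv₀]
    exact Valuation.map_eq_of_sub_lt _ (h5.trans_le ((nat_le _ N).trans (by rwa [map_inv₀])))
  have μ0 : μ ≠ 0 := fun h => by
    rw [h, map_zero] at h6
    exact (zero_lt_one.trans_le V1).ne h6
  have h7 : ∀ w : Pv M, w ≠ v → w.valuation M μ ≤ w.valuation M (n * m * K * K : ℕ) :=
    fun w hw => by
      by_cases h : w.valuation M (n * m * K * K : ℕ) = 1
      · rw [h]
        exact h4 w (by rintro (h' | h'); exacts [hw h', h' h])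
      · have := h3 w (.inr h)
        rw [if_neg hw, if_neg hw, sub_zero] at this
        exact this.le
  have h8 := fun w hw => (h7 w hw).trans (nat_le _ _)
  obtain ⟨x, hx, h9, h10⟩ := trace_ex a0 b0 hR v hp he μ0 h8 (nat_pos v N0).ne'
  have h11 : ∀ w : Pv M, w.valuation M (trd x - 2) ≤ w.valuation M μ ∧
      w.valuation M (trd x - 2) ≤ w.valuation M μ ^ 2 := fun w => by
    by_cases hw : w = v
    · subst hw
      have : w.valuation M (trd x - 2) ≤ V := by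
        rw [show trd x - 2 = trd x - trd p + trd p - 2 by ring]
        exact Valuation.map_sub_le _ (Valuation.map_add_le _ ((h9.le.trans (nat_le _ N)).trans V1)
          h1.trd) ((two_le _).trans V1)
      rw [h6, sq]
      exact ⟨this, this.trans (le_mul_of_one_le_right' V1)⟩
    · exact ⟨(h10 w hw).trans (by rw [sq]; exact mul_le_of_le_one_right' (h8 w hw)), h10 w hw⟩
  obtain ⟨g, hg⟩ := hm (μ⁻¹ • (x - 1)) (mem_OF'.2 fun w => by
    rw [trd_smul, map_mul, map_inv₀, inv_mul_le_one₀ (val_pos w μ0),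
      show trd (x - 1) = trd x - 2 by simp [trd]; ring]
    exact (h11 w).1) (mem_OF'.2 fun w => by
    rw [nrd_smul, map_mul, inv_pow, map_inv₀, inv_mul_le_one₀ (val_pos w (pow_ne_zero 2 μ0)),
      show nrd (x - 1) = -(trd x - 2) by
        rw [show nrd (x - 1) = nrd x - trd x + 1 by simp [nrd, trd]; ring, hx]; ring,
      Valuation.map_neg, map_pow]
    exact (h11 w).2)
  obtain ⟨y, hy⟩ : ∃ y, y = (m : M) • (↑g⁻¹ * (μ⁻¹ • (x - 1)) * g : ℍ[M,a,b]) := ⟨_, rfl⟩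
  rw [← hy] at hg
  have e1 : (↑g⁻¹ * x * g : ℍ[M,a,b]) - 1 = (μ * (m : M)⁻¹) • y := by
    rw [hy, mul_smul_comm, smul_mul_assoc, smul_smul, smul_smul, mul_sub, sub_mul, mul_one,
      Units.inv_mul, show μ * (m : M)⁻¹ * m * μ⁻¹ = 1 by field_simp, one_smul]
  have e2 := nrd_conj g⁻¹ x
  have e3 := trd_conj g⁻¹ x
  rw [inv_inv] at e2 e3
  generalize (↑g⁻¹ * x * g : ℍ[M,a,b]) = x' at e1 e2 e3
  obtain ⟨r, hr, u, hu⟩ := h2 ⟨y, hg⟩
  have hu' : y = r + (N : M) • (u : ℍ[M,a,b]) := by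
    rw [Algebra.smul_def, map_natCast]
    exact congrArg Subtype.val hu
  have hy1 := (mem_O ha hb).1 hg
  have e4 : x' - xc r = ((μ - (D : M)⁻¹) * (m : M)⁻¹) • y +
      ((N : M) * ((D : M)⁻¹ * (m : M)⁻¹)) • (u : ℍ[M,a,b]) := by
    rw [sub_eq_iff_eq_add.1 e1, hu']
    simp only [xc]
    module
  obtain ⟨z, z0, hz⟩ := conj_loc (x := x') (y := xc r) (ha' v) (hb' v) hp (e2.trans hx) C1
    (h1.mono VC) (ε := v.valuation M N * (V * U)) (by
      rw [sub_eq_iff_eq_add.1 e1]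
      exact (mul_one (V * U) ▸ (hy1 v).smul (by rw [map_mul, h6, map_inv₀])).add (in_one.mono C1))
    (by
      rw [e4, ← mul_one (_ * (V * U))]
      refine ((hy1 v).smul ?_).add (((mem_O ha hb).1 u.2 v).smul ?_)
      · rw [map_mul, map_inv₀]
        exact mul_le_mul' h5.le (le_mul_of_one_le_left' V1)
      · rw [map_mul, map_mul, map_inv₀, map_inv₀])
    hN.1.le (by rw [e3]; exact h9.le.trans (le_mul_of_one_le_right' C1)) (nat_le _ n) hN.2
  have k1 := hK _ (.inl ⟨(r, z), ⟨hr, trivial⟩, rfl⟩)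
  have k2 := hK _ (.inr ⟨_, ⟨(r, z), ⟨hr, trivial⟩, rfl⟩, rfl⟩)
  simp only at k1 k2
  generalize sz p (xc r) z = s at *
  refine ⟨s * x' * iv s, by rw [nrd_mul, nrd_mul, e2, hx, mul_one, nrd_iv z0], hz, fun w hw => ?_⟩
  rw [← mul_iv z0, ← sub_mul, ← mul_sub_one, e1]
  refine (((k1 w).mul (ha' w) (hb' w) ((hy1 w).smul (δ := w.valuation M (n * K * K : ℕ)) ?_)).mul
    (ha' w) (hb' w) (k2 w)).mono (le_of_eq ?_)
  · rw [map_mul, map_inv₀, mul_inv_le_iff₀ (nat_pos w m0), ← map_mul, ← Nat.cast_mul,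
      show n * K * K * m = n * m * K * K by ring]
    exact h7 w hw
  · have := (nat_pos w K0).ne'
    rw [Nat.cast_mul, Nat.cast_mul, map_mul, map_mul]
    field_simp

/-- families that can be approximated by elements of norm one -/
def Ap (f : Pv M → ℍ[M,a,b]) : Prop := ∀ n : ℕ, n ≠ 0 → ∃ γ : ℍ[M,a,b], nrd γ = 1 ∧
  ∀ w : Pv M, In (w.valuation M) (w.valuation M n) (γ - f w)

theorem inv_mono (w : Pv M) {d e : ℕ} (he : e ≠ 0) (h : d ∣ e) :
    (w.valuation M d)⁻¹ ≤ (w.valuation M e)⁻¹ := by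
  obtain ⟨k, rfl⟩ := h
  refine inv_anti₀ (nat_pos w he) ?_
  rw [Nat.cast_mul, map_mul]
  exact mul_le_of_le_one_right' (nat_le _ k)

theorem Ap.bd {f : Pv M → ℍ[M,a,b]} (h : Ap f) : ∃ d : ℕ, d ≠ 0 ∧ ∀ w : Pv M,
    In (w.valuation M) (w.valuation M d)⁻¹ (f w) := by
  obtain ⟨γ, -, h1⟩ := h 1 one_ne_zero
  obtain ⟨d, d0, h2⟩ := den (Set.finite_singleton γ)
  exact ⟨d, d0, fun w => sub_sub_cancel γ (f w) ▸ (h2 γ rfl w).sub ((h1 w).mono
    ((nat_le _ 1).trans ((one_le_inv₀ (nat_pos w d0)).2 (nat_le _ d))))⟩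

theorem Ap.mul (ha : a ∈ OF M) (hb : b ∈ OF M) {f g : Pv M → ℍ[M,a,b]} (h : Ap f) (h' : Ap g) :
    Ap (f * g) := fun n hn => by
  obtain ⟨d, d0, hd⟩ := h.bd
  obtain ⟨e, e0, he⟩ := h'.bd
  have k0 := mul_ne_zero d0 e0
  obtain ⟨γ, h1, h2⟩ := h _ (mul_ne_zero hn k0)
  obtain ⟨δ, h3, h4⟩ := h' _ (mul_ne_zero hn k0)
  refine ⟨γ * δ, by rw [nrd_mul, h1, h3, mul_one], fun w => ?_⟩
  have ha' := mem_OF'.1 ha w
  have hb' := mem_OF'.1 hb w
  have e1 : w.valuation M (n * (d * e) : ℕ) * (w.valuation M (d * e : ℕ))⁻¹ = w.valuation M n := by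
    rw [Nat.cast_mul, map_mul, mul_inv_cancel_right₀ (nat_pos w k0).ne']
  rw [show γ * δ - (f * g) w = (γ - f w) * (δ - g w) + (γ - f w) * g w + f w * (δ - g w) by
    rw [Pi.mul_apply]; noncomm_ring, ← e1]
  exact (((h2 w).mul ha' hb' ((h4 w).mono ((nat_le _ _).trans ((one_le_inv₀ (nat_pos w k0)).2
    (nat_le _ _))))).add ((h2 w).mul ha' hb' ((he w).mono (inv_mono w k0 (dvd_mul_left _ _))))).add
    (mul_comm (w.valuation M (d * e : ℕ))⁻¹ _ ▸
      ((hd w).mono (inv_mono w k0 (dvd_mul_right _ _))).mul ha' hb' (h4 w))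

theorem ap_one : Ap (1 : Pv M → ℍ[M,a,b]) := fun _ _ =>
  ⟨1, nrd_one, fun _ => by rw [Pi.one_apply, sub_self]; exact in_zero⟩

open Classical in
theorem ap_single (ha : a ∈ OF M) (hb : b ∈ OF M) (hD : ∀ q : ℍ[M,a,b], q ≠ 0 → nrd q ≠ 0)
    (hR : ∀ φ : M →+* ℝ, 0 < φ a ∨ 0 < φ b) (v : Pv M) {p : ℍ[M,a,b]} (hp : nrd p = 1) :
    Ap (Pi.mulSingle v p : Pv M → ℍ[M,a,b]) := by
  have k : ∀ p : ℍ[M,a,b], nrd p = 1 → trd p ^ 2 - 4 ≠ 0 →
      Ap (Pi.mulSingle v p : Pv M → ℍ[M,a,b]) := fun p hp he n hn => by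
    obtain ⟨γ, h1, h2, h3⟩ := core ha hb hD hR v hp he hn
    refine ⟨γ, h1, fun w => ?_⟩
    by_cases hw : w = v
    · rwa [hw, Pi.mulSingle_eq_same]
    · rw [Pi.mulSingle_eq_of_ne hw]
      exact h3 w hw
  by_cases he : trd p ^ 2 - 4 = 0
  swap
  · exact k p hp he
  have a0 := (ne_of_div hD).1
  have a1 : 1 - a ≠ 0 := by
    simpa [nrd] using hD ⟨1, 1, 0, 0⟩ fun e => by simpa using congrArg re e
  have h1 : p = p.re • 1 := by
    by_contra h
    refine hD _ (sub_ne_zero.2 h) ?_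
    simp only [nrd, trd] at he hp
    simp [nrd]
    linear_combination hp - (1 / 4 : M) * he
  have h2 : p.re ^ 2 = 1 := by
    simp only [trd] at he
    linear_combination (1 / 4 : M) * he
  let c : ℍ[M,a,b] := ⟨(1 + a) / (1 - a), 2 / (1 - a), 0, 0⟩
  have hc : nrd c = 1 := by
    simp only [nrd, c]
    field_simp
    ring
  have hc' : trd c ^ 2 - 4 ≠ 0 := by
    rw [show trd c ^ 2 - 4 = 16 * a / (1 - a) ^ 2 by simp only [trd, c]; field_simp; ring]
    exact div_ne_zero (mul_ne_zero (by norm_num) a0) (pow_ne_zero 2 a1)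
  have := (k c hc hc').mul ha hb (k (p.re • star c) (by rw [nrd_smul, nrd_star, hc, h2, mul_one])
    (by rwa [trd_smul, trd_star, mul_pow, h2, one_mul]))
  rwa [← Pi.mulSingle_mul, mul_smul_comm, mul_star_eq, hc, map_one, ← h1] at this

theorem ap_fin (ha : a ∈ OF M) (hb : b ∈ OF M) (hD : ∀ q : ℍ[M,a,b], q ≠ 0 → nrd q ≠ 0)
    (hR : ∀ φ : M →+* ℝ, 0 < φ a ∨ 0 < φ b) {S : Set (Pv M)} (hS : S.Finite)
    (f : Pv M → ℍ[M,a,b]) (h1 : ∀ w, nrd (f w) = 1) (h2 : ∀ w ∉ S, f w = 1) : Ap f := by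
  classical
  induction S, hS using Set.Finite.induction_on generalizing f with
  | empty => exact (funext fun w => h2 w (by simp) : f = 1) ▸ ap_one
  | @insert v S _ _ ih =>
    have := (ap_single ha hb hD hR v (h1 v)).mul ha hb (ih (Function.update f v 1) (fun w => by
      by_cases hw : w = v
      · rw [hw, Function.update_self, nrd_one]
      · rw [Function.update_of_ne hw, h1]) fun w hw => by
      by_cases hv : w = v
      · rw [hv, Function.update_self]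
      · rw [Function.update_of_ne hv, h2 w (by simp [hv, hw])])
    convert this using 1
    funext w
    by_cases hw : w = v
    · simp [hw]
    · simp [hw]

/-- strong approximation, global form -/
theorem sa_glob (ha : a ∈ OF M) (hb : b ∈ OF M) (hD : ∀ q : ℍ[M,a,b], q ≠ 0 → nrd q ≠ 0)
    (hR : ∀ φ : M →+* ℝ, 0 < φ a ∨ 0 < φ b) {d n : ℕ} (hd : d ≠ 0) (hn : n ≠ 0) {y : ℍ[M,a,b]}
    (h1 : ∀ w : Pv M, In (w.valuation M) (w.valuation M d)⁻¹ y)
    (h2 : ∀ w : Pv M, w.valuation M (nrd y - 1) ≤ w.valuation M (4 * (n * d) : ℕ)) :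
    ∃ β : ℍ[M,a,b], nrd β = 1 ∧ ∀ w : Pv M, In (w.valuation M) (w.valuation M n) (β - y) := by
  have k : ∀ w : Pv M, ∃ p : ℍ[M,a,b], nrd p = 1 ∧ (w.valuation M (n * d : ℕ) = 1 → p = 1) ∧
      In (w.valuation M) (w.valuation M n) (p - y) := fun w => by
    have e : w.valuation M (n * d : ℕ) * (w.valuation M d)⁻¹ = w.valuation M n := by
      rw [Nat.cast_mul, map_mul, mul_inv_cancel_right₀ (nat_pos w hd).ne']
    have e1 : 1 ≤ (w.valuation M d)⁻¹ := (one_le_inv₀ (nat_pos w hd)).2 (nat_le _ _)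
    by_cases h : w.valuation M (n * d : ℕ) = 1
    · rw [h, one_mul] at e
      exact ⟨1, nrd_one, fun _ => rfl, e ▸ (in_one.mono e1).sub (h1 w)⟩
    · obtain ⟨p, hp, h3⟩ := cayley (mem_OF'.1 ha w) (mem_OF'.1 hb w) e1 (h1 w)
        (by simpa using h2 w) (lt_of_le_of_ne (nat_le _ (n * d)) h)
      exact ⟨p, hp, fun h' => absurd h' h, e ▸ h3⟩
  choose f f1 f2 f3 using k
  obtain ⟨β, h3, h4⟩ := ap_fin ha hb hD hR (finite_valuation_ne_one ((n * d : ℕ) : M)
    (by positivity)) f f1 (fun w hw => f2 w (not_not.1 hw)) n hn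
  exact ⟨β, h3, fun w => sub_add_sub_cancel β (f w) y ▸ (h4 w).add (f3 w)⟩

end Vale.Agent.P022K.TP.Sa
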