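import Vale.Agent.P022K.TP.Qd
import Vale.Agent.P022K.TP.End
import Vale.Agent.P022K.TP.Neat
import Vale.Agent.P022K.TP.Conj

/-!
# Row TRANS: the conjugate of a point of the locus is a point of the locus
-/

open NumberField Matrix Quaternion

noncomputable section

namespace Vale.Agent.P022K.PM

open Vale.Agent.P022 Vale.Agent.P010MR Vale.Agent.P010MT8
open Vale.Agent.P022K.TP

/-- strong approximation for the datum -/
def SAD (D : QD) : Prop := ∀ h : Mi D.g Af, Sim 1 h →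
  (∀ z, h * am (D.rm z) = am (D.rm z) * h) → ∀ n, 0 < n →
    ∃ b, D.nrd b = 1 ∧ Mn n (am (D.lm b) * h - 1)

variable {D : QD} {η : GQ →* ℤˣ}

theorem exists_cont_r {m m' m'' : Type} [Fintype m'] [Finite m''] (u : Matrix m' m'' Af) :
    ∃ d, 0 < d ∧ ∀ n (x : Matrix m m' Af), Mn (d * n) x → Mn n (x * u) := by
  obtain ⟨d, hd, h⟩ := exists_den_fin fun p : m' × m'' => u p.1 p.2
  refine ⟨d, hd, fun n x hx i k => ?_⟩
  rw [Matrix.mul_apply]
  exact sum_mem fun j _ => by rw [mul_comm]; exact mul_den hd (h (j, k)) (hx i j)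

/-- the Hasse principle for the pair (module, form) -/
theorem desc {h : Mi D.g Af} (hs : Sim 1 h) {r : D.B → Mi D.g ℚ}
    (hr : ∀ b, h * am (D.rm b) = am (r b) * h) :
    ∃ γ : Sp D.g ℚ, ∀ b, γ.1 * r b = D.rm b * γ.1 := by
  have h1 := hs.mul_ui
  have h2 := hs.ui_mul
  have hJ : hᵀ * J (Fin D.g) Af * h = J (Fin D.g) Af := by simpa [Sim] using hs
  generalize ui 1 h = k at h1 h2
  have e : ∀ b, am (r b) = h * am (D.rm b) * k := fun b => by rw [hr, mul_assoc, h1, mul_one]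
  have r1 : r 1 = 1 := am_inj (by rw [e, D.rm_one, am_one, mul_one, h1])
  have rm : ∀ a b, r (a * b) = r b * r a := fun a b => am_inj (by
    rw [am_mul, e, e, e, D.rm_mul, am_mul, mul_assoc _ k, ← mul_assoc k, ← mul_assoc k, h2,
      one_mul, ← mul_assoc, ← mul_assoc])
  have ra : ∀ a b, r (a + b) = r a + r b := fun a b => am_inj (by
    rw [am_add, e, e, e, D.rm_add, am_add, mul_add, add_mul])
  have rs : ∀ (q : ℚ) b, r (q • b) = q • r b := fun q b => am_inj (by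
    rw [am_smul, e, e, D.rm_smul, am_smul, mul_smul_comm, smul_mul_assoc])
  have rj : ∀ z z', z' * D.δ = D.δ * star z →
      (r z)ᵀ * J (Fin D.g) ℚ = J (Fin D.g) ℚ * r z' := fun z z' hz => am_inj (by
    have h3 := congrArg am (D.rm_adj hz)
    have h4 : hᵀ * J (Fin D.g) Af = J (Fin D.g) Af * k := by
      conv_rhs => rw [← hJ, mul_assoc, h1, mul_one]
    have h5 : kᵀ * J (Fin D.g) Af = J (Fin D.g) Af * h := by
      conv_lhs => rw [← hJ, ← mul_assoc, ← mul_assoc, ← transpose_mul, h1, transpose_one, one_mul]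
    rw [am_mul, am_mul, am_tr, am_J] at h3 ⊢
    rw [e, e, transpose_mul, transpose_mul, mul_assoc, mul_assoc, h4, ← mul_assoc _ (J _ _), h3,
      ← mul_assoc, ← mul_assoc, h5]
    simp only [mul_assoc])
  let φ : D.B →ₗ[ℚ] (Ix D.g → ℚ) :=
    { toFun := fun x => r x *ᵥ D.e 1
      map_add' := fun x y => by rw [ra, add_mulVec]
      map_smul' := fun q x => by rw [rs, smul_mulVec]; rfl }
  let Φ : Mi D.g ℚ := LinearMap.toMatrix' (φ ∘ₗ D.e.symm.toLinearMap)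
  have hΦ : ∀ x, Φ *ᵥ D.e x = r x *ᵥ D.e 1 := fun x => by
    simp [Φ, φ, LinearMap.toMatrix'_mulVec]
  have hu : IsUnit Φ.det := isUnit_iff_ne_zero.2 fun h0 => by
    obtain ⟨v, hv, h3⟩ := exists_mulVec_eq_zero_iff.2 h0
    obtain ⟨x, rfl⟩ := D.e.surjective v
    obtain ⟨y, rfl⟩ := D.isUnit_of_ne (y := x) fun h => hv (by rw [h, map_zero])
    have := congrArg (r (y⁻¹ : D.Bˣ) *ᵥ ·) h3
    simp only [hΦ, mulVec_mulVec, ← rm, Units.mul_inv, r1, one_mulVec, mulVec_zero,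
      D.e.map_eq_zero_iff] at this
    exact one_ne_zero this
  have hc : ∀ b, Φ * D.rm b = r b * Φ := fun b => D.ext_e fun x => by
    rw [← mulVec_mulVec, ← mulVec_mulVec, D.rm_ap, hΦ, hΦ, mulVec_mulVec, rm]
  have hi := mul_nonsing_inv Φ hu
  have hi' := nonsing_inv_mul Φ hu
  have hJJ : ∀ X : Mi D.g ℚ, J (Fin D.g) ℚ * (-J (Fin D.g) ℚ * X) = X := fun X => by
    rw [← mul_assoc, mul_neg, J_squared, neg_neg, one_mul]
  have hJi : ∀ X Y : Mi D.g ℚ, J (Fin D.g) ℚ * X = J (Fin D.g) ℚ * Y → X = Y := fun X Y h => by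
    have := congrArg (J (Fin D.g) ℚ * ·) h
    simpa [← mul_assoc, J_squared] using this
  obtain ⟨c, hA⟩ := D.cent (X := -J (Fin D.g) ℚ * (Φᵀ * J (Fin D.g) ℚ * Φ)) fun z' => by
    obtain ⟨z, hz⟩ := D.exists_adj' z'
    refine hJi _ _ ?_
    rw [← mul_assoc, hJJ, ← mul_assoc, ← D.rm_adj hz, mul_assoc (D.rm z)ᵀ, hJJ, ← mul_assoc,
      ← mul_assoc, ← transpose_mul, hc, transpose_mul, mul_assoc Φᵀ (r z)ᵀ, rj z z' hz, mul_assoc,
      hc]
    simp only [mul_assoc]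
  have hA' : Φᵀ * J (Fin D.g) ℚ * Φ = J (Fin D.g) ℚ * D.lm c := by rw [← hA, hJJ]
  have hst : star c = c := D.lm_inj (hJi _ _ (by
    have := congrArg transpose hA'
    rw [transpose_mul, transpose_mul, transpose_mul, transpose_transpose, J_transpose, neg_mul,
      mul_neg, mul_neg, ← mul_assoc, hA', D.lm_adj] at this
    exact (neg_injective this).symm))
  have hm : c = D.sc c.re := QuaternionAlgebra.star_eq_self.1 hst
  have hγ : ∀ x : D.B, D.nrd x = c.re → (D.lm x * Φ⁻¹)ᵀ * J (Fin D.g) ℚ * (D.lm x * Φ⁻¹) =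
      J (Fin D.g) ℚ := fun x hx => by
    rw [transpose_mul, mul_assoc, mul_assoc, ← mul_assoc (J _ _), ← mul_assoc (D.lm x)ᵀ,
      ← mul_assoc (D.lm x)ᵀ, D.lm_form, hx, ← hm, ← hA', mul_assoc, hi, mul_one, ← mul_assoc,
      ← transpose_mul, hi, transpose_one, one_mul]
  have h0 : c.re ≠ 0 := fun h0 => by
    have := hγ 0 (by simp [QD.nrd, h0])
    rw [D.lm_zero, zero_mul, mul_zero] at this
    have h3 := congrArg (fun X => J (Fin D.g) ℚ * X) this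
    simp only [mul_zero, J_squared, zero_eq_neg] at h3
    exact one_ne_zero (D.lm_inj (D.lm_one.trans (h3.trans D.lm_zero.symm)))
  obtain ⟨x, hx⟩ := D.nrd_surj h0
  refine ⟨⟨D.lm x * Φ⁻¹, SymplecticGroup.mem_iff'.2 (hγ x hx)⟩, fun b => ?_⟩
  have h3 : Φ⁻¹ * r b = D.rm b * Φ⁻¹ := by
    rw [← mul_one (Φ⁻¹ * r b), ← hi, mul_assoc, ← mul_assoc (r b), ← hc, ← mul_assoc,
      ← mul_assoc, hi', one_mul]
  change D.lm x * Φ⁻¹ * r b = D.rm b * (D.lm x * Φ⁻¹)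
  rw [mul_assoc, h3, ← mul_assoc, D.lm_rm, mul_assoc]

/-- the conjugate of a point of the locus, before approximation -/
theorem trans0 {σ : ℂ ≃+* ℂ} {s : ℤˣ} {u : Mi D.g Af} (hu : D.At (chi ℂ σ) s u) {τ : Mc D.g}
    (hτ : τ ∈ D.Loc) : ∃ τ' ∈ D.Loc, ∃ h, Sim 1 h ∧ (∀ b, h * am (D.rm b) = am (D.rm b) * h) ∧
      Rel σ τ τ' (h * u) := by
  obtain ⟨τ1, u1, h1⟩ := conj D.g σ τ hτ.1
  choose f hf hm using fun b => end_row (neat _) σ τ τ1 τ τ1 u1 u1 h1 h1 _ (hτ.2 b)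
  have hS : Sim σ u := hu.sim
  have h2 : Sim 1 (u1 * ui σ u) := by simpa using h1.sim.mul (hS.inv hS.mul_ui)
  have h3 : ∀ b, u1 * ui σ u * am (D.rm b) = am (f (QD.al s b)) * (u1 * ui σ u) := fun b => by
    have := hu.comm (QD.al s b)
    rw [QD.al_al] at this
    rw [← mul_assoc, ← hf, ← mul_one (_ * am (D.rm b)), ← hS.mul_ui, mul_assoc, mul_assoc,
      ← mul_assoc (am (D.rm b)), ← this, ← mul_assoc (ui σ u), ← mul_assoc (ui σ u), hS.ui_mul,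
      one_mul, mul_assoc]
  obtain ⟨γ, hγ⟩ := desc h2 h3
  refine ⟨_, QD.loc_act h1.h' γ (fun b => hm _) hγ, am γ.1 * (u1 * ui σ u),
    by simpa using (sim_sp γ).mul h2, fun b => ?_, ?_⟩
  · rw [mul_assoc, h3, ← mul_assoc, ← am_mul, hγ, am_mul, mul_assoc]
  · rw [mul_assoc, mul_assoc, hS.ui_mul, mul_one]
    exact h1.left γ

/-- the conjugate of a point of the locus -/
theorem trans1 (hA : SAD D) {σ : ℂ ≃+* ℂ} {s : ℤˣ} {u : Mi D.g Af} (hu : D.At (chi ℂ σ) s u)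
    {τ : Mc D.g} (hτ : τ ∈ D.Loc) {n : ℕ} (hn : 0 < n) :
    ∃ τ' ∈ D.Loc, ∃ u', D.At (chi ℂ σ) s u' ∧ Mn n (u' - u) ∧ Rel σ τ τ' u' := by
  obtain ⟨τ1, h1, h, h2, h3, h4⟩ := trans0 hu hτ
  obtain ⟨d, hd, H⟩ := exists_cont_r (m := Ix D.g) u
  obtain ⟨b, hb, h5⟩ := hA h h2 h3 _ (Nat.mul_pos hd hn)
  refine ⟨_, QD.loc_sp h1 hb, am (D.lm b) * (h * u), ?_, ?_, h4.left (D.sp b hb)⟩
  · simpa using (QD.at_lm hb).mul ((QD.at_one h2 h3).mul hu)
  · have := H n _ h5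
    rwa [sub_mul, one_mul, mul_assoc] at this

/-- **TRANS** -/
theorem trans_of (hA : SAD D) {j : Qb →+* ℂ} (e : EE D η) {s : ℂ ≃+* ℂ}
    (hs : ∀ a, s (j a) = j (sg e a)) {τ : Mc D.g} (hτ : τ ∈ D.Loc) {n : ℕ} (hn : 0 < n) :
    ∃ τ' ∈ D.Loc, ∃ e' : EE D η, sg e' = sg e ∧ Mn n (uu e' - uu e) ∧ Rel s τ τ' (uu e') := by
  have h1 := at_uu e
  rw [← chi_ext hs] at h1
  obtain ⟨τ', h2, u', h3, h4, h5⟩ := trans1 hA h1 hτ hn
  rw [chi_ext hs] at h3
  obtain ⟨e', h6, rfl⟩ := exists_EE _ h3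
  exact ⟨τ', h2, e', h6, h4, h5⟩

end Vale.Agent.P022K.PM
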